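import Mathlib

-- ▼ part R147/StNet
section

/-!
R147, structure block (helper505), part 1: symmetric Markov kernels of constant degree.
Port of the walk part of R182's Gromov library from Cayley graphs to vertex transitive graphs.
-/

set_option autoImplicit false
set_option linter.unusedSectionVars false
set_option linter.unusedSimpArgs false

namespace Crest.Agent.R147.St

open Function Finset

section FS

variable {X : Type*}

/-- Finite support. -/
def FS (f : X → ℝ) : Prop := (support f).Finite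

lemma FS.summable {f : X → ℝ} (hf : FS f) : Summable f := summable_of_hasFiniteSupport hf

lemma FS.mono {f g : X → ℝ} (hf : FS f) (h : ∀ x, f x = 0 → g x = 0) : FS g :=
  Set.Finite.subset hf fun x hx => by
    intro h0
    exact hx (h x h0)

lemma FS.mul_left {f : X → ℝ} (hf : FS f) (g : X → ℝ) : FS (fun x => g x * f x) :=
  hf.mono fun x hx => by simp [hx]

lemma FS.mul_right {f : X → ℝ} (hf : FS f) (g : X → ℝ) : FS (fun x => f x * g x) :=
  hf.mono fun x hx => by simp [hx]

lemma FS.add {f g : X → ℝ} (hf : FS f) (hg : FS g) : FS (fun x => f x + g x) := by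
  refine Set.Finite.subset (hf.union hg) fun x hx => ?_
  by_contra h
  simp only [Set.mem_union, mem_support, not_or, not_not] at h
  exact hx (by simp [h.1, h.2])

lemma FS.sub {f g : X → ℝ} (hf : FS f) (hg : FS g) : FS (fun x => f x - g x) := by
  refine Set.Finite.subset (hf.union hg) fun x hx => ?_
  by_contra h
  simp only [Set.mem_union, mem_support, not_or, not_not] at h
  exact hx (by simp [h.1, h.2])

lemma FS.zero : FS (fun _ : X => (0 : ℝ)) := by
  unfold FS
  simp

lemma FS.sum {κ : Type*} {s : Finset κ} {f : κ → X → ℝ} (hf : ∀ i ∈ s, FS (f i)) :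
    FS (fun x => ∑ i ∈ s, f i x) := by
  classical
  induction s using Finset.induction_on with
  | empty => simpa using FS.zero
  | insert a s ha ih =>
    have h1 := (hf a (Finset.mem_insert_self a s)).add
      (ih fun i hi => hf i (Finset.mem_insert_of_mem hi))
    simpa [Finset.sum_insert ha] using h1

lemma FS.const_mul {f : X → ℝ} (hf : FS f) (c : ℝ) : FS (fun x => c * f x) :=
  hf.mono (fun x hx => by simp [hx])


lemma FS.sq {f : X → ℝ} (hf : FS f) : FS (fun x => f x ^ 2) := hf.mono fun x hx => by simp [hx]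

lemma sqrt_fs {f : X → ℝ} (hf : FS f) : FS (fun x => Real.sqrt (f x)) :=
  hf.mono fun x hx => by simp [hx]

lemma tsum_cs {u v : X → ℝ} (hu : FS u) (hv : FS v) :
    (∑' x, u x * v x) ^ 2 ≤ (∑' x, u x ^ 2) * ∑' x, v x ^ 2 := by
  classical
  set F : Finset X := hu.toFinset ∪ hv.toFinset with hF
  have hu0 : ∀ x ∉ F, u x = 0 := by
    intro x hx
    by_contra h
    exact hx (Finset.mem_union.2 (Or.inl ((Set.Finite.mem_toFinset hu).2 h)))
  have hv0 : ∀ x ∉ F, v x = 0 := by
    intro x hx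
    by_contra h
    exact hx (Finset.mem_union.2 (Or.inr ((Set.Finite.mem_toFinset hv).2 h)))
  rw [tsum_eq_sum (s := F) (fun x hx => by simp [hu0 x hx]),
    tsum_eq_sum (s := F) (fun x hx => by simp [hu0 x hx]),
    tsum_eq_sum (s := F) (fun x hx => by simp [hv0 x hx])]
  exact Finset.sum_mul_sq_le_sq_mul_sq F u v

end FS

/-- a connected graph (with loops) of constant degree on `X`, given by neighbourhoods. -/
structure Net (X : Type*) where
  nb : X → Finset X
  N : ℕ
  card : ∀ x, (nb x).card = N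
  self : ∀ x, x ∈ nb x
  symm : ∀ {x y}, y ∈ nb x → x ∈ nb y
  conn : ∀ x y, Relation.ReflTransGen (fun u v => v ∈ nb u) x y

namespace Net

variable {X : Type*} (A : Net X)

/-- Markov operator. -/
noncomputable def P (f : X → ℝ) (x : X) : ℝ := (A.N : ℝ)⁻¹ * ∑ y ∈ A.nb x, f y

lemma N_pos (x : X) : (0 : ℝ) < A.N := by
  rw [← A.card x]
  exact_mod_cast Finset.card_pos.2 ⟨x, A.self x⟩

lemma P_const (c : ℝ) (x : X) : A.P (fun _ => c) x = c := by
  have := (A.N_pos x).ne'
  simp [P, A.card x]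
  field_simp

lemma P_add (f g : X → ℝ) (x : X) : A.P (fun y => f y + g y) x = A.P f x + A.P g x := by
  simp [P, Finset.sum_add_distrib, mul_add]

lemma P_sub (f g : X → ℝ) (x : X) : A.P (fun y => f y - g y) x = A.P f x - A.P g x := by
  simp [P, Finset.sum_sub_distrib, mul_sub]

lemma P_smul (c : ℝ) (f : X → ℝ) (x : X) : A.P (fun y => c * f y) x = c * A.P f x := by
  simp only [P, ← Finset.mul_sum]; ring

lemma P_mono {f g : X → ℝ} {x : X} (h : ∀ y ∈ A.nb x, f y ≤ g y) : A.P f x ≤ A.P g x := by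
  unfold P
  exact mul_le_mul_of_nonneg_left (Finset.sum_le_sum fun i hi => h i hi)
    (inv_nonneg.mpr (A.N_pos x).le)

lemma P_nonneg {f : X → ℝ} (h : ∀ y, 0 ≤ f y) (x : X) : 0 ≤ A.P f x := by
  unfold P
  exact mul_nonneg (inv_nonneg.mpr (A.N_pos x).le) (Finset.sum_nonneg fun i _ => h i)

lemma P_congr {f g : X → ℝ} {x : X} (h : ∀ y ∈ A.nb x, f y = g y) : A.P f x = A.P g x := by
  unfold P
  rw [Finset.sum_congr rfl h]

lemma le_N_mul_P {f : X → ℝ} (h : ∀ y, 0 ≤ f y) {x y : X} (hy : y ∈ A.nb x) :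
    f y ≤ A.N * A.P f x := by
  have h1 : f y ≤ ∑ j ∈ A.nb x, f j := Finset.single_le_sum (fun j _ => h j) hy
  have h2 : (A.N : ℝ) * A.P f x = ∑ j ∈ A.nb x, f j := by
    unfold P
    rw [← mul_assoc, mul_inv_cancel₀ (A.N_pos x).ne', one_mul]
  rw [h2]; exact h1

/-- the transition probabilities. -/
noncomputable def p : ℕ → X → X → ℝ
  | 0, x, z => by classical exact if x = z then 1 else 0
  | n + 1, x, z => A.P (fun y => p n y z) x

lemma p_zero (x z : X) [Decidable (x = z)] : A.p 0 x z = if x = z then 1 else 0 := by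
  unfold p
  split_ifs <;> simp_all

lemma p_succ (n : ℕ) (x z : X) : A.p (n + 1) x z = A.P (fun y => A.p n y z) x := rfl

lemma p_succ' (n : ℕ) (x z : X) : A.p (n + 1) x z = A.P (fun y => A.p n x y) z := by
  classical
  induction n generalizing x z with
  | zero =>
    rw [p_succ]
    unfold P
    simp only [p_zero]
    by_cases h : z ∈ A.nb x
    · have h' := A.symm h
      rw [Finset.sum_ite_eq' (A.nb x) z, if_pos h, Finset.sum_ite_eq (A.nb z) x, if_pos h']
    · have h' : x ∉ A.nb z := fun h1 => h (A.symm h1)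
      rw [Finset.sum_ite_eq' (A.nb x) z, if_neg h, Finset.sum_ite_eq (A.nb z) x, if_neg h']
  | succ n ih =>
    have h0 : A.p (n + 1 + 1) x z = A.P (fun y => A.P (fun w => A.p n y w) z) x := by
      rw [p_succ]
      exact A.P_congr fun y _ => ih y z
    have h1 : A.P (fun y => A.p (n + 1) x y) z = A.P (fun y => A.P (fun w => A.p n w y) x) z := rfl
    rw [h0, h1]
    unfold P
    rw [Finset.mul_sum, Finset.mul_sum]
    simp_rw [Finset.mul_sum]
    rw [Finset.sum_comm]


lemma p_nonneg (n : ℕ) (x z : X) : 0 ≤ A.p n x z := by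
  classical
  induction n generalizing x z with
  | zero => rw [p_zero]; split_ifs <;> norm_num
  | succ n ih => exact A.P_nonneg (fun y => ih _ _) _

lemma P_fs {κ : Type*} {f : X → κ → ℝ} {x : X} (hf : ∀ y ∈ A.nb x, FS (f y)) :
    FS (fun z => A.P (fun y => f y z) x) := by
  have : FS (fun z => ∑ y ∈ A.nb x, f y z) := FS.sum hf
  exact this.const_mul _

lemma p_fs (n : ℕ) (x : X) : FS (A.p n x) := by
  classical
  induction n generalizing x with
  | zero =>
    refine Set.Finite.subset (Set.finite_singleton x) ?_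
    intro z hz
    by_contra h
    apply hz
    rw [p_zero, if_neg (fun h' => h h'.symm)]
  | succ n ih => exact A.P_fs fun y _ => ih y

lemma tsum_P {κ : Type*} {f : X → κ → ℝ} {x : X} (hf : ∀ y ∈ A.nb x, FS (f y)) :
    ∑' z, A.P (fun y => f y z) x = A.P (fun y => ∑' z, f y z) x := by
  unfold P
  rw [tsum_mul_left, Summable.tsum_finsetSum]
  intro i hi
  exact (hf i hi).summable

/-- expectation at time `n` of the walk started at `x`. -/
noncomputable def E (n : ℕ) (f : X → ℝ) (x : X) : ℝ := (A.P^[n] f) x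

lemma E_zero (f : X → ℝ) (x : X) : A.E 0 f x = f x := rfl

lemma E_succ (n : ℕ) (f : X → ℝ) (x : X) : A.E (n + 1) f x = A.E n (A.P f) x := rfl

lemma E_succ_left (n : ℕ) (f : X → ℝ) (x : X) : A.E (n + 1) f x = A.P (A.E n f) x := by
  unfold E
  rw [Function.iterate_succ_apply']

lemma E_eq (n : ℕ) (f : X → ℝ) (x : X) : A.E n f x = ∑' z, A.p n x z * f z := by
  classical
  induction n generalizing x with
  | zero =>
    rw [tsum_eq_single x]
    · rw [p_zero, if_pos rfl, one_mul]; rfl
    · intro z hz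
      rw [p_zero, if_neg (fun h => hz h.symm), zero_mul]
  | succ n ih =>
    rw [E_succ_left]
    have h1 : ∀ z, A.p (n + 1) x z * f z = A.P (fun y => A.p n y z * f z) x := by
      intro z
      rw [p_succ, mul_comm, ← P_smul]
      exact A.P_congr fun y _ => by ring
    rw [tsum_congr h1, A.tsum_P (fun y _ => (A.p_fs n y).mul_right f)]
    exact A.P_congr fun y _ => ih y

lemma E_add (n : ℕ) (f g : X → ℝ) (x : X) :
    A.E n (fun y => f y + g y) x = A.E n f x + A.E n g x := by
  induction n generalizing x with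
  | zero => rfl
  | succ n ih =>
    rw [E_succ_left, E_succ_left, E_succ_left, ← P_add]
    exact A.P_congr fun y _ => ih y

lemma E_smul (n : ℕ) (c : ℝ) (f : X → ℝ) (x : X) :
    A.E n (fun y => c * f y) x = c * A.E n f x := by
  induction n generalizing x with
  | zero => rfl
  | succ n ih =>
    rw [E_succ_left, E_succ_left, ← P_smul]
    exact A.P_congr fun y _ => ih y

lemma E_sub (n : ℕ) (f g : X → ℝ) (x : X) :
    A.E n (fun y => f y - g y) x = A.E n f x - A.E n g x := by
  induction n generalizing x with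
  | zero => rfl
  | succ n ih =>
    rw [E_succ_left, E_succ_left, E_succ_left, ← P_sub]
    exact A.P_congr fun y _ => ih y

lemma E_const (n : ℕ) (c : ℝ) (x : X) : A.E n (fun _ => c) x = c := by
  induction n generalizing x with
  | zero => rfl
  | succ n ih =>
    rw [E_succ_left]
    rw [A.P_congr fun y _ => ih y, P_const]

lemma E_mono (n : ℕ) {f g : X → ℝ} (h : ∀ y, f y ≤ g y) (x : X) : A.E n f x ≤ A.E n g x := by
  induction n generalizing x with
  | zero => exact h x
  | succ n ih =>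
    rw [E_succ_left, E_succ_left]
    exact A.P_mono fun y _ => ih y

lemma E_nonneg (n : ℕ) {f : X → ℝ} (h : ∀ y, 0 ≤ f y) (x : X) : 0 ≤ A.E n f x := by
  have := A.E_mono n (f := fun _ => 0) h x
  rwa [E_const] at this

lemma E_congr (n : ℕ) {f g : X → ℝ} (h : ∀ y, f y = g y) (x : X) : A.E n f x = A.E n g x := by
  rw [show f = g from funext h]

lemma E_finset_sum {κ : Type*} (s : Finset κ) (n : ℕ) (f : κ → X → ℝ) (x : X) :
    A.E n (fun y => ∑ i ∈ s, f i y) x = ∑ i ∈ s, A.E n (f i) x := by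
  classical
  induction s using Finset.induction_on with
  | empty => simp only [Finset.sum_empty]; exact A.E_const n 0 x
  | insert a s ha ih =>
    rw [Finset.sum_insert ha, ← ih, ← E_add]
    exact A.E_congr n (fun y => by rw [Finset.sum_insert ha]) x

lemma P_finset_sum {κ : Type*} (s : Finset κ) (f : κ → X → ℝ) (x : X) :
    A.P (fun y => ∑ i ∈ s, f i y) x = ∑ i ∈ s, A.P (f i) x := by
  unfold P
  rw [Finset.sum_comm, Finset.mul_sum]

lemma p_sum (n : ℕ) (x : X) : ∑' z, A.p n x z = 1 := by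
  have := A.E_const n 1 x
  rw [E_eq] at this
  simpa using this

/-- Harmonic functions. -/
def Harm (h : X → ℝ) : Prop := ∀ x, A.P h x = h x

lemma Harm.E_eq' {A : Net X} {h : X → ℝ} (hh : A.Harm h) (n : ℕ) (x : X) : A.E n h x = h x := by
  induction n generalizing x with
  | zero => rfl
  | succ n ih =>
    rw [E_succ_left, A.P_congr (fun y _ => ih y)]
    exact hh x

/-- `Lip L h`: the increments of `h` along edges are bounded by `L`. -/
def Lip (L : ℝ) (h : X → ℝ) : Prop := ∀ x, ∀ y ∈ A.nb x, |h y - h x| ≤ L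

lemma Harm.sum_diff {A : Net X} {h : X → ℝ} (hh : A.Harm h) (x : X) :
    A.P (fun y => h y - h x) x = 0 := by
  rw [A.P_sub, P_const, hh x, sub_self]

/-- square of the gradient. -/
noncomputable def gr (h : X → ℝ) (x : X) : ℝ := A.P (fun y => (h y - h x) ^ 2) x

lemma Harm.E_sq_succ {A : Net X} {h : X → ℝ} (hh : A.Harm h) (c : ℝ) (n : ℕ) (x : X) :
    A.E (n + 1) (fun y => (h y - c) ^ 2) x = A.E n (fun y => (h y - c) ^ 2) x
      + A.E n (A.gr h) x := by
  rw [E_succ, ← E_add]
  refine A.E_congr n (fun y => ?_) x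
  have h1 : A.P (fun z => (h z - c) ^ 2) y
      = A.P (fun z => ((h y - c) ^ 2 + 2 * (h y - c) * (h z - h y)) + (h z - h y) ^ 2) y :=
    A.P_congr fun z _ => by ring
  rw [h1, P_add, P_add, P_const, P_smul, hh.sum_diff, mul_zero, add_zero]
  rfl

lemma Harm.E_sq {A : Net X} {h : X → ℝ} (hh : A.Harm h) (n : ℕ) (x : X) :
    A.E n (fun y => (h y - h x) ^ 2) x = ∑ k ∈ Finset.range n, A.E k (A.gr h) x := by
  induction n with
  | zero => simp [E_zero]
  | succ n ih => rw [hh.E_sq_succ, ih, Finset.sum_range_succ]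

lemma gr_le {h : X → ℝ} {L : ℝ} (hL : A.Lip L h) (x : X) : A.gr h x ≤ L ^ 2 := by
  calc A.gr h x ≤ A.P (fun _ => L ^ 2) x := by
        apply A.P_mono
        intro y hy
        have := hL x y hy
        rw [← sq_abs]
        exact pow_le_pow_left₀ (abs_nonneg _) this 2
    _ = L ^ 2 := A.P_const _ _

lemma Harm.E_sq_le {A : Net X} {h : X → ℝ} {L : ℝ} (hh : A.Harm h) (hL : A.Lip L h)
    (n : ℕ) (x : X) : A.E n (fun y => (h y - h x) ^ 2) x ≤ n * L ^ 2 := by
  rw [hh.E_sq]
  have : ∀ k ∈ Finset.range n, A.E k (A.gr h) x ≤ L ^ 2 := by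
    intro k _
    calc _ ≤ A.E k (fun _ => L ^ 2) x := A.E_mono k (fun y => A.gr_le hL y) x
      _ = L ^ 2 := A.E_const k _ _
  calc _ ≤ ∑ k ∈ Finset.range n, L ^ 2 := Finset.sum_le_sum this
    _ = n * L ^ 2 := by simp

lemma Harm.E_four_le {A : Net X} {h : X → ℝ} {L : ℝ} (hh : A.Harm h) (hL : A.Lip L h)
    (n : ℕ) (x : X) : A.E n (fun y => (h y - h x) ^ 4) x ≤ 4 * n ^ 2 * L ^ 4 := by
  induction n with
  | zero => simp [E_zero]
  | succ n ih =>
    set c := h x with hc
    have key : A.E (n + 1) (fun y => (h y - c) ^ 4) x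
        ≤ A.E n (fun y => (h y - c) ^ 4 + (8 * L ^ 2 * (h y - c) ^ 2 + 3 * L ^ 4)) x := by
      rw [E_succ]
      apply A.E_mono
      intro y
      have e1 : ∀ z ∈ A.nb y, (h z - c) ^ 4 ≤ ((h y - c) ^ 4 + 4 * (h y - c) ^ 3 * (h z - h y))
          + (8 * L ^ 2 * (h y - c) ^ 2 + 3 * L ^ 4) := by
        intro z hz
        have hd := hL y z hz
        set t := h z - h y with ht
        set u := h y - c with hu
        have hx : h z - c = u + t := by rw [ht, hu]; ring
        rw [hx]
        have ht2 : t ^ 2 ≤ L ^ 2 := by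
          rw [← sq_abs]; exact pow_le_pow_left₀ (abs_nonneg _) hd 2
        have ht2' : 0 ≤ t ^ 2 := sq_nonneg t
        have hL2 : 0 ≤ L ^ 2 := sq_nonneg L
        have e2 : (u + t) ^ 4 = u ^ 4 + 4 * u ^ 3 * t + 6 * u ^ 2 * t ^ 2
            + t ^ 2 * (4 * u * t) + (t ^ 2) ^ 2 := by ring
        have e3 : 4 * u * t ≤ 2 * u ^ 2 + 2 * t ^ 2 := by nlinarith [sq_nonneg (u - t)]
        have e4 : t ^ 2 * (4 * u * t) ≤ t ^ 2 * (2 * u ^ 2 + 2 * t ^ 2) :=
          mul_le_mul_of_nonneg_left e3 ht2'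
        have e5 : t ^ 2 * u ^ 2 ≤ L ^ 2 * u ^ 2 :=
          mul_le_mul_of_nonneg_right ht2 (sq_nonneg _)
        have e6 : (t ^ 2) ^ 2 ≤ (L ^ 2) ^ 2 := pow_le_pow_left₀ ht2' ht2 2
        rw [e2]
        nlinarith
      calc A.P (fun z => (h z - c) ^ 4) y
          ≤ A.P (fun z => ((h y - c) ^ 4 + 4 * (h y - c) ^ 3 * (h z - h y))
            + (8 * L ^ 2 * (h y - c) ^ 2 + 3 * L ^ 4)) y := A.P_mono e1
        _ = _ := by
          rw [P_add, P_add, P_const, P_const, P_smul, hh.sum_diff, mul_zero, add_zero]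
    have h2 := hh.E_sq_le hL n x
    rw [E_add, E_add, E_smul, E_const] at key
    have h3 : 8 * L ^ 2 * A.E n (fun y => (h y - c) ^ 2) x ≤ 8 * L ^ 2 * (n * L ^ 2) :=
      mul_le_mul_of_nonneg_left h2 (by positivity)
    have hn : (0 : ℝ) ≤ n := Nat.cast_nonneg n
    have hL4 : 0 ≤ L ^ 4 := by positivity
    calc _ ≤ 4 * (n : ℝ) ^ 2 * L ^ 4 + (8 * L ^ 2 * (n * L ^ 2) + 3 * L ^ 4) := by linarith
      _ ≤ 4 * ((n + 1 : ℕ) : ℝ) ^ 2 * L ^ 4 := by
        push_cast
        nlinarith

/-- Hellinger distance squared of the laws started at two points. -/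
noncomputable def D (n : ℕ) (x y : X) : ℝ :=
  ∑' z, (Real.sqrt (A.p n y z) - Real.sqrt (A.p n x z)) ^ 2


lemma sq_sub_fs {f g : X → ℝ} (hf : FS f) (hg : FS g) :
    FS (fun z => (Real.sqrt (f z) - Real.sqrt (g z)) ^ 2) :=
  ((sqrt_fs hf).sub (sqrt_fs hg)).sq

/-- Comparison of expectations started at two points. -/
lemma diff_sq_le (n : ℕ) (x y : X) (f : X → ℝ) :
    (A.E n f y - A.E n f x) ^ 2
      ≤ A.D n x y * (2 * (A.E n (fun z => f z ^ 2) y + A.E n (fun z => f z ^ 2) x)) := by
  set p := A.p n y with hp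
  set r := A.p n x with hr
  have hpf : FS p := A.p_fs n y
  have hrf : FS r := A.p_fs n x
  have hp0 : ∀ x, 0 ≤ p x := fun x => A.p_nonneg n _ _
  have hr0 : ∀ x, 0 ≤ r x := fun x => A.p_nonneg n _ _
  rw [A.E_eq n f, A.E_eq n f, A.E_eq n (fun z => f z ^ 2), A.E_eq n (fun z => f z ^ 2)]
  rw [← hp, ← hr]
  have e5 : (∑' x, p x * f x) - ∑' x, r x * f x
      = ∑' x, (Real.sqrt (p x) - Real.sqrt (r x)) * ((Real.sqrt (p x) + Real.sqrt (r x)) * f x) := by
    rw [← (hpf.mul_right f).summable.tsum_sub (hrf.mul_right f).summable]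
    refine tsum_congr fun x => ?_
    have h1 := Real.mul_self_sqrt (hp0 x)
    have h2 := Real.mul_self_sqrt (hr0 x)
    have h3 : (Real.sqrt (p x) - Real.sqrt (r x)) * (Real.sqrt (p x) + Real.sqrt (r x))
        = p x - r x := by
      linear_combination h1 - h2
    rw [← mul_assoc, h3]; ring
  have fu : FS fun x => Real.sqrt (p x) - Real.sqrt (r x) := (sqrt_fs hpf).sub (sqrt_fs hrf)
  have fv : FS fun x => (Real.sqrt (p x) + Real.sqrt (r x)) * f x :=
    ((sqrt_fs hpf).add (sqrt_fs hrf)).mul_right f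
  rw [e5]
  refine (tsum_cs fu fv).trans ?_
  have hD : A.D n x y = ∑' x, (Real.sqrt (p x) - Real.sqrt (r x)) ^ 2 := rfl
  rw [hD]
  apply mul_le_mul_of_nonneg_left _ (tsum_nonneg fun _ => sq_nonneg _)
  have s1 := (hpf.mul_right fun x => f x ^ 2).summable
  have s2 := (hrf.mul_right fun x => f x ^ 2).summable
  rw [← s1.tsum_add s2, ← tsum_mul_left]
  have fv2 : FS fun x => ((Real.sqrt (p x) + Real.sqrt (r x)) * f x) ^ 2 := fv.sq
  apply fv2.summable.tsum_le_tsum _ ((s1.add s2).mul_left 2)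
  intro x
  have h1 := Real.mul_self_sqrt (hp0 x)
  have h2 := Real.mul_self_sqrt (hr0 x)
  have h3 : (Real.sqrt (p x) + Real.sqrt (r x)) ^ 2 ≤ 2 * (p x + r x) := by
    nlinarith [sq_nonneg (Real.sqrt (p x) - Real.sqrt (r x))]
  calc ((Real.sqrt (p x) + Real.sqrt (r x)) * f x) ^ 2
      = (Real.sqrt (p x) + Real.sqrt (r x)) ^ 2 * f x ^ 2 := by ring
    _ ≤ (2 * (p x + r x)) * f x ^ 2 := mul_le_mul_of_nonneg_right h3 (sq_nonneg _)
    _ = 2 * (p x * f x ^ 2 + r x * f x ^ 2) := by ring

/-- induction along edges. -/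
lemma conn_induction {q : X → Prop} {x : X} (h0 : q x) (h : ∀ y, q y → ∀ z ∈ A.nb y, q z)
    (y : X) : q y := by
  induction A.conn x y with
  | refl => exact h0
  | tail _ hbc ih => exact h _ ih _ hbc

end Net

end Crest.Agent.R147.St
private theorem rz_365a1aca3f : type_of% @_root_.Crest.Agent.R147.St.Net.p.eq_def := @_root_.Crest.Agent.R147.St.Net.p.eq_def -- L149
end

-- ▼ part R147/StEnt

/-!
R147, structure block (helper505), part 2: entropy of the walk on a transitive graph of weakly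
polynomial growth; `D n x y ≤ K / (n + 1)` for neighbours and infinitely many `n`.
-/

set_option autoImplicit false
set_option linter.unusedSectionVars false
set_option linter.unusedSimpArgs false

namespace Crest.Agent.R147.St

open Function Finset

namespace Net

variable {X : Type*} (A : Net X)

/-- Pointwise entropy inequality. -/
lemma pointwise (p : X → ℝ) (hp : ∀ i, 0 ≤ p i) (x : X) :
    A.P (fun i => (Real.sqrt (p i) - Real.sqrt (A.P p x)) ^ 2) x
      ≤ Real.negMulLog (A.P p x) - A.P (fun i => Real.negMulLog (p i)) x := by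
  set r := A.P p x with hr
  have hr0 : 0 ≤ r := A.P_nonneg hp x
  have e1 : ∀ i, (Real.sqrt (p i) - Real.sqrt r) ^ 2
      = p i + (r - 2 * (Real.sqrt (p i) * Real.sqrt r)) := by
    intro i
    have h1 := Real.sq_sqrt (hp i)
    have h2 := Real.sq_sqrt hr0
    linear_combination h1 + h2
  have e2 : A.P (fun i => (Real.sqrt (p i) - Real.sqrt r) ^ 2) x
      = A.P (fun i => 2 * p i - 2 * (Real.sqrt (p i) * Real.sqrt r)) x := by
    have ea : A.P (fun i => (Real.sqrt (p i) - Real.sqrt r) ^ 2) x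
        = r + (r - 2 * A.P (fun i => Real.sqrt (p i) * Real.sqrt r) x) := by
      simp_rw [e1]
      rw [P_add, P_sub, P_const, P_smul]
    have eb : A.P (fun i => 2 * p i - 2 * (Real.sqrt (p i) * Real.sqrt r)) x
        = 2 * r - 2 * A.P (fun i => Real.sqrt (p i) * Real.sqrt r) x := by
      rw [P_sub, P_smul, P_smul]
    rw [ea, eb]
    ring
  rw [e2]
  rcases hr0.eq_or_lt with h0 | hpos
  · have hp0 : ∀ i ∈ A.nb x, p i = 0 := by
      intro i hi
      have := A.le_N_mul_P hp hi
      rw [← hr, ← h0, mul_zero] at this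
      exact le_antisymm this (hp i)
    have h1 : A.P (fun i => 2 * p i - 2 * (Real.sqrt (p i) * Real.sqrt r)) x = 0 := by
      rw [A.P_congr (g := fun _ => (0 : ℝ)) (fun i hi => by rw [hp0 i hi]; simp), P_const]
    have h2 : A.P (fun i => Real.negMulLog (p i)) x = 0 := by
      rw [A.P_congr (g := fun _ => (0 : ℝ)) (fun i hi => by rw [hp0 i hi]; simp), P_const]
    rw [h1, h2, ← h0]
    simp
  · have e3 : Real.negMulLog r = A.P (fun i => -(Real.log r) * p i) x := by
      rw [P_smul, ← hr, Real.negMulLog]; ring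
    rw [e3, ← P_sub]
    apply P_mono
    intro i _
    rcases (hp i).eq_or_lt with hi | hi
    · rw [← hi]; simp
    · have hs : 0 < Real.sqrt (r / p i) := Real.sqrt_pos.mpr (div_pos hpos hi)
      have h1 := Real.log_le_sub_one_of_pos hs
      rw [Real.log_sqrt (div_pos hpos hi).le, Real.log_div hpos.ne' hi.ne'] at h1
      have h2 : p i * Real.sqrt (r / p i) = Real.sqrt (p i) * Real.sqrt r := by
        rw [Real.sqrt_div hr0]
        have h3 := Real.mul_self_sqrt (hp i)
        have h4 : Real.sqrt (p i) ≠ 0 := (Real.sqrt_pos.mpr hi).ne'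
        field_simp
        rw [sq, h3]
      have h5 : p i * ((Real.log r - Real.log (p i)) / 2) ≤ p i * (Real.sqrt (r / p i) - 1) :=
        mul_le_mul_of_nonneg_left h1 (hp i)
      rw [mul_sub, h2] at h5
      rw [Real.negMulLog]
      nlinarith

/-- Entropy of the walk. -/
noncomputable def H (n : ℕ) (x : X) : ℝ := ∑' z, Real.negMulLog (A.p n x z)

lemma nml_fs {f : X → ℝ} (hf : FS f) : FS (fun x => Real.negMulLog (f x)) :=
  hf.mono fun x hx => by simp [hx]

lemma H_succ_sub (n : ℕ) (x : X) :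
    A.P (fun y => ∑' z, (Real.sqrt (A.p n y z) - Real.sqrt (A.p (n + 1) x z)) ^ 2) x
      ≤ A.H (n + 1) x - A.P (A.H n) x := by
  have f1 : ∀ y, FS fun z => (Real.sqrt (A.p n y z) - Real.sqrt (A.p (n + 1) x z)) ^ 2 :=
    fun y => sq_sub_fs (A.p_fs n y) (A.p_fs (n + 1) x)
  rw [← A.tsum_P (fun y _ => f1 y)]
  have f2 : ∀ y, FS fun z => Real.negMulLog (A.p n y z) := fun y => nml_fs (A.p_fs n y)
  have e1 : A.P (A.H n) x = ∑' z, A.P (fun y => Real.negMulLog (A.p n y z)) x := by
    rw [A.tsum_P (fun y _ => f2 y)]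
    rfl
  have f3 : FS fun z => A.P (fun y => Real.negMulLog (A.p n y z)) x := A.P_fs (fun y _ => f2 y)
  have f4 : FS fun z => A.P (fun y => (Real.sqrt (A.p n y z)
        - Real.sqrt (A.p (n + 1) x z)) ^ 2) x := A.P_fs (fun y _ => f1 y)
  have f5 : FS fun z => Real.negMulLog (A.p (n + 1) x z) := nml_fs (A.p_fs _ _)
  rw [e1, H, ← f5.summable.tsum_sub f3.summable]
  apply f4.summable.tsum_le_tsum _ (f5.summable.sub f3.summable)
  intro z
  have := A.pointwise (fun y => A.p n y z) (fun y => A.p_nonneg n _ _) x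
  rw [← p_succ] at this
  exact this

lemma nml_le {w N : ℝ} (hw : 0 ≤ w) (hN : 0 < N) :
    Real.negMulLog w ≤ w * Real.log N + (N⁻¹ - w) := by
  rcases hw.eq_or_lt with h | h
  · rw [← h]; simp; positivity
  · have h1 := Real.log_le_sub_one_of_pos (x := (N * w)⁻¹) (by positivity)
    rw [Real.log_inv, Real.log_mul hN.ne' h.ne'] at h1
    have h2 := mul_le_mul_of_nonneg_left h1 hw
    have h3 : w * ((N * w)⁻¹ - 1) = N⁻¹ - w := by
      field_simp
    rw [h3] at h2
    rw [Real.negMulLog]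
    nlinarith

lemma H_le (n : ℕ) (x : X) (F : Finset X) (hF : ∀ z ∉ F, A.p n x z = 0) :
    A.H n x ≤ Real.log F.card := by
  have hs : ∑ z ∈ F, A.p n x z = 1 := by
    rw [← A.p_sum n x, tsum_eq_sum (s := F) (fun z hz => hF z hz)]
  have hne : F.Nonempty := by
    rw [Finset.nonempty_iff_ne_empty]
    intro h
    rw [h] at hs
    simp at hs
  have hN : (0 : ℝ) < F.card := by exact_mod_cast hne.card_pos
  unfold H
  rw [tsum_eq_sum (s := F) (fun z hz => by simp [hF z hz])]
  calc ∑ z ∈ F, Real.negMulLog (A.p n x z)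
      ≤ ∑ z ∈ F, (A.p n x z * Real.log F.card + ((F.card : ℝ)⁻¹ - A.p n x z)) :=
        Finset.sum_le_sum fun z _ => nml_le (A.p_nonneg n x z) hN
    _ = Real.log F.card := by
      rw [Finset.sum_add_distrib, ← Finset.sum_mul, Finset.sum_sub_distrib, hs,
        Finset.sum_const, nsmul_eq_mul, mul_inv_cancel₀ hN.ne']
      ring

/-- exhaustion: `B n` contains the ball of radius `n` about `o`. -/
def Exh (o : X) (B : ℕ → Finset X) : Prop :=
  o ∈ B 0 ∧ ∀ n x, x ∈ B n → ∀ y ∈ A.nb x, y ∈ B (n + 1)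

lemma p_supp {o : X} {B : ℕ → Finset X} (hB : A.Exh o B) (n : ℕ) :
    ∀ z, A.p n o z ≠ 0 → z ∈ B n := by
  classical
  induction n with
  | zero =>
    intro z hz
    have : o = z := by
      by_contra h
      apply hz
      rw [p_zero, if_neg h]
    rw [← this]; exact hB.1
  | succ n ih =>
    intro z hz
    by_contra hcon
    apply hz
    rw [p_succ', A.P_congr (g := fun _ => (0 : ℝ)), P_const]
    intro y hy
    by_contra h
    exact hcon (hB.2 n y (ih y h) z (A.symm hy))

/-- A sequence with logarithmic growth has small increments infinitely often. -/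
lemma exists_small_increment {u : ℕ → ℝ} {a : ℝ} {d : ℕ}
    (hu : ∃ᶠ n in Filter.atTop, u n ≤ a + d * Real.log ((n : ℝ) + 1)) (N : ℕ) :
    ∃ n ≥ N, u (n + 1) - u n ≤ (d + 1) / (n + 1) := by
  by_contra hcon
  push Not at hcon
  have h1 : ∀ k : ℕ, u N + (d + 1) * (Real.log (((N + k : ℕ) : ℝ) + 1) - Real.log (N + 1))
      ≤ u (N + k) := by
    intro k
    induction k with
    | zero => simp
    | succ k ih =>
      have h2 := hcon (N + k) (by omega)
      have h3 : Real.log (((N + (k + 1) : ℕ) : ℝ) + 1) - Real.log (((N + k : ℕ) : ℝ) + 1)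
          ≤ 1 / (((N + k : ℕ) : ℝ) + 1) := by
        have hpos : (0 : ℝ) < ((N + k : ℕ) : ℝ) + 1 := by positivity
        rw [← Real.log_div (by positivity) hpos.ne']
        refine (Real.log_le_sub_one_of_pos (by positivity)).trans (le_of_eq ?_)
        push_cast
        field_simp
        ring
      have h4 : (d + 1 : ℝ) * (Real.log (((N + (k + 1) : ℕ) : ℝ) + 1)
          - Real.log (((N + k : ℕ) : ℝ) + 1)) ≤ (d + 1) / (((N + k : ℕ) : ℝ) + 1) := by
        have := mul_le_mul_of_nonneg_left h3 (by positivity : (0 : ℝ) ≤ d + 1)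
        rwa [mul_one_div] at this
      rw [← add_assoc N k 1]
      rw [← add_assoc N k 1] at h4
      linarith
  have h7 : Filter.Tendsto (fun n : ℕ => Real.log ((n : ℝ) + 1)) Filter.atTop Filter.atTop := by
    apply Real.tendsto_log_atTop.comp
    apply Filter.tendsto_atTop_add_const_right
    exact tendsto_natCast_atTop_atTop
  obtain ⟨n, hn1, hn2, hn3⟩ := (hu.and_eventually ((h7.eventually (Filter.eventually_gt_atTop
    (a - u N + (d + 1) * Real.log (N + 1)))).and (Filter.eventually_ge_atTop N))).exists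
  obtain ⟨k, rfl⟩ := Nat.exists_eq_add_of_le hn3
  have h6 := (h1 k).trans hn1
  linarith

section action

variable {G : Type*} [Group G] [MulAction G X]

/-- the group acts by automorphisms. -/
def Equivar (G : Type*) [Group G] [MulAction G X] : Prop :=
  ∀ (g : G) (x y : X), y ∈ A.nb x → g • y ∈ A.nb (g • x)

variable {A} (hG : A.Equivar G)
include hG

lemma mem_smul_iff (g : G) (x y : X) : g • y ∈ A.nb (g • x) ↔ y ∈ A.nb x := by
  constructor
  · intro h
    have := hG g⁻¹ _ _ h
    simpa using this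
  · exact hG g x y

lemma P_act (f : X → ℝ) (g : G) (x : X) : A.P f (g • x) = A.P (fun y => f (g • y)) x := by
  unfold P
  congr 1
  symm
  refine Finset.sum_bij (fun y _ => g • y) ?_ ?_ ?_ ?_
  · intro y hy; exact hG g x y hy
  · intro a _ b _ hab; exact MulAction.injective g hab
  · intro b hb
    refine ⟨g⁻¹ • b, ?_, by simp⟩
    rw [← mem_smul_iff hG g]
    simpa using hb
  · intro y _; rfl

lemma p_act (n : ℕ) (g : G) (x z : X) : A.p n (g • x) (g • z) = A.p n x z := by
  classical
  induction n generalizing x z with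
  | zero =>
    rw [p_zero, p_zero]
    simp
  | succ n ih =>
    rw [p_succ, p_succ, P_act hG]
    exact A.P_congr fun y _ => ih y z

lemma E_act (n : ℕ) (f : X → ℝ) (g : G) (x : X) :
    A.E n f (g • x) = A.E n (fun y => f (g • y)) x := by
  induction n generalizing x with
  | zero => rfl
  | succ n ih =>
    rw [E_succ_left, E_succ_left, P_act hG]
    exact A.P_congr fun y _ => ih y

lemma tsum_act (f : X → ℝ) (g : G) : ∑' x, f (g • x) = ∑' x, f x :=
  (MulAction.toPerm g).tsum_eq f


lemma H_act (n : ℕ) (g : G) (x : X) : A.H n (g • x) = A.H n x := by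
  unfold H
  rw [← tsum_act hG _ g]
  exact tsum_congr fun z => by rw [p_act hG]

lemma H_eq [MulAction.IsPretransitive G X] (n : ℕ) (x y : X) : A.H n x = A.H n y := by
  obtain ⟨g, rfl⟩ := MulAction.exists_smul_eq G y x
  exact H_act hG n g y

lemma D_le [MulAction.IsPretransitive G X] (n : ℕ) {x y : X} (hy : y ∈ A.nb x) :
    A.D n x y ≤ 4 * A.N * (A.H (n + 1) x - A.H n x) := by
  set T : X → ℝ := fun y => ∑' z, (Real.sqrt (A.p n y z) - Real.sqrt (A.p (n + 1) x z)) ^ 2 with hT
  have hT0 : ∀ i, 0 ≤ T i := fun i => tsum_nonneg fun _ => sq_nonneg _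
  have hHx : A.P (A.H n) x = A.H n x := by
    rw [A.P_congr (g := fun _ => A.H n x) (fun y _ => H_eq hG n y x), P_const]
  have h2 : ∀ j ∈ A.nb x, T j ≤ A.N * (A.H (n + 1) x - A.H n x) := fun j hj =>
    (A.le_N_mul_P hT0 hj).trans
      (mul_le_mul_of_nonneg_left (by rw [← hHx]; exact A.H_succ_sub n x) (A.N_pos x).le)
  have f1 : ∀ y, FS fun z => (Real.sqrt (A.p n y z) - Real.sqrt (A.p (n + 1) x z)) ^ 2 :=
    fun y => sq_sub_fs (A.p_fs n y) (A.p_fs (n + 1) x)
  have f2 : FS fun z => (Real.sqrt (A.p n y z) - Real.sqrt (A.p n x z)) ^ 2 :=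
    sq_sub_fs (A.p_fs n y) (A.p_fs n x)
  have h3 : A.D n x y ≤ 2 * T y + 2 * T x := by
    rw [hT]
    simp only
    rw [← tsum_mul_left, ← tsum_mul_left,
      ← ((f1 y).const_mul 2).summable.tsum_add ((f1 x).const_mul 2).summable]
    apply f2.summable.tsum_le_tsum _
      (((f1 y).const_mul 2).summable.add ((f1 x).const_mul 2).summable)
    intro z
    nlinarith [sq_nonneg ((Real.sqrt (A.p n y z) - Real.sqrt (A.p (n + 1) x z))
      + (Real.sqrt (A.p n x z) - Real.sqrt (A.p (n + 1) x z)))]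
  nlinarith [h2 y hy, h2 x (A.self x)]

/-- Main estimate. -/
theorem exists_good [MulAction.IsPretransitive G X] {o : X} {B : ℕ → Finset X} {C d : ℕ}
    (hB : A.Exh o B) (hC : ∃ᶠ n in Filter.atTop, (B n).card ≤ C * (n + 1) ^ d) :
    ∃ K : ℝ, 0 < K ∧ ∀ M : ℕ, ∃ n ≥ M, ∀ x, ∀ y ∈ A.nb x, A.D n x y ≤ K / (n + 1) := by
  have hu : ∃ᶠ n in Filter.atTop, A.H n o ≤ Real.log C + d * Real.log ((n : ℝ) + 1) := by
    refine hC.mono fun n hn => ?_
    have h1 := A.H_le n o (B n) (fun z hz => by
      by_contra h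
      exact hz (A.p_supp hB n z h))
    have hpos : (0 : ℝ) < (B n).card := by
      have hs : ∃ z, A.p n o z ≠ 0 := by
        by_contra h
        push Not at h
        have := A.p_sum n o
        simp [h] at this
      obtain ⟨z, hz⟩ := hs
      exact_mod_cast Finset.card_pos.2 ⟨z, A.p_supp hB n z hz⟩
    have hle : ((B n).card : ℝ) ≤ C * ((n : ℝ) + 1) ^ d := by exact_mod_cast hn
    have hCpos : (0 : ℝ) < C := by
      by_contra h
      push Not at h
      have : (C : ℝ) * ((n : ℝ) + 1) ^ d ≤ 0 := mul_nonpos_of_nonpos_of_nonneg h (by positivity)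
      linarith
    calc A.H n o ≤ Real.log (B n).card := h1
      _ ≤ Real.log (C * ((n : ℝ) + 1) ^ d) := Real.log_le_log hpos hle
      _ = Real.log C + d * Real.log ((n : ℝ) + 1) := by
        rw [Real.log_mul hCpos.ne' (by positivity), Real.log_pow]
  have hN := A.N_pos o
  refine ⟨4 * A.N * (d + 1), by positivity, fun M => ?_⟩
  obtain ⟨n, hn, hsmall⟩ := exists_small_increment hu M
  refine ⟨n, hn, fun x y hy => ?_⟩
  calc A.D n x y ≤ 4 * A.N * (A.H (n + 1) x - A.H n x) := D_le hG n hy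
    _ = 4 * A.N * (A.H (n + 1) o - A.H n o) := by rw [H_eq hG (n + 1) x o, H_eq hG n x o]
    _ ≤ 4 * A.N * ((d + 1) / (n + 1)) := by gcongr
    _ = 4 * A.N * (d + 1) / (n + 1) := by ring

end action

end Net

end Crest.Agent.R147.St
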