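import Crest.Agent.R147.StLen
import Crest.Agent.R147.StEnt
import Crest.Agent.R147.StExist_Mg
import Crest.Agent.R147.StComp
import Crest.Agent.R182.GromovFinal
import Mathlib
import Crest.Prelude.Def_BondPerc

-- ▼ part R147/StQuot
section

/-!
R147, structure block (helper505), part 6: the transitive graph attached to a pseudo-length.
-/

set_option autoImplicit false
set_option linter.unusedSectionVars false

namespace Crest.Agent.R147.St

open Filter

section

variable {G : Type*} [Group G] {l : G → ℕ}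

/-- distance on the coset space. -/
noncomputable def dq (hl : PLen l) (x y : G ⧸ hl.K) : ℕ := l (x.out⁻¹ * y.out)

lemma dq_mk (hl : PLen l) (g h : G) : dq hl (g : G ⧸ hl.K) (h : G ⧸ hl.K) = l (g⁻¹ * h) := by
  unfold dq
  obtain ⟨k, hk⟩ := QuotientGroup.mk_out_eq_mul hl.K g
  obtain ⟨k', hk'⟩ := QuotientGroup.mk_out_eq_mul hl.K h
  rw [hk, hk']
  have e : (g * (k : G))⁻¹ * (h * (k' : G)) = ((k : G)⁻¹ * (g⁻¹ * h)) * (k' : G) := by group
  rw [e, hl.mul_null k'.2, hl.null_mul (hl.K.inv_mem k.2)]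

lemma dq_smul (hl : PLen l) (g : G) (x y : G ⧸ hl.K) : dq hl (g • x) (g • y) = dq hl x y := by
  obtain ⟨a, rfl⟩ := QuotientGroup.mk_surjective x
  obtain ⟨b, rfl⟩ := QuotientGroup.mk_surjective y
  rw [MulAction.Quotient.smul_coe, MulAction.Quotient.smul_coe, dq_mk, dq_mk]
  congr 1
  simp only [smul_eq_mul]
  group

lemma dq_comm (hl : PLen l) (x y : G ⧸ hl.K) : dq hl x y = dq hl y x := by
  obtain ⟨a, rfl⟩ := QuotientGroup.mk_surjective x
  obtain ⟨b, rfl⟩ := QuotientGroup.mk_surjective y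
  rw [dq_mk, dq_mk, ← hl.inv]
  congr 1
  group

lemma dq_self (hl : PLen l) (x : G ⧸ hl.K) : dq hl x x = 0 := by
  obtain ⟨a, rfl⟩ := QuotientGroup.mk_surjective x
  rw [dq_mk, inv_mul_cancel, hl.one]

lemma dq_tri (hl : PLen l) (x y z : G ⧸ hl.K) : dq hl x z ≤ dq hl x y + dq hl y z := by
  obtain ⟨a, rfl⟩ := QuotientGroup.mk_surjective x
  obtain ⟨b, rfl⟩ := QuotientGroup.mk_surjective y
  obtain ⟨c, rfl⟩ := QuotientGroup.mk_surjective z
  rw [dq_mk, dq_mk, dq_mk]
  have := hl.mul (a⁻¹ * b) (b⁻¹ * c)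
  rwa [show a⁻¹ * b * (b⁻¹ * c) = a⁻¹ * c by group] at this

/-- base point. -/
def bp (hl : PLen l) : G ⧸ hl.K := ((1 : G) : G ⧸ hl.K)

lemma dq_bp (hl : PLen l) (g : G) : dq hl (bp hl) (g : G ⧸ hl.K) = l g := by
  unfold bp
  rw [dq_mk]
  simp

lemma smul_bp (hl : PLen l) (g : G) : g • bp hl = (g : G ⧸ hl.K) := by
  unfold bp
  rw [MulAction.Quotient.smul_coe]
  simp

lemma ball_finite (hl : PLen l) {n b : ℕ} (h : Cov l n b) (x : G ⧸ hl.K) :
    {y | dq hl x y ≤ n}.Finite ∧ {y | dq hl x y ≤ n}.ncard ≤ b := by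
  classical
  obtain ⟨F, hF1, _, _, hF4⟩ := exists_net hl h
  obtain ⟨a, rfl⟩ := QuotientGroup.mk_surjective x
  have hsub : {y | dq hl (a : G ⧸ hl.K) y ≤ n} ⊆
      (F.image (fun f => ((a * f : G) : G ⧸ hl.K)) : Finset (G ⧸ hl.K)) := by
    intro y hy
    obtain ⟨c, rfl⟩ := QuotientGroup.mk_surjective y
    have hy' : l (a⁻¹ * c) ≤ n := by
      have : dq hl (a : G ⧸ hl.K) (c : G ⧸ hl.K) ≤ n := hy
      rwa [dq_mk] at this
    obtain ⟨f, hf, hf2⟩ := hF4 _ hy'
    rw [Finset.coe_image]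
    refine ⟨f, hf, ?_⟩
    show ((a * f : G) : G ⧸ hl.K) = (c : G ⧸ hl.K)
    rw [QuotientGroup.eq, hl.mem_K]
    rw [← hf2]
    congr 1
    group
  refine ⟨(Finset.finite_toSet _).subset hsub, ?_⟩
  refine (Set.ncard_le_ncard hsub (Finset.finite_toSet _)).trans ?_
  rw [Set.ncard_coe_finset]
  exact Finset.card_image_le.trans hF1

end

section

variable {G : Type*} [Group G] {l : G → ℕ} {d : ℕ}

/-- the ball of radius `n` about `x`. -/
noncomputable def bq (hl : WLen l d) (n : ℕ) (x : G ⧸ hl.toPLen.K) : Finset (G ⧸ hl.toPLen.K) :=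
  (ball_finite hl.toPLen (hl.fin n).choose_spec x).1.toFinset

lemma mem_bq (hl : WLen l d) {n : ℕ} {x y : G ⧸ hl.toPLen.K} :
    y ∈ bq hl n x ↔ dq hl.toPLen x y ≤ n := by
  unfold bq
  rw [Set.Finite.mem_toFinset]
  rfl

lemma card_bq_le (hl : WLen l d) {n b : ℕ} (h : Cov l n b) (x : G ⧸ hl.toPLen.K) :
    (bq hl n x).card ≤ b := by
  have h1 := (ball_finite hl.toPLen h x).2
  have h2 : {y | dq hl.toPLen x y ≤ n} = (bq hl n x : Set (G ⧸ hl.toPLen.K)) := by
    ext y
    rw [Finset.mem_coe, mem_bq]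
    rfl
  rwa [h2, Set.ncard_coe_finset] at h1

lemma card_bq_eq (hl : WLen l d) (n : ℕ) (x : G ⧸ hl.toPLen.K) :
    (bq hl n x).card = (bq hl n (bp hl.toPLen)).card := by
  obtain ⟨g, hg⟩ := MulAction.exists_smul_eq G (bp hl.toPLen) x
  symm
  refine Finset.card_bij (fun y _ => g • y) ?_ ?_ ?_
  · intro y hy
    rw [mem_bq] at hy ⊢
    rw [← hg, dq_smul]; exact hy
  · intro a _ b _ hab; exact MulAction.injective g hab
  · intro b hb
    refine ⟨g⁻¹ • b, ?_, by simp⟩
    rw [mem_bq] at hb ⊢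
    rw [← hg] at hb
    rw [← dq_smul _ g]
    simpa using hb

/-- the graph on the coset space. -/
noncomputable def net (hl : WLen l d) {r : ℕ} (hr : Subgroup.closure {g : G | l g ≤ r} = ⊤) :
    Net (G ⧸ hl.toPLen.K) where
  nb := bq hl r
  N := (bq hl r (bp hl.toPLen)).card
  card x := card_bq_eq hl r x
  self x := by rw [mem_bq, dq_self]; exact Nat.zero_le _
  symm {x y} h := by
    rw [mem_bq] at h ⊢
    rwa [dq_comm]
  conn x y := by
    obtain ⟨a, rfl⟩ := QuotientGroup.mk_surjective x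
    obtain ⟨b, rfl⟩ := QuotientGroup.mk_surjective y
    have key : ∀ g ∈ Subgroup.closure {g : G | l g ≤ r}, ∀ a : G,
        Relation.ReflTransGen (fun u v => v ∈ bq hl r u) (a : G ⧸ hl.toPLen.K)
          ((a * g : G) : G ⧸ hl.toPLen.K) := by
      intro g hg
      obtain ⟨L, hL1, hL2⟩ := exists_list_of_closure hg
      rw [← hL2]
      clear hL2 hg
      induction L with
      | nil => intro a; simp only [List.prod_nil, mul_one]; exact Relation.ReflTransGen.refl
      | cons c L ih =>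
        intro a
        rw [List.prod_cons, ← mul_assoc]
        refine Relation.ReflTransGen.head ?_ (ih (fun x hx => hL1 x (List.mem_cons_of_mem _ hx))
          (a * c))
        rw [mem_bq, dq_mk, inv_mul_cancel_left]
        rcases hL1 c List.mem_cons_self with h | h
        · exact h
        · have : l c⁻¹ ≤ r := h
          rwa [hl.inv] at this
    have h1 := key (a⁻¹ * b) (by rw [hr]; trivial) a
    rwa [mul_inv_cancel_left] at h1

lemma net_equivar (hl : WLen l d) {r : ℕ} (hr : Subgroup.closure {g : G | l g ≤ r} = ⊤) :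
    (net hl hr).Equivar G := by
  intro g x y hy
  have hy' : y ∈ bq hl r x := hy
  show g • y ∈ bq hl r (g • x)
  rw [mem_bq] at hy' ⊢
  rwa [dq_smul]

lemma net_exh (hl : WLen l d) {r : ℕ} (hr : Subgroup.closure {g : G | l g ≤ r} = ⊤) :
    (net hl hr).Exh (bp hl.toPLen) (fun n => bq hl (n * r) (bp hl.toPLen)) := by
  refine ⟨?_, ?_⟩
  · rw [mem_bq, dq_self]; exact Nat.zero_le _
  · intro n x hx y hy
    have hy' : y ∈ bq hl r x := hy
    rw [mem_bq] at hx hy' ⊢
    have := dq_tri hl.toPLen (bp hl.toPLen) x y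
    have e : (n + 1) * r = n * r + r := by ring
    omega

lemma net_growth (hl : WLen l d) {r : ℕ} (hr0 : 0 < r) :
    ∃ C : ℕ, ∃ᶠ n in atTop, (bq hl (n * r) (bp hl.toPLen)).card ≤ C * (n + 1) ^ d := by
  obtain ⟨C, hC⟩ := hl.gr
  refine ⟨C * r ^ d, freq_div hr0 hC fun n hn => ?_⟩
  have h1 : Cov l (n / r * r) (C * (n + 1) ^ d) := hn.mono (Nat.div_mul_le_self n r) le_rfl
  refine (card_bq_le hl h1 _).trans ?_
  calc C * (n + 1) ^ d ≤ C * (r * (n / r + 1)) ^ d :=
        Nat.mul_le_mul_left _ (Nat.pow_le_pow_left (succ_le_of_div hr0) _)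
    _ = C * r ^ d * (n / r + 1) ^ d := by rw [mul_pow]; ring

end

end Crest.Agent.R147.St
end

-- ▼ part R147/StRep
section

/-!
R147, structure block (helper505), part 7: the isometric representation on Lipschitz harmonic
functions; the null subgroup has finite image.
-/

set_option autoImplicit false
set_option linter.unusedSectionVars false
set_option linter.unusedSimpArgs false

universe u

namespace Crest.Agent.R147.St

open Function Filter Topology

namespace Net

section tr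

variable {X : Type*} {A : Net X} {o : X} {G : Type*} [Group G] [MulAction G X]

/-- translation. -/
def tr (hG : A.Equivar G) (g : G) (h : HW A o) : HW A o :=
  hmk (fun x => fn h (g⁻¹ • x) - fn h (g⁻¹ • o))
    (fun x => by
      rw [A.P_sub, P_const, ← P_act hG, fn_harm h])
    (by
      obtain ⟨L, hL⟩ := fn_lip h
      refine ⟨L, fun x y hy => ?_⟩
      have := hL _ _ (hG g⁻¹ x y hy)
      simpa using this)
    (by simp)

lemma fn_tr (hG : A.Equivar G) (g : G) (h : HW A o) (x : X) :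
    fn (tr hG g h) x = fn h (g⁻¹ • x) - fn h (g⁻¹ • o) := rfl

lemma tr_mul (hG : A.Equivar G) (g k : G) (h : HW A o) :
    tr hG (g * k) h = tr hG g (tr hG k h) := by
  apply fn_ext
  intro x
  simp only [fn_tr, mul_inv_rev, mul_smul]
  ring

lemma tr_one (hG : A.Equivar G) (h : HW A o) : tr hG 1 h = h := by
  apply fn_ext
  intro x
  simp [fn_tr, fn_base]

lemma tr_add (hG : A.Equivar G) (g : G) (h k : HW A o) :
    tr hG g (h + k) = tr hG g h + tr hG g k := by
  apply fn_ext
  intro x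
  simp only [fn_tr, fn_add]; ring

lemma tr_smul (hG : A.Equivar G) (g : G) (c : ℝ) (h : HW A o) :
    tr hG g (c • h) = c • tr hG g h := by
  apply fn_ext
  intro x
  simp only [fn_tr, fn_smul]; ring

lemma B_tr {ω : Ultrafilter ℕ} {K : ℝ} (hg : A.Good ω K) (hG : A.Equivar G) (g : G)
    (h k : HW A o) : B ω o (tr hG g h) (tr hG g k) = B ω o h k := by
  rw [← B_inv hg h k o (g⁻¹ • o)]
  symm
  apply B_unique
  refine (B_tendsto o (tr hG g h) (tr hG g k)).congr fun n => ?_
  unfold Bn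
  rw [E_act hG]
  congr 1
  exact A.E_congr n (fun z => by simp only [fn_tr]; ring) o

/-- Translation as a linear equivalence. -/
def trEquiv (hG : A.Equivar G) (g : G) : HW A o ≃ₗ[ℝ] HW A o where
  toFun := tr hG g
  invFun := tr hG g⁻¹
  map_add' := tr_add hG g
  map_smul' := tr_smul hG g
  left_inv h := by rw [← tr_mul, inv_mul_cancel, tr_one]
  right_inv h := by rw [← tr_mul, mul_inv_cancel, tr_one]

/-- a finite-dimensional space of functions is separated by finitely many points. -/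
lemma exists_sep (hfd : Module.Finite ℝ (HW A o)) :
    ∃ F : Finset X, ∀ h k : HW A o, (∀ x ∈ F, fn h x = fn k x) → h = k := by
  classical
  -- choose `F` minimizing the dimension of the common kernel
  let ker : Finset X → Submodule ℝ (HW A o) := fun F =>
    { carrier := {h | ∀ x ∈ F, fn h x = 0}
      zero_mem' := fun x _ => fn_zero x
      add_mem' := fun {a b} ha hb x hx => by
        rw [fn_add, ha x hx, hb x hx, add_zero]
      smul_mem' := fun c a ha x hx => by
        rw [fn_smul, ha x hx, mul_zero] }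
  obtain ⟨F, hF⟩ : ∃ F : Finset X, ∀ F' : Finset X,
      Module.finrank ℝ (ker F) ≤ Module.finrank ℝ (ker F') := by
    have hex : ∃ n : ℕ, ∃ F : Finset X, Module.finrank ℝ (ker F) = n := ⟨_, ∅, rfl⟩
    obtain ⟨F, hF⟩ := Nat.find_spec hex
    refine ⟨F, fun F' => ?_⟩
    rw [hF]
    exact Nat.find_min' hex ⟨F', rfl⟩
  have hker : ∀ h : HW A o, (∀ x ∈ F, fn h x = 0) → h = 0 := by
    intro h hh
    by_contra hne
    obtain ⟨x, hx⟩ : ∃ x, fn h x ≠ 0 := by
      by_contra hcon
      push Not at hcon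
      exact hne (fn_ext fun x => by rw [hcon x, fn_zero])
    have hlt : ker (insert x F) < ker F := by
      refine lt_of_le_of_ne ?_ ?_
      · intro k hk y hy
        exact hk y (Finset.mem_insert_of_mem hy)
      · intro heq
        have h1 : h ∈ ker F := hh
        rw [← heq] at h1
        exact hx (h1 x (Finset.mem_insert_self x F))
    have h2 := Submodule.finrank_lt_finrank_of_lt hlt
    exact absurd (hF (insert x F)) (not_le.2 h2)
  refine ⟨F, fun h k hhk => ?_⟩
  have h1 := hker (h + (-1 : ℝ) • k) (fun x hx => by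
    rw [fn_add, fn_smul, hhk x hx]; ring)
  apply fn_ext
  intro x
  have h2 := congrArg (fun h => fn h x) h1
  simp only [fn_add, fn_smul, fn_zero] at h2
  linarith

lemma Harm.const_of_max {h : X → ℝ} (hh : A.Harm h) (x₀ : X) (hmax : ∀ x, h x ≤ h x₀) (x : X) :
    h x = h x₀ := by
  refine A.conn_induction (q := fun x => h x = h x₀) (x := x₀) rfl ?_ x
  intro y hy z hz
  have e1 : A.P (fun z => h x₀ - h z) y = 0 := by
    rw [A.P_sub, P_const, hh y, hy, sub_self]
  have e2 := A.le_N_mul_P (f := fun z => h x₀ - h z) (fun z => sub_nonneg.mpr (hmax _)) hz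
  rw [e1, mul_zero] at e2
  have := hmax z
  show h z = h x₀
  have e3 : h x₀ - h z ≤ 0 := e2
  linarith

/-- The algebraic part: a vector fixed by a finite-index subgroup is a homomorphism there. -/
theorem hom_of_fixed [MulAction.IsPretransitive G X] (hG : A.Equivar G) (h : HW A o) (hh : h ≠ 0)
    (G1 : Subgroup G) (hfi : G1.FiniteIndex) (htriv : ∀ g ∈ G1, tr hG g h = h) :
    ∃ f : G1 →* Multiplicative ℝ, f ≠ 1 ∧ ∀ g : G1, (g : G) • o = o → f g = 1 := by
  classical
  have hadd : ∀ g ∈ G1, ∀ x, fn h (g • x) = fn h (g • o) + fn h x := by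
    intro g hgm x
    have h2 := htriv g⁻¹ (G1.inv_mem hgm)
    have h3 := congrArg (fun k => fn k x) h2
    simp only [fn_tr, inv_inv] at h3
    linarith
  let f : G1 →* Multiplicative ℝ :=
    { toFun := fun g => Multiplicative.ofAdd (fn h ((g : G) • o))
      map_one' := by simp [fn_base]
      map_mul' := fun g k => by
        rw [← ofAdd_add, Subgroup.coe_mul, mul_smul, hadd g g.2] }
  refine ⟨f, fun hf => hh ?_, fun g hg => ?_⟩
  · have hzero : ∀ g ∈ G1, fn h (g • o) = 0 := by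
      intro g hgm
      have := DFunLike.congr_fun hf (⟨g, hgm⟩ : G1)
      exact this
    have hinv : ∀ g ∈ G1, ∀ x, fn h (g • x) = fn h x := by
      intro g hgm x
      rw [hadd g hgm, hzero g hgm, zero_add]
    have hfin : Finite (G ⧸ G1) := inferInstance
    let φ : G ⧸ G1 → ℝ := fun q => Quotient.liftOn' q (fun y => fn h (y⁻¹ • o)) (by
      intro y z hyz
      have h1 : y⁻¹ * z ∈ G1 := QuotientGroup.leftRel_apply.mp hyz
      have h2 := hinv (y⁻¹ * z) h1 (z⁻¹ • o)
      rwa [← mul_smul, mul_inv_cancel_right] at h2)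
    have hφ : ∀ y : G, φ (y : G ⧸ G1) = fn h (y⁻¹ • o) := fun y => rfl
    obtain ⟨q₀, hq₀⟩ := Finite.exists_max φ
    obtain ⟨y₀, rfl⟩ := QuotientGroup.mk_surjective q₀
    have hmax : ∀ x, fn h x ≤ fn h (y₀⁻¹ • o) := by
      intro x
      obtain ⟨g, rfl⟩ := MulAction.exists_smul_eq G o x
      have := hq₀ ((g⁻¹ : G) : G ⧸ G1)
      rwa [hφ, hφ, inv_inv] at this
    have hconst := (fn_harm h).const_of_max (y₀⁻¹ • o) hmax
    apply fn_ext
    intro x
    rw [hconst x, ← hconst o, fn_base, fn_zero]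
  · show Multiplicative.ofAdd (fn h ((g : G) • o)) = 1
    rw [hg, fn_base]
    rfl

end tr

/-- The analytic part, in abstract form. -/
theorem rep_of_core {G : Type*} [Group G] {V : Type u} [AddCommGroup V] [Module ℝ V]
    (c : InnerProductSpace.Core ℝ V)
    (hfd : Module.Finite ℝ V) (T : G → V ≃ₗ[ℝ] V) (T1 : ∀ x, T 1 x = x)
    (Tmul : ∀ g h x, T (g * h) x = T g (T h x))
    (Tinner : ∀ g x y, c.inner (T g x) (T g y) = c.inner x y) :
    ∃ (W : Type u) (_ : NormedAddCommGroup W) (_ : InnerProductSpace ℝ W)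
      (_ : FiniteDimensional ℝ W) (ρ : G →* (W ≃ₗᵢ[ℝ] W)) (e : W ≃ V),
      ∀ g x, e (ρ g x) = T g (e x) := by
  letI i1 : NormedAddCommGroup V := c.toNormedAddCommGroup
  letI i2 : InnerProductSpace ℝ V := InnerProductSpace.ofCore c.toCore
  let ρ : G →* (V ≃ₗᵢ[ℝ] V) :=
    { toFun := fun g => (T g).isometryOfInner (fun x y => Tinner g x y)
      map_one' := LinearIsometryEquiv.ext fun x => T1 x
      map_mul' := fun g h => LinearIsometryEquiv.ext fun x => Tmul g h x }
  exact ⟨V, i1, i2, hfd, ρ, Equiv.refl V, fun g x => rfl⟩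

end Net

/-- **The harmonic representation.** -/
theorem exists_rep {G : Type u} [Group G] {l : G → ℕ} {d : ℕ} (hl : WLen l d) (hg : CGen l)
    (hinf : ∀ b, ∃ g, b < l g) :
    ∃ (W : Type u) (_ : NormedAddCommGroup W) (_ : InnerProductSpace ℝ W)
      (_ : FiniteDimensional ℝ W) (ρ : G →* (W ≃ₗᵢ[ℝ] W)),
      (ρ '' {k | l k = 0}).Finite ∧
      ∀ G1 : Subgroup G, G1.FiniteIndex → (∀ g ∈ G1, ρ g = 1) →
        ∃ f : G1 →* Multiplicative ℝ, f ≠ 1 ∧ ∀ g : G1, l (g : G) = 0 → f g = 1 := by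
  classical
  obtain ⟨r0, hr0⟩ := hg
  have hr : Subgroup.closure {g : G | l g ≤ r0 + 1} = ⊤ := by
    rw [eq_top_iff, ← hr0]
    exact Subgroup.closure_mono fun g (hg : l g ≤ r0) => (by
      show l g ≤ r0 + 1
      omega)
  set A := net hl hr with hA
  have hG : A.Equivar G := net_equivar hl hr
  have hB := net_exh hl hr
  obtain ⟨C, hC⟩ := net_growth hl (Nat.succ_pos r0)
  have hX : Infinite (G ⧸ hl.toPLen.K) := by
    by_contra hfin
    rw [not_infinite_iff_finite] at hfin
    have : Fintype (G ⧸ hl.toPLen.K) := Fintype.ofFinite _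
    obtain ⟨g, hg⟩ := hinf (Finset.univ.sup fun x => dq hl.toPLen (bp hl.toPLen) x)
    have h1 := Finset.le_sup (f := fun x => dq hl.toPLen (bp hl.toPLen) x)
      (Finset.mem_univ (g : G ⧸ hl.toPLen.K))
    rw [dq_bp] at h1
    omega
  set o := bp hl.toPLen with ho
  obtain ⟨h, h1, h2, h3, x0, hx0⟩ := Net.exists_harm (A := A) o hG hB hC
  obtain ⟨K, hK, hgood⟩ := Net.exists_good (A := A) hG hB hC
  -- the ultrafilter
  set S : Set ℕ := {n | ∀ x, ∀ y ∈ A.nb x, A.D n x y ≤ K / (n + 1)} with hS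
  have hfr : ∃ᶠ n in atTop, n ∈ S := by
    rw [frequently_atTop]
    intro a
    obtain ⟨n, hn1, hn2⟩ := hgood a
    exact ⟨n, hn1, hn2⟩
  have hne : (atTop ⊓ 𝓟 S : Filter ℕ).NeBot := by
    rwa [← frequently_mem_iff_neBot]
  let ω : Ultrafilter ℕ := Ultrafilter.of (atTop ⊓ 𝓟 S)
  have hω : (ω : Filter ℕ) ≤ atTop ⊓ 𝓟 S := Ultrafilter.of_le _
  have hgd : A.Good ω K :=
    { le := hω.trans inf_le_left
      bd := hω.trans inf_le_right (mem_principal_self S)
      pos := hK }
  set h' : Net.HW A o := Net.hmk h h1 ⟨1, h2⟩ h3 with hh'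
  have hh'0 : h' ≠ 0 := by
    intro h0
    apply hx0
    have := congrArg (fun k => Net.fn k x0) h0
    exact this
  have hfd := Net.finite_dim (o := o) hgd
  obtain ⟨W, i1, i2, i3, ρ, e, he⟩ := Net.rep_of_core (G := G) (V := Net.HW A o)
    (Net.core hgd) hfd
    (fun g => Net.trEquiv hG g) (fun x => Net.tr_one hG x) (fun g h x => Net.tr_mul hG g h x)
    (fun g x y => Net.B_tr hgd hG g x y)
  refine ⟨W, i1, i2, i3, ρ, ?_, ?_⟩
  · -- finite image of the null subgroup
    obtain ⟨F, hF⟩ := Net.exists_sep hfd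
    have hfix : ∀ k : G, l k = 0 → k • o = o := by
      intro k hk
      rw [ho, smul_bp]
      unfold bp
      rw [QuotientGroup.eq, hl.toPLen.mem_K]
      simp [hl.inv, hk]
    have key : ∀ k k' : G, l k = 0 → l k' = 0 → (∀ x ∈ F, k⁻¹ • x = k'⁻¹ • x) → ρ k = ρ k' := by
      intro k k' hk hk' hx
      apply LinearIsometryEquiv.ext
      intro w
      apply e.injective
      rw [he, he]
      apply hF
      intro x hxF
      show Net.fn (Net.tr hG k (e w)) x = Net.fn (Net.tr hG k' (e w)) x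
      rw [Net.fn_tr, Net.fn_tr, hx x hxF, hfix k⁻¹ (by rw [hl.inv]; exact hk),
        hfix k'⁻¹ (by rw [hl.inv]; exact hk')]
    choose! s hs1 hs2 using fun (w : W ≃ₗᵢ[ℝ] W) (hw : w ∈ ρ '' {k | l k = 0}) => hw
    let Φ : (W ≃ₗᵢ[ℝ] W) → (F → G ⧸ hl.toPLen.K) := fun w x => (s w)⁻¹ • (x : G ⧸ hl.toPLen.K)
    have hpi : (Set.pi Set.univ fun x : F =>
        {y : G ⧸ hl.toPLen.K | dq hl.toPLen o y ≤ dq hl.toPLen o x}).Finite := by
      apply Set.Finite.pi
      intro x
      obtain ⟨b, hb⟩ := hl.fin (dq hl.toPLen o x)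
      exact (ball_finite hl.toPLen hb o).1
    refine Set.Finite.of_finite_image (f := Φ) (hpi.subset ?_) ?_
    · rintro _ ⟨w, hw, rfl⟩ x _
      show dq hl.toPLen o ((s w)⁻¹ • (x : G ⧸ hl.toPLen.K)) ≤ dq hl.toPLen o x
      have h5 := dq_smul hl.toPLen (s w) o ((s w)⁻¹ • (x : G ⧸ hl.toPLen.K))
      rw [smul_inv_smul, hfix _ (hs1 w hw)] at h5
      rw [h5]
    · intro w hw w' hw' hww
      rw [← hs2 w hw, ← hs2 w' hw']
      apply key _ _ (hs1 w hw) (hs1 w' hw')
      intro x hx
      exact congrFun hww ⟨x, hx⟩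
  · intro G1 hfi htriv
    obtain ⟨f, hf1, hf2⟩ := Net.hom_of_fixed hG h' hh'0 G1 hfi (fun g hgm => by
      have h5 := he g (e.symm h')
      rw [htriv g hgm, Equiv.apply_symm_apply] at h5
      have h6 : e ((1 : W ≃ₗᵢ[ℝ] W) (e.symm h')) = h' := by
        rw [show (1 : W ≃ₗᵢ[ℝ] W) (e.symm h') = e.symm h' from rfl, Equiv.apply_symm_apply]
      rw [h6] at h5
      exact h5.symm)
    refine ⟨f, hf1, fun g hg => hf2 g ?_⟩
    rw [ho, smul_bp]
    unfold bp
    rw [QuotientGroup.eq, hl.toPLen.mem_K]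
    simp [hl.inv, hg]

end Crest.Agent.R147.St
end

-- ▼ part R147/StOnto
section

/-!
R147, structure block (helper505), part 9: an unbounded, boundedly generated group with a pseudo-length
of weakly polynomial growth virtually surjects onto `ℤ`, trivially on the null subgroup.
-/

set_option autoImplicit false
set_option linter.unusedSectionVars false

universe u

namespace Crest.Agent.R147.St

open Filter Function

section

variable {G : Type*} [Group G] {l : G → ℕ}

/-- the image of a ball is finite if the image of the null subgroup is. -/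
theorem image_ball_finite {U : Type*} [Group U] (hl : PLen l) (ρ : G →* U)
    (hK : (ρ '' {k | l k = 0}).Finite) {n b : ℕ} (hb : Cov l n b) :
    (ρ '' {g | l g ≤ n}).Finite ∧ (ρ '' {g | l g ≤ n}).ncard ≤ b * (ρ '' {k | l k = 0}).ncard := by
  classical
  obtain ⟨N, hN1, _, _, hN4⟩ := exists_net hl hb
  set T := hK.toFinset with hT
  have hsub : ρ '' {g | l g ≤ n} ⊆ ((N ×ˢ T).image (fun p => ρ p.1 * p.2) : Finset U) := by
    rintro _ ⟨g, hg, rfl⟩
    obtain ⟨f, hf, hf2⟩ := hN4 g hg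
    rw [Finset.coe_image]
    refine ⟨(f, ρ (f⁻¹ * g)), ?_, ?_⟩
    · rw [Finset.mem_coe, Finset.mem_product]
      refine ⟨hf, ?_⟩
      rw [hT, Set.Finite.mem_toFinset]
      exact ⟨_, hf2, rfl⟩
    · show ρ f * ρ (f⁻¹ * g) = ρ g
      rw [← map_mul, mul_inv_cancel_left]
  refine ⟨(Finset.finite_toSet _).subset hsub, ?_⟩
  refine (Set.ncard_le_ncard hsub (Finset.finite_toSet _)).trans ?_
  rw [Set.ncard_coe_finset]
  refine Finset.card_image_le.trans ?_
  rw [Finset.card_product, Set.ncard_eq_toFinset_card _ hK]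
  exact Nat.mul_le_mul_right _ hN1

theorem range_fg {U : Type*} [Group U] {d : ℕ} (hl : WLen l d) (hg : CGen l) (ρ : G →* U)
    (hK : (ρ '' {k | l k = 0}).Finite) : Group.FG ρ.range := by
  obtain ⟨r, hr⟩ := hg
  obtain ⟨b, hb⟩ := hl.fin r
  have h1 := (image_ball_finite hl.toPLen ρ hK hb).1
  rw [Group.fg_iff_subgroup_fg]
  refine ⟨h1.toFinset, ?_⟩
  rw [Set.Finite.coe_toFinset, ← MonoidHom.map_closure, hr, ← MonoidHom.range_eq_map]

theorem imGrowth {U : Type*} [Group U] {d : ℕ} (hl : WLen l d) (ρ : G →* U)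
    (hK : (ρ '' {k | l k = 0}).Finite) : ∃ C, ImGrowth l ρ C d := by
  classical
  obtain ⟨C, hC⟩ := hl.gr
  refine ⟨C * (ρ '' {k | l k = 0}).ncard, hC.mono fun n hn F hF1 hF2 => ?_⟩
  obtain ⟨h1, h2⟩ := image_ball_finite hl.toPLen ρ hK hn
  have h3 : F.card ≤ (ρ '' {g | l g ≤ n}).ncard := by
    rw [← Finset.card_image_of_injOn hF2, ← Set.ncard_coe_finset, Finset.coe_image]
    exact Set.ncard_le_ncard (Set.image_mono fun g hg => hF1 g hg) h1
  calc F.card ≤ (ρ '' {g | l g ≤ n}).ncard := h3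
    _ ≤ C * (n + 1) ^ d * (ρ '' {k | l k = 0}).ncard := h2
    _ = _ := by ring

/-- a homomorphism to `ℤ` with finite image on a subgroup is trivial there. -/
theorem eq_one_of_finite {H : Type*} [Group H] (ψ : H →* Multiplicative ℤ) (K : Set H)
    (hK : ∀ k ∈ K, ∀ n : ℕ, k ^ n ∈ K) (hfin : (ψ '' K).Finite) (k : H) (hk : k ∈ K) : ψ k = 1 := by
  by_contra hne
  have hinj : Injective (fun n : ℕ => ψ (k ^ n)) := by
    intro n m hnm
    have h1 : ψ (k ^ n) = ψ (k ^ m) := hnm
    rw [map_pow, map_pow] at h1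
    have h2 := congrArg Multiplicative.toAdd h1
    rw [toAdd_pow, toAdd_pow] at h2
    have h3 : Multiplicative.toAdd (ψ k) ≠ 0 := by
      intro h0
      exact hne (by rw [← ofAdd_toAdd (ψ k), h0]; rfl)
    simp only [nsmul_eq_mul] at h2
    exact_mod_cast mul_right_cancel₀ h3 h2
  have h1 : (Set.range (fun n : ℕ => ψ (k ^ n))).Infinite := Set.infinite_range_of_injective hinj
  apply h1
  refine hfin.subset ?_
  rintro _ ⟨n, rfl⟩
  exact ⟨k ^ n, hK k hk n, rfl⟩

end

/-- a group with an infinite, finitely generated commutative image surjects onto `ℤ`. -/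
theorem onto_int_of_range' {Γ : Type*} {B : Type u} [Group Γ] [Group B] (f : Γ →* B)
    (hfg : Group.FG f.range)
    (hcomm : ∀ x y, f (x * y) = f (y * x)) (hinf : Infinite f.range) :
    ∃ φ : f.range →* Multiplicative ℤ, Function.Surjective φ := by
  let _ : CommGroup f.range :=
    { (inferInstance : Group f.range) with
      mul_comm := by
        rintro ⟨_, x, rfl⟩ ⟨_, y, rfl⟩
        apply Subtype.ext
        show f x * f y = f y * f x
        rw [← map_mul, ← map_mul, hcomm] }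
  obtain ⟨φ, hφ⟩ := Crest.Agent.R182.GromovFinal.onto_int_of_comm f.range
  exact ⟨φ, hφ⟩

/-- **Theorem A.** -/
theorem onto_int {G : Type u} [Group G] {l : G → ℕ} {d : ℕ} (hl : WLen l d) (hg : CGen l)
    (hinf : ∀ b, ∃ g, b < l g) :
    ∃ G1 : Subgroup G, G1.FiniteIndex ∧ ∃ φ : G1 →* Multiplicative ℤ, Function.Surjective φ ∧
      ∀ g : G1, l (g : G) = 0 → φ g = 1 := by
  obtain ⟨W, i1, i2, i3, ρ, hK, hρ⟩ := exists_rep hl hg hinf
  obtain ⟨C, hC⟩ := imGrowth hl ρ hK
  obtain ⟨G0, hG0, hcomm⟩ := compact_part' hl.toPLen ρ hC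
  have hl0 := hl.subgroup G0
  have hg0 := hg.subgroup hl.toPLen G0 hG0
  have hK0 : ((ρ.comp G0.subtype) '' {k : G0 | l (k : G) = 0}).Finite := by
    refine hK.subset ?_
    rintro _ ⟨k, hk, rfl⟩
    exact ⟨(k : G), hk, rfl⟩
  by_cases hfin : Infinite (ρ.comp G0.subtype).range
  · have hfg := range_fg hl0 hg0 (ρ.comp G0.subtype) hK0
    obtain ⟨φ, hφ⟩ := onto_int_of_range' (ρ.comp G0.subtype) hfg
      (fun x y => hcomm x x.2 y y.2) hfin
    refine ⟨G0, hG0, φ.comp (ρ.comp G0.subtype).rangeRestrict,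
      hφ.comp (ρ.comp G0.subtype).rangeRestrict_surjective, ?_⟩
    intro g hg
    refine eq_one_of_finite (φ.comp (ρ.comp G0.subtype).rangeRestrict) {k : G0 | l (k : G) = 0}
      ?_ ?_ g hg
    · intro k hk n
      have h1 := hl0.toPLen.pow k n
      have h2 : l (k : G) = 0 := hk
      show l ((k ^ n : G0) : G) = 0
      simp only [h2, mul_zero, Nat.le_zero] at h1
      exact h1
    · -- the image factors through the finite image of `ρ`
      have h1 : ((ρ.comp G0.subtype).rangeRestrict '' {k : G0 | l (k : G) = 0}).Finite := by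
        refine Set.Finite.of_finite_image (f := Subtype.val) ?_ Subtype.val_injective.injOn
        rw [← Set.image_comp]
        exact hK0
      have h2 := h1.image φ
      rw [← Set.image_comp] at h2
      exact h2
  · have hfin' : Finite (ρ.comp G0.subtype).range := not_infinite_iff_finite.1 hfin
    have hker : (ρ.comp G0.subtype).ker.FiniteIndex := inferInstance
    let G1 : Subgroup G := (ρ.comp G0.subtype).ker.map G0.subtype
    have hG1 : G1.FiniteIndex := by
      rw [Subgroup.finiteIndex_iff]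
      show ((ρ.comp G0.subtype).ker.map G0.subtype).index ≠ 0
      rw [Subgroup.index_map_subtype]
      exact Nat.mul_ne_zero hker.index_ne_zero hG0.index_ne_zero
    obtain ⟨f, hf, hfK⟩ := hρ G1 hG1 (by
      rintro _ ⟨g, hg, rfl⟩
      exact hg)
    have hl1 := hl.subgroup G1
    have hg1 := hg.subgroup hl.toPLen G1 hG1
    have hfK' : (f '' {k : G1 | l (k : G) = 0}).Finite := by
      refine (Set.finite_singleton 1).subset ?_
      rintro _ ⟨k, hk, rfl⟩
      exact hfK k hk
    have hfg := range_fg hl1 hg1 f hfK'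
    obtain ⟨φ, hφ⟩ := onto_int_of_range' f hfg (fun x y => by rw [map_mul, map_mul, mul_comm])
      (Crest.Agent.R182.GromovFinal.infinite_range_real f hf)
    refine ⟨G1, hG1, φ.comp f.rangeRestrict, hφ.comp f.rangeRestrict_surjective, ?_⟩
    intro g hg
    have h1 : f.rangeRestrict g = 1 := Subtype.ext (hfK g hg)
    rw [MonoidHom.comp_apply, h1, map_one]

end Crest.Agent.R147.St
end

-- ▼ part R147/StMil
section

/-!
R147, structure block (helper505), part 10: Milnor's lemma for pseudo-lengths (the kernel of a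
homomorphism onto `ℤ` is boundedly generated and loses one degree of growth), and the relations
forced by weakly polynomial growth.
-/

set_option autoImplicit false
set_option linter.unusedSectionVars false

universe u

namespace Crest.Agent.R147.St

open Filter Function

section words

variable {G : Type*} [Group G]

/-- conjugates of `e j` by powers of `t`. -/
def cj (t : G) (e : ℕ → G) (j : ℕ) : G := t ^ j * e j * (t ^ j)⁻¹

open Classical in
/-- the product of the conjugates over a set of indices, in decreasing order. -/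
noncomputable def wd (t : G) (e : ℕ → G) (A : Finset ℕ) : ℕ → G
  | 0 => 1
  | m + 1 => (if m ∈ A then cj t e m else 1) * wd t e A m

variable (t : G) (e : ℕ → G)

lemma wd_mem (A : Finset ℕ) (m : ℕ) (S : Subgroup G) (h : ∀ j < m, cj t e j ∈ S) :
    wd t e A m ∈ S := by
  induction m with
  | zero => exact S.one_mem
  | succ m ih =>
    rw [wd]
    refine S.mul_mem ?_ (ih fun j hj => h j (by omega))
    split
    · exact h m (by omega)
    · exact S.one_mem

lemma wd_len {l : G → ℕ} (hl : PLen l) {R : ℕ} (he : ∀ j, l (e j) ≤ R) (A : Finset ℕ) (m : ℕ) :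
    l ((t ^ m)⁻¹ * wd t e A m) ≤ m * (R + l t) + l t := by
  classical
  -- sharper: `t^{-(m-1)} w` has length `≤ m R + (m-1) l t`
  induction m with
  | zero => simp [wd, hl.one]
  | succ m ih =>
    have e1 : (t ^ (m + 1))⁻¹ * wd t e A (m + 1)
        = t⁻¹ * (if m ∈ A then e m else 1) * ((t ^ m)⁻¹ * wd t e A m) := by
      rw [wd, pow_succ]
      by_cases hm : m ∈ A
      · rw [if_pos hm, if_pos hm, cj]; group
      · rw [if_neg hm, if_neg hm]; group
    rw [e1]
    have h1 := hl.mul (t⁻¹ * (if m ∈ A then e m else 1)) ((t ^ m)⁻¹ * wd t e A m)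
    have h2 := hl.mul t⁻¹ (if m ∈ A then e m else 1)
    rw [hl.inv] at h2
    have h3 : l (if m ∈ A then e m else 1) ≤ R := by
      split
      · exact he m
      · rw [hl.one]; exact Nat.zero_le _
    have h4 : (m + 1) * (R + l t) = m * (R + l t) + (R + l t) := by ring
    omega

/-- words with different index sets are separated, if the conjugates are independent. -/
lemma wd_sep {l : G → ℕ} {S : ℕ → Subgroup G} (hmono : Monotone S)
    (hK : ∀ j, ∀ g, l g = 0 → g ∈ S j) (hin : ∀ j, cj t e j ∈ S (j + 1))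
    (hout : ∀ j, cj t e j ∉ S j) (A B : Finset ℕ) (m : ℕ)
    (h : l ((wd t e A m)⁻¹ * wd t e B m) = 0) : ∀ j < m, j ∈ A ↔ j ∈ B := by
  classical
  induction m with
  | zero => intro j hj; omega
  | succ m ih =>
    have hA := wd_mem t e A m (S m) fun j hj => hmono (by omega : j + 1 ≤ m) (hin j)
    have hB := wd_mem t e B m (S m) fun j hj => hmono (by omega : j + 1 ≤ m) (hin j)
    rw [wd, wd] at h
    have hk := hK m _ h
    by_cases hmA : m ∈ A <;> by_cases hmB : m ∈ B
    · rw [if_pos hmA, if_pos hmB] at h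
      have e1 : (cj t e m * wd t e A m)⁻¹ * (cj t e m * wd t e B m)
          = (wd t e A m)⁻¹ * wd t e B m := by group
      rw [e1] at h
      intro j hj
      rcases Nat.lt_succ_iff_lt_or_eq.1 hj with hj' | rfl
      · exact ih h j hj'
      · exact ⟨fun _ => hmB, fun _ => hmA⟩
    · exfalso
      rw [if_pos hmA, if_neg hmB, one_mul] at hk
      apply hout m
      have h1 := (S m).mul_mem ((S m).mul_mem hB ((S m).inv_mem hk)) ((S m).inv_mem hA)
      have e1 : wd t e B m * ((cj t e m * wd t e A m)⁻¹ * wd t e B m)⁻¹ * (wd t e A m)⁻¹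
          = cj t e m := by group
      rwa [e1] at h1
    · exfalso
      rw [if_neg hmA, if_pos hmB, one_mul] at hk
      apply hout m
      have h1 := (S m).mul_mem ((S m).mul_mem hA hk) ((S m).inv_mem hB)
      have e1 : wd t e A m * ((wd t e A m)⁻¹ * (cj t e m * wd t e B m)) * (wd t e B m)⁻¹
          = cj t e m := by group
      rwa [e1] at h1
    · rw [if_neg hmA, if_neg hmB, one_mul, one_mul] at h
      intro j hj
      rcases Nat.lt_succ_iff_lt_or_eq.1 hj with hj' | rfl
      · exact ih h j hj'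
      · exact ⟨fun hh => absurd hh hmA, fun hh => absurd hh hmB⟩

theorem pow_lt_two_pow (C d : ℕ) : ∀ᶠ m : ℕ in atTop, C * (m + 1) ^ d < 2 ^ m := by
  have h1 := tendsto_pow_const_div_const_pow_of_one_lt d (r := (2 : ℝ)) (by norm_num)
  have hpos : (0 : ℝ) < 1 / (2 * ((C : ℝ) + 1)) := by positivity
  have h2 := (tendsto_add_atTop_nat 1).eventually (h1.eventually (gt_mem_nhds hpos))
  filter_upwards [h2] with m hm
  rw [div_lt_div_iff₀ (by positivity) (by positivity)] at hm
  have h6 : ((m + 1 : ℕ) : ℝ) ^ d * (2 * ((C : ℝ) + 1)) < 1 * 2 ^ (m + 1) := hm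
  push_cast at h6
  have h7 : (0 : ℝ) < ((m : ℝ) + 1) ^ d := by positivity
  have h3 : ((C : ℝ) * (m + 1) ^ d) < 2 ^ m := by
    rw [pow_succ] at h6
    nlinarith
  exact_mod_cast h3

/-- two different words agree modulo the null subgroup. -/
theorem exists_coinc {l : G → ℕ} {d : ℕ} (hl : WLen l d) {R : ℕ} (he : ∀ j, l (e j) ≤ R) :
    ∃ (m : ℕ) (A B : Finset ℕ), A ⊆ Finset.range m ∧ B ⊆ Finset.range m ∧ A ≠ B ∧
      l ((wd t e A m)⁻¹ * wd t e B m) = 0 := by
  classical
  by_contra hcon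
  push Not at hcon
  obtain ⟨C, hC⟩ := hl.gr
  set r : ℕ := R + l t + l t + 1 with hr
  have hr0 : 0 < r := by omega
  have h1 : ∃ᶠ m in atTop, Cov l (m * r) (C * r ^ d * (m + 1) ^ d) := by
    refine freq_div hr0 hC fun n hn => hn.mono (Nat.div_mul_le_self n r) ?_
    have h2 := succ_le_of_div (n := n) hr0
    calc C * (n + 1) ^ d ≤ C * (r * (n / r + 1)) ^ d :=
          Nat.mul_le_mul_left _ (Nat.pow_le_pow_left h2 d)
      _ = C * r ^ d * (n / r + 1) ^ d := by rw [mul_pow]; ring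
  obtain ⟨m, hm1, hm2, hm3⟩ := (h1.and_eventually
    ((pow_lt_two_pow (C * r ^ d) d).and (eventually_ge_atTop 1))).exists
  have hinj : Set.InjOn (fun A : Finset ℕ => (t ^ m)⁻¹ * wd t e A m)
      ((Finset.range m).powerset : Set (Finset ℕ)) := by
    intro A hA B hB hAB
    by_contra hne
    apply hcon m A B (Finset.mem_powerset.1 hA) (Finset.mem_powerset.1 hB) hne
    have h2 : wd t e A m = wd t e B m := mul_left_cancel hAB
    rw [h2, inv_mul_cancel, hl.one]
  have h2 := hm1 ((Finset.range m).powerset.image (fun A : Finset ℕ => (t ^ m)⁻¹ * wd t e A m))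
    (by
      intro g hg
      obtain ⟨A, hA, rfl⟩ := Finset.mem_image.1 hg
      refine (wd_len t e hl.toPLen he A m).trans ?_
      have h3 : m * r = m * (R + l t) + m * l t + m := by rw [hr]; ring
      have h4 : l t ≤ m * l t := Nat.le_mul_of_pos_left _ hm3
      omega)
    (by
      intro g hg h hh hne
      obtain ⟨A, hA, rfl⟩ := Finset.mem_image.1 hg
      obtain ⟨B, hB, rfl⟩ := Finset.mem_image.1 hh
      have e1 : ((t ^ m)⁻¹ * wd t e A m)⁻¹ * ((t ^ m)⁻¹ * wd t e B m)
          = (wd t e A m)⁻¹ * wd t e B m := by group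
      rw [e1]
      exact hcon m A B (Finset.mem_powerset.1 hA) (Finset.mem_powerset.1 hB)
        (fun hAB => hne (by rw [hAB])))
  rw [Finset.card_image_of_injOn hinj, Finset.card_powerset, Finset.card_range] at h2
  omega

end words

section chain

variable {G : Type*} [Group G] {l : G → ℕ} {d : ℕ}

/-- the conjugates of `S` by `t ^ i`, `i < J`. -/
def TS (t : G) (S : Set G) (J : ℕ) : Set G := {y | ∃ i < J, ∃ x ∈ S, y = t ^ i * x * (t ^ i)⁻¹}

lemma TS_mono (t : G) (S : Set G) {J J' : ℕ} (h : J ≤ J') : TS t S J ⊆ TS t S J' := by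
  rintro y ⟨i, hi, x, hx, rfl⟩
  exact ⟨i, by omega, x, hx, rfl⟩

theorem exists_chain (hl : WLen l d) (t : G) (S : Set G) {R : ℕ} (hS : ∀ x ∈ S, l x ≤ R)
    (hK : ∀ x, l x = 0 → x ∈ S) :
    ∃ J, 0 < J ∧ ∀ x ∈ S, t ^ J * x * (t ^ J)⁻¹ ∈ Subgroup.closure (TS t S J) := by
  by_contra hcon
  push Not at hcon
  have h1 : ∀ j, ∃ x ∈ S, t ^ (j + 1) * x * (t ^ (j + 1))⁻¹ ∉ Subgroup.closure (TS t S (j + 1)) :=
    fun j => hcon (j + 1) (by omega)
  choose e he1 he2 using h1
  -- use the conjugates `t * (...) * t⁻¹` shifted by one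
  obtain ⟨m, A, B, hA, hB, hne, hAB⟩ := exists_coinc t (fun j => t * e j * t⁻¹) hl
    (R := 2 * l t + R) (fun j => (hl.conj t (e j)).trans (by
      have := hS _ (he1 j); omega))
  have hcj : ∀ j, cj t (fun j => t * e j * t⁻¹) j = t ^ (j + 1) * e j * (t ^ (j + 1))⁻¹ := by
    intro j; rw [cj, pow_succ]; group
  have h2 := wd_sep t (fun j => t * e j * t⁻¹) (l := l)
    (S := fun j => Subgroup.closure (TS t S (j + 1)))
    (fun i j hij => Subgroup.closure_mono (TS_mono t S (by omega)))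
    (fun j g hg => Subgroup.subset_closure ⟨0, by omega, g, hK g hg, by simp⟩)
    (fun j => by
      rw [hcj]
      exact Subgroup.subset_closure ⟨j + 1, by omega, e j, he1 j, rfl⟩)
    (fun j => by rw [hcj]; exact he2 j) A B m hAB
  apply hne
  ext j
  constructor
  · intro hj
    exact (h2 j (Finset.mem_range.1 (hA hj))).1 hj
  · intro hj
    exact (h2 j (Finset.mem_range.1 (hB hj))).2 hj

lemma conj_mem_closure {S T : Set G} (g : G)
    (h : ∀ x ∈ S, g * x * g⁻¹ ∈ (Subgroup.closure T : Subgroup G)) {x : G}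
    (hx : x ∈ (Subgroup.closure S : Subgroup G)) :
    g * x * g⁻¹ ∈ (Subgroup.closure T : Subgroup G) := by
  have h1 : (Subgroup.closure S : Subgroup G) ≤
      (Subgroup.closure T : Subgroup G).comap (MulAut.conj g).toMonoidHom := by
    rw [Subgroup.closure_le]
    intro y hy
    exact h y hy
  exact h1 hx

theorem chain_all {t : G} {S : Set G} {J : ℕ}
    (hJ : ∀ x ∈ S, t ^ J * x * (t ^ J)⁻¹ ∈ Subgroup.closure (TS t S J)) (j : ℕ) :
    ∀ x ∈ S, t ^ j * x * (t ^ j)⁻¹ ∈ Subgroup.closure (TS t S J) := by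
  induction j using Nat.strong_induction_on with
  | _ j ih =>
    intro x hx
    rcases lt_or_ge j J with hj | hj
    · exact Subgroup.subset_closure ⟨j, hj, x, hx, rfl⟩
    · have h1 : t ^ j * x * (t ^ j)⁻¹
          = t ^ (j - J) * (t ^ J * x * (t ^ J)⁻¹) * (t ^ (j - J))⁻¹ := by
        have : t ^ j = t ^ (j - J) * t ^ J := by rw [← pow_add]; congr 1; omega
        rw [this]; group
      rw [h1]
      refine conj_mem_closure _ ?_ (hJ x hx)
      rintro _ ⟨i, hi, y, hy, rfl⟩
      have h2 : t ^ (j - J) * (t ^ i * y * (t ^ i)⁻¹) * (t ^ (j - J))⁻¹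
          = t ^ (j - J + i) * y * (t ^ (j - J + i))⁻¹ := by
        rw [pow_add]; group
      rw [h2]
      exact ih _ (by omega) y hy

/-- the conjugates by all integral powers are generated by those of bounded length. -/
theorem exists_bdd_conj (hl : WLen l d) (t : G) (S : Set G) {R : ℕ} (hS : ∀ x ∈ S, l x ≤ R)
    (hK : ∀ x, l x = 0 → x ∈ S) :
    ∃ R', ∀ x ∈ S, ∀ j : ℤ, t ^ j * x * (t ^ j)⁻¹ ∈
      Subgroup.closure {y | (∃ i : ℤ, ∃ z ∈ S, y = t ^ i * z * (t ^ i)⁻¹) ∧ l y ≤ R'} := by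
  obtain ⟨J, -, hJ⟩ := exists_chain hl t S hS hK
  obtain ⟨J', -, hJ'⟩ := exists_chain hl t⁻¹ S hS hK
  refine ⟨2 * (J * l t) + 2 * (J' * l t) + R, fun x hx j => ?_⟩
  obtain ⟨n, rfl | rfl⟩ := j.eq_nat_or_neg
  · have h1 := chain_all hJ n x hx
    rw [zpow_natCast]
    refine Subgroup.closure_mono ?_ h1
    rintro _ ⟨i, hi, y, hy, rfl⟩
    refine ⟨⟨i, y, hy, by rw [zpow_natCast]⟩, ?_⟩
    have h2 := hl.conj (t ^ i) y
    have h3 := hl.pow t i
    have h4 : i * l t ≤ J * l t := Nat.mul_le_mul_right _ hi.le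
    have h5 := hS y hy
    omega
  · have h1 := chain_all hJ' n x hx
    rw [zpow_neg, zpow_natCast, ← inv_pow]
    refine Subgroup.closure_mono ?_ h1
    rintro _ ⟨i, hi, y, hy, rfl⟩
    refine ⟨⟨-i, y, hy, by rw [zpow_neg, zpow_natCast, inv_pow]⟩, ?_⟩
    have h2 := hl.conj (t⁻¹ ^ i) y
    have h3 := hl.pow t⁻¹ i
    rw [hl.inv] at h3
    have h4 : i * l t ≤ J' * l t := Nat.mul_le_mul_right _ hi.le
    have h5 := hS y hy
    omega

end chain

section kernel

variable {G : Type*} [Group G] {l : G → ℕ} {d : ℕ}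

lemma map_zpow_ofAdd {φ : G →* Multiplicative ℤ} {t : G} (ht : φ t = Multiplicative.ofAdd 1)
    (n : ℤ) : φ (t ^ n) = Multiplicative.ofAdd n := by
  rw [map_zpow, ht, ← ofAdd_zsmul]; simp

/-- **Milnor's lemma, generation.** -/
theorem ker_cgen (hl : WLen l d) (hg : CGen l) (φ : G →* Multiplicative ℤ) (hφ : Surjective φ)
    (hK : ∀ g, l g = 0 → φ g = 1) : CGen (fun k : φ.ker => l (k : G)) := by
  classical
  obtain ⟨r, hr⟩ := hg
  obtain ⟨t, ht⟩ := hφ (Multiplicative.ofAdd 1)
  have hφt := map_zpow_ofAdd ht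
  -- the image of the ball is finite, hence bounded
  obtain ⟨b, hb⟩ := hl.fin r
  have hfin : (φ '' {g | l g ≤ r}).Finite := by
    refine (image_ball_finite hl.toPLen φ ?_ hb).1
    refine (Set.finite_singleton 1).subset ?_
    rintro _ ⟨k, hk, rfl⟩
    exact hK k hk
  obtain ⟨M, hM⟩ : ∃ M : ℕ, ∀ g, l g ≤ r → (Multiplicative.toAdd (φ g)).natAbs ≤ M := by
    obtain ⟨M, hM⟩ := (hfin.image (fun x => (Multiplicative.toAdd x).natAbs)).bddAbove
    exact ⟨M, fun g hg => hM ⟨φ g, ⟨g, hg, rfl⟩, rfl⟩⟩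
  have hzl : ∀ n : ℤ, l (t ^ n) ≤ n.natAbs * l t := by
    intro n
    obtain ⟨k, rfl | rfl⟩ := n.eq_nat_or_neg
    · rw [zpow_natCast]; simpa using hl.pow t k
    · rw [zpow_neg, zpow_natCast, hl.inv]; simpa using hl.pow t k
  set R : ℕ := r + M * l t with hR
  set S : Set G := {x | φ x = 1 ∧ l x ≤ R} with hS
  obtain ⟨R', hR'⟩ := exists_bdd_conj hl t S (R := R) (fun x hx => hx.2)
    (fun x hx => ⟨hK x hx, by rw [hx]; exact Nat.zero_le _⟩)
  let T : Set G := {y | (∃ i : ℤ, ∃ z ∈ S, y = t ^ i * z * (t ^ i)⁻¹) ∧ l y ≤ R'}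
  let N : Subgroup G := Subgroup.closure T
  have hcj : ∀ s ∈ S, ∀ j : ℤ, t ^ j * s * (t ^ j)⁻¹ ∈ N := hR'
  have hconj : ∀ k : ℤ, ∀ x ∈ N, t ^ k * x * (t ^ k)⁻¹ ∈ N := by
    intro k x hx
    refine conj_mem_closure _ ?_ hx
    rintro _ ⟨⟨j, y, hy, rfl⟩, -⟩
    have : t ^ k * (t ^ j * y * (t ^ j)⁻¹) * (t ^ k)⁻¹ = t ^ (k + j) * y * (t ^ (k + j))⁻¹ := by
      rw [zpow_add]; group
    rw [this]
    exact hcj y hy _
  have hsub : T ⊆ φ.ker := by
    rintro _ ⟨⟨j, y, hy, rfl⟩, -⟩
    rw [SetLike.mem_coe, MonoidHom.mem_ker, map_mul, map_mul, map_inv, hy.1]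
    simp
  have hNle : N ≤ φ.ker := (Subgroup.closure_le _).2 hsub
  -- every element of `G` is `n t^j`
  have hall : ∀ g : G, ∃ n ∈ N, ∃ j : ℤ, g = n * t ^ j := by
    intro g
    have hgc : g ∈ Subgroup.closure {g : G | l g ≤ r} := by rw [hr]; trivial
    obtain ⟨L, hL1, hL2⟩ := exists_list_of_closure hgc
    rw [← hL2]
    clear hL2 hgc
    induction L with
    | nil => exact ⟨1, N.one_mem, 0, by simp⟩
    | cons a L ih =>
      obtain ⟨n, hn, j, hj⟩ := ih (fun x hx => hL1 x (List.mem_cons_of_mem _ hx))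
      have ha : l a ≤ r := by
        rcases hL1 a List.mem_cons_self with h | h
        · exact h
        · have : l a⁻¹ ≤ r := h
          rwa [hl.inv] at this
      set q : ℤ := Multiplicative.toAdd (φ a) with hq
      have haS : a * (t ^ q)⁻¹ ∈ S := by
        refine ⟨?_, ?_⟩
        · rw [map_mul, map_inv, hφt, hq, ofAdd_toAdd, mul_inv_cancel]
        · have h1 := hl.mul a (t ^ q)⁻¹
          rw [hl.inv] at h1
          have h2 := hzl q
          have h3 : q.natAbs * l t ≤ M * l t := Nat.mul_le_mul_right _ (hM a ha)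
          omega
      have haN : a * (t ^ q)⁻¹ ∈ N := by
        have := hcj _ haS 0
        simpa using this
      refine ⟨a * (t ^ q)⁻¹ * (t ^ q * n * (t ^ q)⁻¹), N.mul_mem haN (hconj q n hn), q + j, ?_⟩
      rw [List.prod_cons, hj, zpow_add]; group
  have hker : ∀ g : G, φ g = 1 → g ∈ N := by
    intro g hg
    obtain ⟨n, hn, j, rfl⟩ := hall g
    have h2 : φ n = 1 := hNle hn
    rw [map_mul, h2, one_mul, hφt] at hg
    have h3 : j = 0 := by
      have := congrArg Multiplicative.toAdd hg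
      simpa using this
    rw [h3]; simpa using hn
  refine ⟨R', ?_⟩
  rw [eq_top_iff]
  rintro ⟨g, hg⟩ _
  have hgN := hker g hg
  -- transport the closure
  have h1 : N ≤ (Subgroup.closure {k : φ.ker | l (k : G) ≤ R'}).map φ.ker.subtype := by
    refine (Subgroup.closure_le _).2 ?_
    rintro y hy
    exact ⟨⟨y, hsub hy⟩, Subgroup.subset_closure hy.2, rfl⟩
  obtain ⟨k, hk1, hk2⟩ := h1 hgN
  have : k = ⟨g, hg⟩ := Subtype.ext hk2
  rwa [this] at hk1

/-- **Growth drop.** -/
theorem ker_gr {U : Type*} [Group U] (hl : WLen l (d + 1)) (φ : G →* U)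
    {t : G} (ht : ∀ n : ℕ, 0 < n → φ (t ^ n) ≠ 1) (hK : ∀ g, l g = 0 → φ g = 1) :
    WLen (fun k : φ.ker => l (k : G)) d := by
  classical
  have h0 := hl.subgroup φ.ker
  refine ⟨h0.toPLen, h0.fin, ?_⟩
  obtain ⟨C, hC⟩ := hl.gr
  set b : ℕ := 1 + l t with hb
  refine ⟨C * b ^ (d + 1), freq_div (r := b) (by omega) hC fun n hn F hF1 hF2 => ?_⟩
  set m : ℕ := n / b with hm
  have hmn : m * b ≤ n := Nat.div_mul_le_self n b
  let f : ℕ × φ.ker → G := fun p => t ^ p.1 * (p.2 : G)
  have hpow : ∀ i j : ℕ, φ (t ^ i) = φ (t ^ j) → i = j := by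
    intro i j hij
    rcases lt_trichotomy i j with h | h | h
    · exfalso
      apply ht (j - i) (by omega)
      have : t ^ j = t ^ i * t ^ (j - i) := by rw [← pow_add]; congr 1; omega
      rw [this, map_mul] at hij
      exact (mul_eq_left.1 hij.symm)
    · exact h
    · exfalso
      apply ht (i - j) (by omega)
      have : t ^ i = t ^ j * t ^ (i - j) := by rw [← pow_add]; congr 1; omega
      rw [this, map_mul] at hij
      exact (mul_eq_left.1 hij)
  have hphi : ∀ p, φ (f p) = φ (t ^ p.1) := by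
    intro p
    show φ (t ^ p.1 * (p.2 : G)) = _
    rw [map_mul, (p.2.2 : φ (p.2 : G) = 1), mul_one]
  have key : ∀ p ∈ Finset.range (m + 1) ×ˢ F, ∀ q ∈ Finset.range (m + 1) ×ˢ F, p ≠ q →
      l ((f p)⁻¹ * f q) ≠ 0 := by
    rintro ⟨i, x⟩ hp ⟨j, y⟩ hq hne h0
    have h1 := hK _ h0
    rw [map_mul, map_inv, hphi, hphi] at h1
    have h2 : i = j := hpow i j (inv_mul_eq_one.1 h1)
    subst h2
    have h3 : (f (i, x))⁻¹ * f (i, y) = (x : G)⁻¹ * (y : G) := by
      show (t ^ i * (x : G))⁻¹ * (t ^ i * (y : G)) = _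
      group
    rw [h3] at h0
    rw [Finset.mem_product] at hp hq
    refine hF2 x hp.2 y hq.2 (fun hxy => hne (by rw [hxy])) ?_
    exact h0
  have hinj : Set.InjOn f (Finset.range (m + 1) ×ˢ F : Finset (ℕ × φ.ker)) := by
    intro p hp q hq hpq
    by_contra hne
    apply key p hp q hq hne
    rw [hpq, inv_mul_cancel, hl.one]
  have h1 := hn ((Finset.range (m + 1) ×ˢ F).image f)
    (by
      intro g hg
      obtain ⟨p, hp, rfl⟩ := Finset.mem_image.1 hg
      rw [Finset.mem_product, Finset.mem_range] at hp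
      have h2 := hl.mul (t ^ p.1) (p.2 : G)
      have h3 := hl.pow t p.1
      have h4 : p.1 * l t ≤ m * l t := Nat.mul_le_mul_right _ (by omega)
      have h5 := hF1 p.2 hp.2
      have h6 : m * b = m + m * l t := by rw [hb]; ring
      show l (t ^ p.1 * (p.2 : G)) ≤ n
      have h5' : l (p.2 : G) ≤ m := h5
      omega)
    (by
      intro g hg h hh hne
      obtain ⟨p, hp, rfl⟩ := Finset.mem_image.1 hg
      obtain ⟨q, hq, rfl⟩ := Finset.mem_image.1 hh
      exact key p hp q hq (fun hpq => hne (by rw [hpq])))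
  rw [Finset.card_image_of_injOn hinj, Finset.card_product, Finset.card_range] at h1
  have h2 : n + 1 ≤ b * (m + 1) := succ_le_of_div (by omega)
  have h3 : C * (n + 1) ^ (d + 1) ≤ (C * b ^ (d + 1) * (m + 1) ^ d) * (m + 1) := by
    calc C * (n + 1) ^ (d + 1) ≤ C * (b * (m + 1)) ^ (d + 1) :=
          Nat.mul_le_mul_left _ (Nat.pow_le_pow_left h2 _)
      _ = _ := by rw [mul_pow]; ring
  have h4 : F.card * (m + 1) ≤ (C * b ^ (d + 1) * (m + 1) ^ d) * (m + 1) := by
    rw [mul_comm]; exact h1.trans h3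
  exact Nat.le_of_mul_le_mul_right h4 (Nat.succ_pos m)

/-- a group with an unbounded "torsion-free direction" has degree at least one. -/
theorem not_wlen_zero {U : Type*} [Group U] (hl : WLen l 0) (φ : G →* U)
    {t : G} (ht : ∀ n : ℕ, 0 < n → φ (t ^ n) ≠ 1) (hK : ∀ g, l g = 0 → φ g = 1) : False := by
  classical
  obtain ⟨C, hC⟩ := hl.gr
  obtain ⟨n, hn1, hn2⟩ := (hC.and_eventually (eventually_ge_atTop ((C + 1) * l t))).exists
  have hpow : ∀ i j : ℕ, i < j → l ((t ^ i)⁻¹ * t ^ j) ≠ 0 := by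
    intro i j hij h0
    apply ht (j - i) (by omega)
    have h1 := hK _ h0
    have : (t ^ i)⁻¹ * t ^ j = t ^ (j - i) := by
      have : t ^ j = t ^ i * t ^ (j - i) := by rw [← pow_add]; congr 1; omega
      rw [this]; group
    rwa [this] at h1
  have key : ∀ i j : ℕ, i ≠ j → l ((t ^ i)⁻¹ * t ^ j) ≠ 0 := by
    intro i j hij
    rcases lt_or_gt_of_ne hij with h | h
    · exact hpow i j h
    · have h1 := hpow j i h
      rw [← hl.inv, mul_inv_rev, inv_inv]
      exact h1
  have hinj : Set.InjOn (fun i : ℕ => t ^ i) (Finset.range (C + 2) : Set ℕ) := by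
    intro i _ j _ hij
    by_contra hne
    apply key i j hne
    have : t ^ i = t ^ j := hij
    rw [this, inv_mul_cancel, hl.one]
  have h1 := hn1 ((Finset.range (C + 2)).image (fun i : ℕ => t ^ i))
    (by
      intro g hg
      obtain ⟨i, hi, rfl⟩ := Finset.mem_image.1 hg
      rw [Finset.mem_range] at hi
      have h3 := hl.pow t i
      have h4 : i * l t ≤ (C + 1) * l t := Nat.mul_le_mul_right _ (by omega)
      omega)
    (by
      intro g hg h hh hne
      obtain ⟨i, hi, rfl⟩ := Finset.mem_image.1 hg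
      obtain ⟨j, hj, rfl⟩ := Finset.mem_image.1 hh
      exact key i j (fun hij => hne (by rw [hij])))
  rw [Finset.card_image_of_injOn hinj, Finset.card_range] at h1
  simp at h1

end kernel

end Crest.Agent.R147.St
private theorem rz_624723a0d5 : type_of% @_root_.Crest.Agent.R147.St.wd.eq_def := @_root_.Crest.Agent.R147.St.wd.eq_def -- L27
private theorem rz_13d1054350 : type_of% @_root_.Crest.Agent.R147.St.wd.eq_1 := @_root_.Crest.Agent.R147.St.wd.eq_1 -- L27
end

-- ▼ part R147/StKron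
section

/-!
R147, structure block (helper505), part 11: a Kronecker type lemma. If all powers of an injective
endomorphism of a finite dimensional rational vector space are annihilated by integral polynomials
with unit leading coefficient and all complex roots of modulus less than two, then some power has a
nonzero fixed vector.
-/

set_option autoImplicit false
set_option linter.unusedSectionVars false

namespace Crest.Agent.R147.St

open Polynomial Function

/-- unit leading coefficient, all roots of modulus less than two. -/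
def LP (Q : ℤ[X]) : Prop := IsUnit Q.leadingCoeff ∧ ∀ z : ℂ, aeval z Q = 0 → ‖z‖ < 2

lemma LP.one : LP 1 := ⟨by simp, fun z hz => by simp at hz⟩

lemma LP.mul {P Q : ℤ[X]} (hP : LP P) (hQ : LP Q) : LP (P * Q) := by
  refine ⟨?_, fun z hz => ?_⟩
  · rw [leadingCoeff_mul]; exact hP.1.mul hQ.1
  · rw [map_mul, mul_eq_zero] at hz
    rcases hz with hz | hz
    · exact hP.2 z hz
    · exact hQ.2 z hz

/-- nonzero polynomials with coefficients in `{-1,0,1}`. -/
lemma LP.of_coeff {P : ℤ[X]} (h0 : P ≠ 0) (h : ∀ i, |P.coeff i| ≤ 1) : LP P := by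
  have hlc : |P.leadingCoeff| = 1 := by
    apply le_antisymm (h _)
    have : P.leadingCoeff ≠ 0 := leadingCoeff_ne_zero.2 h0
    exact Int.one_le_abs this
  refine ⟨Int.isUnit_iff_abs_eq.2 hlc, fun z hz => ?_⟩
  by_contra hcon
  push Not at hcon
  rw [aeval_eq_sum_range, Finset.sum_range_succ] at hz
  have h1 : ‖(P.leadingCoeff : ℂ) * z ^ P.natDegree‖
      ≤ ∑ i ∈ Finset.range P.natDegree, ‖z‖ ^ i := by
    have e1 : (P.leadingCoeff : ℂ) * z ^ P.natDegree
        = - ∑ i ∈ Finset.range P.natDegree, P.coeff i • z ^ i := by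
      rw [eq_neg_iff_add_eq_zero, add_comm, ← hz]
      congr 1
      rw [zsmul_eq_mul]
      rfl
    rw [e1, norm_neg]
    refine (norm_sum_le _ _).trans (Finset.sum_le_sum fun i _ => ?_)
    rw [zsmul_eq_mul, norm_mul, norm_pow]
    have h2 : ‖((P.coeff i : ℤ) : ℂ)‖ ≤ 1 := by
      rw [Complex.norm_intCast]
      exact_mod_cast h i
    calc ‖((P.coeff i : ℤ) : ℂ)‖ * ‖z‖ ^ i ≤ 1 * ‖z‖ ^ i :=
          mul_le_mul_of_nonneg_right h2 (by positivity)
      _ = _ := one_mul _
  have h2 : ‖(P.leadingCoeff : ℂ) * z ^ P.natDegree‖ = ‖z‖ ^ P.natDegree := by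
    rw [norm_mul, norm_pow, Complex.norm_intCast]
    have : |(P.leadingCoeff : ℝ)| = 1 := by exact_mod_cast hlc
    rw [this, one_mul]
  have h3 : (∑ i ∈ Finset.range P.natDegree, ‖z‖ ^ i) * (‖z‖ - 1) = ‖z‖ ^ P.natDegree - 1 :=
    geom_sum_mul _ _
  have h4 : (0 : ℝ) ≤ ∑ i ∈ Finset.range P.natDegree, ‖z‖ ^ i :=
    Finset.sum_nonneg fun i _ => by positivity
  rw [h2] at h1
  nlinarith

/-- **Kronecker.** -/
theorem root_of_unity {M : ℚ[X]} (h1 : ∀ z : ℂ, aeval z M = 0 → ‖z‖ ≤ 1 ∧ IsIntegral ℤ z)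
    {z : ℂ} (hz : aeval z M = 0) (hz0 : z ≠ 0) : ∃ n : ℕ, 0 < n ∧ z ^ n = 1 := by
  have hzi : IsIntegral ℤ z := (h1 z hz).2
  have hzq : IsIntegral ℚ z := hzi.tower_top
  have : FiniteDimensional ℚ (IntermediateField.adjoin ℚ {z}) :=
    IntermediateField.adjoin.finiteDimensional hzq
  have : NumberField (IntermediateField.adjoin ℚ {z}) := ⟨⟩
  set x : IntermediateField.adjoin ℚ {z} := IntermediateField.AdjoinSimple.gen ℚ z with hx
  have hxz : algebraMap (IntermediateField.adjoin ℚ {z}) ℂ x = z :=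
    IntermediateField.AdjoinSimple.algebraMap_gen ℚ z
  have hxi : IsIntegral ℤ x := by
    rw [← hxz] at hzi
    exact (isIntegral_algebraMap_iff (algebraMap (IntermediateField.adjoin ℚ {z}) ℂ).injective).1 hzi
  have hx0 : x ≠ 0 := by
    intro h
    rw [h, map_zero] at hxz
    exact hz0 hxz.symm
  have hxM : aeval x M = 0 := by
    apply (algebraMap (IntermediateField.adjoin ℚ {z}) ℂ).injective
    rw [← aeval_algebraMap_apply, hxz, hz, map_zero]
  obtain ⟨n, hn, hxn⟩ := NumberField.Embeddings.pow_eq_one_of_norm_le_one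
    (IntermediateField.adjoin ℚ {z}) ℂ hx0 hxi (by
      intro φ
      apply (h1 _ _).1
      have h2 : aeval (φ.toRatAlgHom x) M = φ.toRatAlgHom (aeval x M) :=
        aeval_algHom_apply _ _ _
      rw [hxM, map_zero] at h2
      exact h2)
  refine ⟨n, hn, ?_⟩
  rw [← hxz, ← map_pow, hxn, map_one]

theorem exists_fixed {V : Type*} [AddCommGroup V] [Module ℚ V] [FiniteDimensional ℚ V]
    [Nontrivial V] (T : V →ₗ[ℚ] V) (hT : Injective T)
    (h : ∀ k : ℕ, 0 < k → ∃ Q : ℤ[X], LP Q ∧ aeval (T ^ k) (Q.map (Int.castRingHom ℚ)) = 0) :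
    ∃ n : ℕ, 0 < n ∧ ∃ v : V, v ≠ 0 ∧ (T ^ n) v = v := by
  set M := minpoly ℚ T with hM
  have hTint : IsIntegral ℚ T := Algebra.IsIntegral.isIntegral T
  have hMdeg : M.degree ≠ 0 := (minpoly.degree_pos hTint).ne'
  -- all roots of `M`
  have hdvd : ∀ k : ℕ, 0 < k → ∃ Q : ℤ[X], LP Q ∧ ∀ z : ℂ, aeval z M = 0 → aeval (z ^ k) Q = 0 := by
    intro k hk
    obtain ⟨Q, hQ, hQT⟩ := h k hk
    refine ⟨Q, hQ, fun z hz => ?_⟩
    have h1 : M ∣ expand ℚ k (Q.map (Int.castRingHom ℚ)) := by
      apply minpoly.dvd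
      rw [expand_aeval]; exact hQT
    obtain ⟨R, hR⟩ := h1
    have h2 : aeval z (expand ℚ k (Q.map (Int.castRingHom ℚ))) = 0 := by
      rw [hR, map_mul, hz, zero_mul]
    rw [expand_aeval] at h2
    have h3 : aeval (z ^ k) (Q.map (Int.castRingHom ℚ)) = aeval (z ^ k) Q := by
      have := aeval_map_algebraMap (R := ℤ) ℚ (z ^ k) Q
      exact this
    rw [h3] at h2
    exact h2
  have hroots : ∀ z : ℂ, aeval z M = 0 → ‖z‖ ≤ 1 ∧ IsIntegral ℤ z := by
    intro z hz
    refine ⟨?_, ?_⟩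
    · by_contra hcon
      push Not at hcon
      obtain ⟨k, hk⟩ := ((tendsto_pow_atTop_atTop_of_one_lt hcon).eventually
        (Filter.eventually_ge_atTop 2)).and (Filter.eventually_gt_atTop 0) |>.exists
      obtain ⟨Q, hQ1, hQ2⟩ := hdvd k hk.2
      have h1 := hQ1.2 _ (hQ2 z hz)
      rw [norm_pow] at h1
      linarith [hk.1]
    · obtain ⟨Q, hQ1, hQ2⟩ := hdvd 1 one_pos
      have h1 := hQ2 z hz
      rw [pow_one] at h1
      obtain ⟨u, hu⟩ := hQ1.1
      refine ⟨C ((u⁻¹ : ℤˣ) : ℤ) * Q, ?_, ?_⟩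
      · rw [Monic.def, leadingCoeff_mul, leadingCoeff_C, ← hu]
        simp
      · rw [← aeval_def, map_mul, h1, mul_zero]
  obtain ⟨z, hz⟩ := IsAlgClosed.exists_aeval_eq_zero ℂ M hMdeg
  have hz0 : z ≠ 0 := by
    rintro rfl
    have h1 : M.coeff 0 = 0 := by
      have h2 : aeval (0 : ℂ) M = algebraMap ℚ ℂ (M.coeff 0) := by
        rw [aeval_def, eval₂_at_zero]
      rw [hz] at h2
      exact (map_eq_zero (algebraMap ℚ ℂ)).1 h2.symm
    have h2 : (Module.End.HasEigenvalue T (0 : ℚ)) := by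
      rw [Module.End.hasEigenvalue_iff_isRoot]
      rw [IsRoot.def, ← coeff_zero_eq_eval_zero]
      exact h1
    obtain ⟨v, hv⟩ := h2.exists_hasEigenvector
    have h3 : T v = T 0 := by rw [hv.apply_eq_smul, zero_smul, map_zero]
    exact hv.2 (hT h3)
  obtain ⟨n, hn, hzn⟩ := root_of_unity hroots hz hz0
  refine ⟨n, hn, ?_⟩
  -- the common factor
  have hp1 : minpoly ℚ z ∣ M := minpoly.dvd ℚ z hz
  have hp2 : minpoly ℚ z ∣ (X ^ n - 1 : ℚ[X]) := by
    apply minpoly.dvd
    simp [hzn]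
  obtain ⟨q, hq⟩ := hp1
  obtain ⟨r, hr⟩ := hp2
  have hM0 : M ≠ 0 := minpoly.ne_zero hTint
  have hzi : IsIntegral ℚ z := (hroots z hz).2.tower_top
  have hq0 : q ≠ 0 := by
    rintro rfl
    rw [mul_zero] at hq
    exact hM0 hq
  have hqT : aeval T q ≠ 0 := by
    intro hqT
    have h1 := minpoly.degree_le_of_ne_zero ℚ T hq0 hqT
    have h2 : M.natDegree = (minpoly ℚ z).natDegree + q.natDegree := by
      rw [hq, natDegree_mul (minpoly.ne_zero hzi) hq0]
    have h3 := minpoly.natDegree_pos hzi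
    have h4 := natDegree_le_natDegree h1
    rw [← hM] at h4
    omega
  obtain ⟨v, hv⟩ : ∃ v, aeval T q v ≠ 0 := by
    by_contra hcon
    push Not at hcon
    exact hqT (LinearMap.ext hcon)
  refine ⟨aeval T q v, hv, ?_⟩
  have h1 : aeval T (X ^ n - 1 : ℚ[X]) (aeval T q v) = 0 := by
    have e1 : (X ^ n - 1 : ℚ[X]) * q = r * M := by rw [hr, hq]; ring
    have e2 : aeval T (X ^ n - 1 : ℚ[X]) (aeval T q v) = aeval T ((X ^ n - 1 : ℚ[X]) * q) v := by
      rw [map_mul]; rfl
    rw [e2, e1, map_mul, minpoly.aeval, mul_zero]; rfl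
  simp only [map_sub, map_pow, aeval_X, map_one] at h1
  rw [LinearMap.sub_apply, sub_eq_zero] at h1
  exact h1

end Crest.Agent.R147.St
end

-- ▼ part R147/StVH
section

/-!
R147, structure block (helper505), part 12: virtual homomorphisms to `ℚ`, as homogeneous functions.
They form a finite dimensional space if the growth is weakly polynomial.
-/

set_option autoImplicit false
set_option linter.unusedSectionVars false

universe u

namespace Crest.Agent.R147.St

open Filter Function Polynomial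

section VH

variable {N : Type u} [Group N]

/-- `f` is additive on the subgroup `H`. -/
def AddOn (f : N → ℚ) (H : Subgroup N) : Prop := ∀ x ∈ H, ∀ y ∈ H, f (x * y) = f x + f y

lemma AddOn.mono {f : N → ℚ} {H H' : Subgroup N} (h : AddOn f H) (hle : H' ≤ H) : AddOn f H' :=
  fun x hx y hy => h x (hle hx) y (hle hy)

/-- homogeneous functions -/
def Hgs (f : N → ℚ) : Prop := ∀ x (k : ℕ), f (x ^ k) = k * f x

lemma Hgs.one {f : N → ℚ} (h : Hgs f) : f 1 = 0 := by
  have := h 1 0
  simpa using this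

lemma exists_pow_mem (H : Subgroup N) (hH : H.FiniteIndex) (x : N) : ∃ m : ℕ, 0 < m ∧ x ^ m ∈ H := by
  obtain ⟨m, hm, -, h⟩ := Subgroup.exists_pow_mem_of_index_ne_zero hH.index_ne_zero x
  exact ⟨m, hm, h⟩

/-- virtual homomorphisms to `ℚ`, killing the null elements. -/
def VH (l : N → ℕ) : Submodule ℚ (N → ℚ) where
  carrier := {f | Hgs f ∧ (∃ H : Subgroup N, H.FiniteIndex ∧ AddOn f H) ∧ ∀ x, l x = 0 → f x = 0}
  zero_mem' := ⟨fun x k => by simp, ⟨⊤, inferInstance, fun x _ y _ => by simp⟩, fun x _ => rfl⟩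
  add_mem' := by
    rintro f g ⟨hf1, ⟨H, hH, hf2⟩, hf3⟩ ⟨hg1, ⟨H', hH', hg2⟩, hg3⟩
    refine ⟨fun x k => ?_, ⟨H ⊓ H', inferInstance, fun x hx y hy => ?_⟩, fun x hx => ?_⟩
    · simp only [Pi.add_apply, hf1 x k, hg1 x k]; ring
    · simp only [Pi.add_apply, hf2 x hx.1 y hy.1, hg2 x hx.2 y hy.2]; ring
    · simp only [Pi.add_apply, hf3 x hx, hg3 x hx, add_zero]
  smul_mem' := by
    rintro c f ⟨hf1, ⟨H, hH, hf2⟩, hf3⟩
    refine ⟨fun x k => ?_, ⟨H, hH, fun x hx y hy => ?_⟩, fun x hx => ?_⟩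
    · simp only [Pi.smul_apply, smul_eq_mul, hf1 x k]; ring
    · simp only [Pi.smul_apply, smul_eq_mul, hf2 x hx y hy]; ring
    · simp only [Pi.smul_apply, smul_eq_mul, hf3 x hx, mul_zero]


lemma VH.ext_on {l : N → ℕ} {f g : N → ℚ} (hf : f ∈ VH l) (hg : g ∈ VH l) (H : Subgroup N)
    (hH : H.FiniteIndex) (h : ∀ x ∈ H, f x = g x) : f = g := by
  funext x
  obtain ⟨m, hm, hx⟩ := exists_pow_mem H hH x
  have h1 := h _ hx
  rw [hf.1, hg.1] at h1
  have : (m : ℚ) ≠ 0 := by exact_mod_cast hm.ne'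
  exact mul_left_cancel₀ this h1

/-- the homomorphism on a subgroup. -/
def toHom (f : N → ℚ) (H : Subgroup N) (h : AddOn f H) : H →* Multiplicative ℚ :=
  MonoidHom.mk' (fun x => Multiplicative.ofAdd (f x)) (fun x y => by
    rw [Subgroup.coe_mul, h x x.2 y y.2, ofAdd_add])

@[simp] lemma toHom_apply (f : N → ℚ) (H : Subgroup N) (h : AddOn f H) (x : H) :
    toHom f H h x = Multiplicative.ofAdd (f x) := rfl

end VH

section rank

/-- independent homomorphisms to `ℚ` bound the degree of growth from below. -/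
theorem indep_bound (b : ℕ) : ∀ (d : ℕ) {N : Type u} [Group N] {l : N → ℕ}, WLen l d →
    ∀ f : Fin b → N → ℚ, (∀ i x y, f i (x * y) = f i x + f i y) →
    (∀ i x, l x = 0 → f i x = 0) → LinearIndependent ℚ f → b ≤ d := by
  induction b with
  | zero => intros; exact Nat.zero_le _
  | succ b ih =>
    intro d N _ l hl f hf hK hli
    have h0 : f 0 ≠ 0 := hli.ne_zero 0
    obtain ⟨t, ht⟩ : ∃ t, f 0 t ≠ 0 := by
      by_contra hcon
      push Not at hcon
      exact h0 (funext hcon)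
    let φ : N →* Multiplicative ℚ := MonoidHom.mk' (fun x => Multiplicative.ofAdd (f 0 x))
      (fun x y => by rw [hf, ofAdd_add])
    have hφ : ∀ x, φ x = Multiplicative.ofAdd (f 0 x) := fun x => rfl
    have hpow : ∀ (g : N → ℚ), (∀ x y, g (x * y) = g x + g y) → ∀ x (n : ℤ),
        g (x ^ n) = n * g x := by
      intro g hg x n
      let ψ : N →* Multiplicative ℚ := MonoidHom.mk' (fun x => Multiplicative.ofAdd (g x))
        (fun x y => by rw [hg, ofAdd_add])
      have h1 : ψ (x ^ n) = ψ x ^ n := map_zpow ψ x n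
      have h2 := congrArg Multiplicative.toAdd h1
      rw [toAdd_zpow] at h2
      have h3 : Multiplicative.toAdd (ψ (x ^ n)) = g (x ^ n) := rfl
      have h4 : Multiplicative.toAdd (ψ x) = g x := rfl
      rw [h3, h4, zsmul_eq_mul] at h2
      exact h2
    have htn : ∀ n : ℕ, 0 < n → φ (t ^ n) ≠ 1 := by
      intro n hn h1
      have h2 := hpow (f 0) (hf 0) t n
      rw [zpow_natCast] at h2
      rw [hφ, h2] at h1
      have h3 : ((n : ℤ) : ℚ) * f 0 t = 0 := by
        have := congrArg Multiplicative.toAdd h1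
        simpa using this
      rcases mul_eq_zero.1 h3 with h4 | h4
      · have : n = 0 := by exact_mod_cast h4
        omega
      · exact ht h4
    have hφK : ∀ x, l x = 0 → φ x = 1 := by
      intro x hx
      rw [hφ, hK 0 x hx, ofAdd_zero]
    cases d with
    | zero => exact (not_wlen_zero hl φ htn hφK).elim
    | succ d =>
      have hl' := ker_gr hl φ htn hφK
      have := ih d hl' (fun i (k : φ.ker) => f i.succ (k : N))
        (fun i x y => hf _ _ _) (fun i x hx => hK _ _ hx) (by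
          rw [Fintype.linearIndependent_iff]
          intro c hc
          have hc' : ∀ k : N, φ k = 1 → ∑ i, c i * f i.succ k = 0 := by
            intro k hk
            have := congrFun hc ⟨k, hk⟩
            simpa using this
          -- the combination is a multiple of `f 0`
          set h : N → ℚ := fun x => ∑ i, c i * f i.succ x with hh
          have hadd : ∀ x y, h (x * y) = h x + h y := by
            intro x y
            simp only [hh, hf, mul_add, Finset.sum_add_distrib]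
          have hmul : ∀ x, h x * f 0 t = h t * f 0 x := by
            intro x
            obtain ⟨p, q, hq, hpq⟩ : ∃ p q : ℤ, q ≠ 0 ∧ (q : ℚ) * f 0 x = p * f 0 t := by
              refine ⟨(f 0 x / f 0 t).num, (f 0 x / f 0 t).den, ?_, ?_⟩
              · exact_mod_cast (f 0 x / f 0 t).den_nz
              · have h1 := Rat.num_div_den (f 0 x / f 0 t)
                have h2 : (((f 0 x / f 0 t).den : ℤ) : ℚ) ≠ 0 := by
                  exact_mod_cast (f 0 x / f 0 t).den_nz
                have h3 : ((f 0 x / f 0 t).num : ℚ) = (f 0 x / f 0 t) * ((f 0 x / f 0 t).den : ℤ) := by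
                  rw [← Rat.mul_den_eq_num]; simp
                rw [h3]
                field_simp
            have hk : φ (x ^ q * (t ^ p)⁻¹) = 1 := by
              rw [map_mul, map_inv, hφ, hφ, hpow (f 0) (hf 0), hpow (f 0) (hf 0), hpq,
                mul_inv_cancel]
            have h1 := hc' _ hk
            have h2 : h (x ^ q * (t ^ p)⁻¹) = 0 := h1
            rw [← zpow_neg, hadd, hpow h hadd, hpow h hadd] at h2
            have hq' : (q : ℚ) ≠ 0 := by exact_mod_cast hq
            apply mul_left_cancel₀ hq'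
            push_cast at h2
            linear_combination (f 0 t) * h2 - (h t) * hpq
          rw [Fintype.linearIndependent_iff] at hli
          have h1 := hli (Fin.cons (- (h t / f 0 t)) c) (by
            funext x
            rw [Finset.sum_apply, Fin.sum_univ_succ]
            simp only [Fin.cons_zero, Fin.cons_succ, Pi.smul_apply, smul_eq_mul, Pi.zero_apply]
            have h2 := hmul x
            have h3 : ∑ i, c i * f i.succ x = h t * f 0 x / f 0 t := by
              rw [← h2]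
              show h x = _
              field_simp
            rw [h3]
            field_simp
            ring)
          intro i
          have := h1 i.succ
          simpa using this)
      omega

variable {N : Type u} [Group N] {l : N → ℕ} {d : ℕ}

theorem VH_rank (hl : WLen l d) : Module.rank ℚ (VH l) ≤ d := by
  classical
  refine rank_le fun s hs => ?_
  -- a common subgroup
  choose H hH hadd using fun f : (s : Set (VH l)) => (f : VH l).2.2.1
  let H0 : Subgroup N := ⨅ f, H f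
  have hH0 : H0.FiniteIndex := by
    apply Subgroup.finiteIndex_iInf
    exact hH
  have hle : ∀ f, H0 ≤ H f := fun f => iInf_le _ _
  have hl0 := hl.subgroup H0
  let e := s.equivFin
  let F : Fin s.card → H0 → ℚ := fun i x => ((e.symm i : VH l) : N → ℚ) x
  refine indep_bound s.card d hl0 F ?_ ?_ ?_
  · intro i x y
    exact hadd (e.symm i) x (hle _ x.2) y (hle _ y.2)
  · intro i x hx
    exact (e.symm i : VH l).2.2.2 x hx
  · rw [Fintype.linearIndependent_iff]
    intro c hc
    have hs' : LinearIndependent ℚ (fun i : Fin s.card => ((e.symm i : s) : VH l)) :=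
      hs.comp _ e.symm.injective
    rw [Fintype.linearIndependent_iff] at hs'
    apply hs' c
    apply Subtype.ext
    refine VH.ext_on (l := l) (Subtype.property _) (Submodule.zero_mem _) H0 hH0 ?_
    intro x hx
    have h1 := congrFun hc ⟨x, hx⟩
    rw [Finset.sum_apply] at h1
    rw [AddSubmonoidClass.coe_finsetSum, Finset.sum_apply]
    exact h1

theorem VH_finite (hl : WLen l d) : FiniteDimensional ℚ (VH l) :=
  Module.rank_lt_aleph0_iff.1 ((VH_rank hl).trans_lt (Cardinal.natCast_lt_aleph0))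

/-- a common normal subgroup of finite index on which all virtual homomorphisms are additive. -/
theorem exists_common (hl : WLen l d) : ∃ H : Subgroup N, H.Normal ∧ H.FiniteIndex ∧
    ∀ f ∈ VH l, AddOn f H := by
  classical
  have hfd := VH_finite hl
  obtain ⟨s, hs⟩ := (inferInstance : Module.Finite ℚ (VH l)).fg_top
  choose H hH hadd using fun f : (s : Set (VH l)) => (f : VH l).2.2.1
  let H0 : Subgroup N := ⨅ f, H f
  have hH0 : H0.FiniteIndex := by
    apply Subgroup.finiteIndex_iInf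
    exact hH
  refine ⟨H0.normalCore, inferInstance, inferInstance, ?_⟩
  have key : ∀ f : VH l, AddOn (f : N → ℚ) H0 := by
    intro f
    have hf : f ∈ Submodule.span ℚ (s : Set (VH l)) := by rw [hs]; trivial
    refine Submodule.span_induction ?_ ?_ ?_ ?_ hf
    · intro f hf
      exact (hadd ⟨f, hf⟩).mono (iInf_le _ _)
    · intro x _ y _; simp
    · intro f g _ _ h1 h2 x hx y hy
      show (f : N → ℚ) (x * y) + (g : N → ℚ) (x * y) = _
      rw [h1 x hx y hy, h2 x hx y hy]
      show _ = ((f : N → ℚ) x + (g : N → ℚ) x) + ((f : N → ℚ) y + (g : N → ℚ) y)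
      ring
    · intro c f _ h1 x hx y hy
      show c * (f : N → ℚ) (x * y) = c * (f : N → ℚ) x + c * (f : N → ℚ) y
      rw [h1 x hx y hy]; ring
  intro f hf
  exact (key ⟨f, hf⟩).mono H0.normalCore_le

/-- the image of a ball under a virtual homomorphism, on the subgroup. -/
theorem image_VH_finite (hl : WLen l d) {f : N → ℚ} (hf : f ∈ VH l) {H : Subgroup N}
    (h : AddOn f H) (B : ℕ) : (f '' {x | x ∈ H ∧ l x ≤ B}).Finite := by
  obtain ⟨b, hb⟩ := hl.fin B
  have h1 := (image_ball_finite (hl.toPLen.subgroup H) (toHom f H h) (by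
    refine (Set.finite_singleton 1).subset ?_
    rintro _ ⟨k, hk, rfl⟩
    rw [toHom_apply, hf.2.2 k hk, ofAdd_zero]
    rfl) (hb.subgroup H)).1
  refine (h1.image Multiplicative.toAdd).subset ?_
  rintro _ ⟨x, ⟨hx1, hx2⟩, rfl⟩
  exact ⟨_, ⟨⟨x, hx1⟩, hx2, rfl⟩, rfl⟩

/-- virtual homomorphisms kill elements with bounded powers. -/
theorem VH_bdd_zero (hl : WLen l d) {f : N → ℚ} (hf : f ∈ VH l) {y : N} {B : ℕ}
    (hy : ∀ k : ℕ, l (y ^ k) ≤ B) : f y = 0 := by
  obtain ⟨H, hH, hadd⟩ := hf.2.1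
  obtain ⟨m, hm, hx⟩ := exists_pow_mem H hH y
  have h1 := image_VH_finite hl hf hadd B
  by_contra hne
  have hinj : Injective (fun k : ℕ => f (y ^ (m * k))) := by
    intro a b hab
    have h2 : f (y ^ (m * a)) = f (y ^ (m * b)) := hab
    rw [hf.1, hf.1] at h2
    have h3 := mul_right_cancel₀ hne h2
    have h4 : m * a = m * b := by exact_mod_cast h3
    exact Nat.eq_of_mul_eq_mul_left hm h4
  apply Set.infinite_range_of_injective hinj
  refine h1.subset ?_
  rintro _ ⟨k, rfl⟩
  refine ⟨y ^ (m * k), ⟨?_, hy _⟩, rfl⟩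
  rw [pow_mul]
  exact H.pow_mem hx k

/-- finitely many points separate the virtual homomorphisms. -/
theorem exists_separating (hl : WLen l d) (hg : CGen l) :
    ∃ E : Finset N, ∀ f ∈ VH l, (∀ e ∈ E, f e = 0) → f = 0 := by
  classical
  obtain ⟨H, hHn, hH, hadd⟩ := exists_common hl
  obtain ⟨r, hr⟩ := hg.subgroup hl.toPLen H hH
  obtain ⟨b, hb⟩ := hl.fin r
  obtain ⟨F, -, hF2, -, hF4⟩ := exists_net (hl.toPLen.subgroup H) (hb.subgroup H)
  refine ⟨F.image (fun x : H => (x : N)), fun f hf hE => ?_⟩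
  refine VH.ext_on hf (Submodule.zero_mem _) H hH ?_
  intro x hx
  have h1 : (⟨x, hx⟩ : H) ∈ Subgroup.closure {g : H | l (g : N) ≤ r} := by rw [hr]; trivial
  have h2 : Subgroup.closure {g : H | l (g : N) ≤ r} ≤ (toHom f H (hadd f hf)).ker := by
    rw [Subgroup.closure_le]
    intro g hg
    rw [SetLike.mem_coe, MonoidHom.mem_ker]
    obtain ⟨e, he, heg⟩ := hF4 g hg
    have e1 : g = e * (e⁻¹ * g) := by group
    rw [e1, map_mul, toHom_apply, toHom_apply, hE e (Finset.mem_image_of_mem _ he),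
      hf.2.2 _ heg]
    simp
  have h3 := h2 h1
  rw [MonoidHom.mem_ker, toHom_apply] at h3
  have h4 := congrArg Multiplicative.toAdd h3
  simpa using h4

end rank

end Crest.Agent.R147.St
end

-- ▼ part R147/StAct
section

/-!
R147, structure block (helper505), part 13: the action on the virtual homomorphisms of the kernel
of a homomorphism onto `ℤ` has a periodic vector.
-/

set_option autoImplicit false
set_option linter.unusedSectionVars false

universe u

namespace Crest.Agent.R147.St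

open Filter Function Polynomial

section action

variable {G : Type u} [Group G] {l : G → ℕ} {d : ℕ}

/-- the length on the kernel -/
abbrev kl (l : G → ℕ) (φ : G →* Multiplicative ℤ) : φ.ker → ℕ := fun k => l (k : G)

theorem conj_mem_VH {d' : ℕ} (φ : G →* Multiplicative ℤ) (hl : PLen l) (hN : WLen (kl l φ) d')
    (g : G) {f : φ.ker → ℚ} (hf : f ∈ VH (kl l φ)) :
    (fun x => f (MulAut.conjNormal g x)) ∈ VH (kl l φ) := by
  refine ⟨fun x k => ?_, ?_, fun x hx => ?_⟩
  · show f (MulAut.conjNormal g (x ^ k)) = _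
    rw [map_pow, hf.1]
  · obtain ⟨H, hH, hadd⟩ := hf.2.1
    refine ⟨H.comap (MulAut.conjNormal g : φ.ker ≃* φ.ker).toMonoidHom, ?_, ?_⟩
    · rw [Subgroup.finiteIndex_iff, Subgroup.index_comap_of_surjective]
      · exact hH.index_ne_zero
      · exact (MulAut.conjNormal g : φ.ker ≃* φ.ker).surjective
    intro x hx y hy
    show f (MulAut.conjNormal g (x * y)) = _
    rw [map_mul]
    exact hadd _ hx _ hy
  · apply VH_bdd_zero hN hf (B := 2 * l g)
    intro k
    have h1 : ((MulAut.conjNormal g x ^ k : φ.ker) : G) = g * (x : G) ^ k * g⁻¹ := by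
      rw [← map_pow, MulAut.conjNormal_apply, Subgroup.coe_pow]
    show l ((MulAut.conjNormal g x ^ k : φ.ker) : G) ≤ _
    rw [h1]
    have h2 := hl.conj g ((x : G) ^ k)
    have h3 := hl.pow (x : G) k
    have h4 : l (x : G) = 0 := hx
    rw [h4, mul_zero] at h3
    omega

/-- the action of `g` on the virtual homomorphisms of the kernel. -/
noncomputable def TT {d' : ℕ} (φ : G →* Multiplicative ℤ) (hl : PLen l) (hN : WLen (kl l φ) d')
    (g : G) : VH (kl l φ) →ₗ[ℚ] VH (kl l φ) where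
  toFun f := ⟨fun x => (f : φ.ker → ℚ) (MulAut.conjNormal g x), conj_mem_VH φ hl hN g f.2⟩
  map_add' _ _ := rfl
  map_smul' _ _ := rfl

variable {d' : ℕ} (φ : G →* Multiplicative ℤ) (hl : PLen l) (hN : WLen (kl l φ) d')

lemma TT_apply (g : G) (f : VH (kl l φ)) (x : φ.ker) :
    (TT φ hl hN g f : φ.ker → ℚ) x = (f : φ.ker → ℚ) (MulAut.conjNormal g x) := rfl

lemma TT_mul (g h : G) (f : VH (kl l φ)) : TT φ hl hN (g * h) f = TT φ hl hN h (TT φ hl hN g f) := by
  apply Subtype.ext
  funext x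
  rw [TT_apply, TT_apply, TT_apply, map_mul]
  rfl

lemma TT_one : TT φ hl hN 1 = 1 := by
  apply LinearMap.ext
  intro f
  apply Subtype.ext
  funext x
  rw [TT_apply, map_one]
  rfl

lemma TT_pow (g : G) (n : ℕ) : TT φ hl hN (g ^ n) = TT φ hl hN g ^ n := by
  induction n with
  | zero => rw [pow_zero, pow_zero, TT_one]
  | succ n ih =>
    apply LinearMap.ext
    intro f
    rw [pow_succ, TT_mul, ih, pow_succ']
    rfl

lemma TT_injective (g : G) : Injective (TT φ hl hN g) := by
  intro f f' h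
  have h1 : TT φ hl hN g⁻¹ (TT φ hl hN g f) = TT φ hl hN g⁻¹ (TT φ hl hN g f') := by rw [h]
  rw [← TT_mul, ← TT_mul, mul_inv_cancel, TT_one] at h1
  exact h1

/-- the polynomial of a coincidence. -/
noncomputable def cP (A B : Finset ℕ) : ℤ[X] := ∑ j ∈ B, X ^ j - ∑ j ∈ A, X ^ j

lemma cP_coeff (A B : Finset ℕ) (i : ℕ) :
    (cP A B).coeff i = (if i ∈ B then 1 else 0) - (if i ∈ A then 1 else 0) := by
  simp [cP, coeff_X_pow]

lemma cP_LP {A B : Finset ℕ} (h : A ≠ B) : LP (cP A B) := by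
  apply LP.of_coeff
  · intro h0
    apply h
    ext i
    have h1 := cP_coeff A B i
    rw [h0, coeff_zero] at h1
    by_cases hA : i ∈ A <;> by_cases hB : i ∈ B <;> simp [hA, hB] at h1 ⊢
  · intro i
    rw [cP_coeff]
    by_cases hA : i ∈ A <;> by_cases hB : i ∈ B <;> simp [hA, hB]

/-- evaluation of a virtual homomorphism on a word. -/
lemma map_wd {N : Type u} [Group N] {f : N → ℚ} (hf1 : f 1 = 0) {H : Subgroup N} (hadd : AddOn f H)
    (t : G) (e : ℕ → G) (i : N →* G) (c : ℕ → N) (hc : ∀ j, i (c j) = cj t e j)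
    (hcH : ∀ j, c j ∈ H) (A : Finset ℕ) (m : ℕ) :
    ∃ w ∈ H, i w = wd t e A m ∧ f w = ∑ j ∈ Finset.range m, if j ∈ A then f (c j) else 0 := by
  classical
  induction m with
  | zero => exact ⟨1, H.one_mem, by rw [map_one]; rfl, by simpa using hf1⟩
  | succ m ih =>
    obtain ⟨w, hw, h1, h2⟩ := ih
    have h3 : (if m ∈ A then c m else 1) ∈ H := by
      split
      · exact hcH m
      · exact H.one_mem
    refine ⟨(if m ∈ A then c m else 1) * w, H.mul_mem h3 hw, ?_, ?_⟩
    · rw [map_mul, h1, wd]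
      congr 1
      by_cases hm : m ∈ A
      · rw [if_pos hm, if_pos hm, hc]
      · rw [if_neg hm, if_neg hm, map_one]
    · rw [hadd _ h3 _ hw, h2, Finset.sum_range_succ, add_comm]
      congr 1
      by_cases hm : m ∈ A
      · rw [if_pos hm, if_pos hm]
      · rw [if_neg hm, if_neg hm, hf1]

/-- **The relation at one element.** -/
theorem exists_rel (hG : WLen l d) (s : G) (e : φ.ker) :
    ∃ P : ℤ[X], LP P ∧ ∀ f : VH (kl l φ),
      (aeval (TT φ hl hN s) (P.map (Int.castRingHom ℚ)) f : φ.ker → ℚ) e = 0 := by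
  classical
  obtain ⟨H, hHn, hH, hadd⟩ := exists_common hN
  set m0 := H.index with hm0
  have hm0' : m0 ≠ 0 := hH.index_ne_zero
  have hpow : ∀ x : φ.ker, x ^ m0 ∈ H := fun x => H.pow_index_mem x
  obtain ⟨m, A, B, hA, hB, hne, hAB⟩ := exists_coinc s (fun _ => ((e ^ m0 : φ.ker) : G)) hG
    (R := l ((e ^ m0 : φ.ker) : G)) (fun _ => le_rfl)
  refine ⟨cP A B, cP_LP hne, fun f => ?_⟩
  -- the conjugates
  let c : ℕ → φ.ker := fun j => MulAut.conjNormal (s ^ j) (e ^ m0)
  have hc : ∀ j, φ.ker.subtype (c j) = cj s (fun _ => ((e ^ m0 : φ.ker) : G)) j := by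
    intro j
    show ((MulAut.conjNormal (s ^ j) (e ^ m0) : φ.ker) : G) = _
    rw [MulAut.conjNormal_apply]
    rfl
  have hcH : ∀ j, c j ∈ H := by
    intro j
    show MulAut.conjNormal (s ^ j) (e ^ m0) ∈ H
    rw [map_pow]
    exact hpow _
  have hf := f.2
  obtain ⟨wA, hA1, hA2, hA3⟩ := map_wd hf.1.one (hadd f f.2) s
    (fun _ => ((e ^ m0 : φ.ker) : G)) φ.ker.subtype c hc hcH A m
  obtain ⟨wB, hB1, hB2, hB3⟩ := map_wd hf.1.one (hadd f f.2) s
    (fun _ => ((e ^ m0 : φ.ker) : G)) φ.ker.subtype c hc hcH B m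
  rw [← hA2, ← hB2] at hAB
  have h1 : (f : φ.ker → ℚ) (wA⁻¹ * wB) = 0 := hf.2.2 _ hAB
  have h2 : (f : φ.ker → ℚ) wB = (f : φ.ker → ℚ) wA := by
    have h3 := hadd f f.2 wA hA1 (wA⁻¹ * wB) (H.mul_mem (H.inv_mem hA1) hB1)
    rw [mul_inv_cancel_left, h1, add_zero] at h3
    exact h3
  have hfc : ∀ j, (f : φ.ker → ℚ) (c j) = m0 * ((TT φ hl hN s ^ j) f : φ.ker → ℚ) e := by
    intro j
    show (f : φ.ker → ℚ) (MulAut.conjNormal (s ^ j) (e ^ m0)) = _
    rw [← TT_pow, TT_apply, map_pow, hf.1]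
  have hsum : ∀ C : Finset ℕ, C ⊆ Finset.range m →
      (∑ j ∈ Finset.range m, if j ∈ C then (f : φ.ker → ℚ) (c j) else 0)
        = m0 * ∑ j ∈ C, ((TT φ hl hN s ^ j) f : φ.ker → ℚ) e := by
    intro C hC
    rw [← Finset.sum_filter, Finset.mul_sum]
    have : (Finset.range m).filter (fun j => j ∈ C) = C := by
      ext j
      simp only [Finset.mem_filter]
      exact ⟨fun h => h.2, fun h => ⟨hC h, h⟩⟩
    rw [this]
    exact Finset.sum_congr rfl fun j _ => hfc j
  rw [hA3, hB3, hsum A hA, hsum B hB] at h2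
  have h3 : (m0 : ℚ) ≠ 0 := by exact_mod_cast hm0'
  have h4 := mul_left_cancel₀ h3 h2
  have h5 : aeval (TT φ hl hN s) ((cP A B).map (Int.castRingHom ℚ))
      = ∑ j ∈ B, TT φ hl hN s ^ j - ∑ j ∈ A, TT φ hl hN s ^ j := by
    simp [cP, Polynomial.map_sub, Polynomial.map_sum]
  rw [h5, LinearMap.sub_apply, LinearMap.sum_apply, LinearMap.sum_apply]
  show ((∑ j ∈ B, (TT φ hl hN s ^ j) f : VH (kl l φ)) : φ.ker → ℚ) e
    - ((∑ j ∈ A, (TT φ hl hN s ^ j) f : VH (kl l φ)) : φ.ker → ℚ) e = 0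
  rw [AddSubmonoidClass.coe_finsetSum, AddSubmonoidClass.coe_finsetSum, Finset.sum_apply,
    Finset.sum_apply, h4, sub_self]

/-- **The relation.** -/
theorem exists_annih (hG : WLen l d) (hNg : CGen (kl l φ)) (s : G) :
    ∃ P : ℤ[X], LP P ∧ aeval (TT φ hl hN s) (P.map (Int.castRingHom ℚ)) = 0 := by
  classical
  obtain ⟨E, hE⟩ := exists_separating hN hNg
  have key : ∀ E : Finset φ.ker, ∃ P : ℤ[X], LP P ∧ ∀ e ∈ E, ∀ f : VH (kl l φ),
      (aeval (TT φ hl hN s) (P.map (Int.castRingHom ℚ)) f : φ.ker → ℚ) e = 0 := by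
    intro E
    induction E using Finset.induction_on with
    | empty => exact ⟨1, LP.one, by simp⟩
    | insert e E _ ih =>
      obtain ⟨P, hP1, hP2⟩ := ih
      obtain ⟨Q, hQ1, hQ2⟩ := exists_rel φ hl hN hG s e
      refine ⟨P * Q, hP1.mul hQ1, fun e' he' f => ?_⟩
      rcases Finset.mem_insert.1 he' with rfl | he'
      · rw [mul_comm, Polynomial.map_mul, map_mul]
        exact hQ2 _
      · rw [Polynomial.map_mul, map_mul]
        exact hP2 e' he' _
  obtain ⟨P, hP1, hP2⟩ := key E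
  refine ⟨P, hP1, LinearMap.ext fun f => Subtype.ext ?_⟩
  exact hE _ (Subtype.property _) fun e he => hP2 e he f

include hl hN in
/-- **A periodic virtual homomorphism.** -/
theorem exists_periodic (hG : WLen l d) (hNg : CGen (kl l φ)) (hne : ∃ f ∈ VH (kl l φ), f ≠ 0)
    (t : G) : ∃ n : ℕ, 0 < n ∧ ∃ f ∈ VH (kl l φ), f ≠ 0 ∧
      ∀ x, f (MulAut.conjNormal (t ^ n) x) = f x := by
  have hfd := VH_finite hN
  obtain ⟨f0, hf0, hf0'⟩ := hne
  have hnt : Nontrivial (VH (kl l φ)) :=
    ⟨⟨⟨f0, hf0⟩, 0, fun h => hf0' (congrArg Subtype.val h)⟩⟩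
  obtain ⟨n, hn, v, hv, hTv⟩ := exists_fixed (TT φ hl hN t) (TT_injective φ hl hN t) (by
    intro k _
    rw [← TT_pow]
    exact exists_annih φ hl hN hG hNg (t ^ k))
  refine ⟨n, hn, v, v.2, fun h => hv (Subtype.ext h), fun x => ?_⟩
  rw [← TT_pow] at hTv
  have := congrFun (congrArg Subtype.val hTv) x
  exact this

end action

/-- an unbounded group has a nonzero virtual homomorphism. -/
theorem exists_VH_ne {N : Type u} [Group N] {l : N → ℕ} {d : ℕ} (hl : WLen l d) (hg : CGen l)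
    (hinf : ∀ b, ∃ g, b < l g) : ∃ f ∈ VH l, f ≠ 0 := by
  obtain ⟨N1, hN1, ψ, hψ, hK⟩ := onto_int hl hg hinf
  set m := N1.normalCore.index with hm
  have hm0 : m ≠ 0 := (inferInstance : N1.normalCore.FiniteIndex).index_ne_zero
  have hm0' : (m : ℚ) ≠ 0 := by exact_mod_cast hm0
  have hpow : ∀ x : N, x ^ m ∈ N1 := fun x => N1.normalCore_le (N1.normalCore.pow_index_mem x)
  let f : N → ℚ := fun x => (Multiplicative.toAdd (ψ ⟨x ^ m, hpow x⟩) : ℤ) / m
  have hf : ∀ (x : N) (hx : x ∈ N1), f x = (Multiplicative.toAdd (ψ ⟨x, hx⟩) : ℤ) := by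
    intro x hx
    have h1 : (⟨x ^ m, hpow x⟩ : N1) = ⟨x, hx⟩ ^ m := Subtype.ext rfl
    show ((Multiplicative.toAdd (ψ ⟨x ^ m, hpow x⟩) : ℤ) : ℚ) / m = _
    rw [h1, map_pow, toAdd_pow, nsmul_eq_mul]
    push_cast
    field_simp
  refine ⟨f, ⟨fun x k => ?_, ⟨N1, hN1, fun x hx y hy => ?_⟩, fun x hx => ?_⟩, ?_⟩
  · have h1 : (⟨(x ^ k) ^ m, hpow _⟩ : N1) = ⟨x ^ m, hpow x⟩ ^ k := by
      apply Subtype.ext
      show (x ^ k) ^ m = (x ^ m) ^ k
      rw [← pow_mul, ← pow_mul, mul_comm]
    show ((Multiplicative.toAdd (ψ ⟨(x ^ k) ^ m, hpow _⟩) : ℤ) : ℚ) / m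
      = k * (((Multiplicative.toAdd (ψ ⟨x ^ m, hpow x⟩) : ℤ) : ℚ) / m)
    rw [h1, map_pow, toAdd_pow, nsmul_eq_mul]
    push_cast
    ring
  · rw [hf _ (N1.mul_mem hx hy), hf _ hx, hf _ hy]
    have h1 : (⟨x * y, N1.mul_mem hx hy⟩ : N1) = ⟨x, hx⟩ * ⟨y, hy⟩ := rfl
    rw [h1, map_mul, toAdd_mul]
    push_cast
    ring
  · have h1 := hl.pow x m
    rw [hx, mul_zero] at h1
    have h2 := hK ⟨x ^ m, hpow x⟩ (by show l (x ^ m) = 0; omega)
    show ((Multiplicative.toAdd (ψ ⟨x ^ m, hpow x⟩) : ℤ) : ℚ) / m = 0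
    rw [h2]
    simp
  · obtain ⟨⟨x, hx⟩, hx'⟩ := hψ (Multiplicative.ofAdd 1)
    intro h0
    have h1 := hf x hx
    rw [h0, hx'] at h1
    simp at h1

end Crest.Agent.R147.St
end

-- ▼ part R147/StTwo
section

/-!
R147, structure block (helper505), part 14: the dichotomy "virtually `ℤ` modulo a bounded kernel or
virtually onto `ℤ²`" for weakly polynomial growth.
-/

set_option autoImplicit false
set_option linter.unusedSectionVars false

universe u

namespace Crest.Agent.R147.St

open Filter Function Polynomial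

section transfer

open MonoidHom Subgroup MulAction in
/-- a conjugation invariant homogeneous function which is additive on a subgroup of finite index
is additive (transfer). -/
theorem add_of_conj {A : Type*} [Group A] {f : A → ℚ} (hf : Hgs f) (B : Subgroup A)
    (hB : B.FiniteIndex) (hadd : AddOn f B) (hconj : ∀ a x, f (a * x * a⁻¹) = f x) (x y : A) :
    f (x * y) = f x + f y := by
  classical
  have key : ∀ g : A, (transfer (toHom f B hadd) g) = Multiplicative.ofAdd ((B.index : ℚ) * f g) := by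
    intro g
    have : Fintype (A ⧸ B) := B.fintypeQuotientOfFiniteIndex
    have : Fintype (Quotient (orbitRel (zpowers g) (A ⧸ B))) := Fintype.ofFinite _
    rw [transfer_eq_prod_quotient_orbitRel_zpowers_quot]
    have h1 : ∀ q : Quotient (orbitRel (zpowers g) (A ⧸ B)),
        toHom f B hadd ⟨q.out.out⁻¹ * g ^ Function.minimalPeriod (g • ·) q.out * q.out.out,
          QuotientGroup.out_conj_pow_minimalPeriod_mem B g q.out⟩
        = Multiplicative.ofAdd (((Function.minimalPeriod (g • ·) q.out : ℕ) : ℚ) * f g) := by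
      intro q
      rw [toHom_apply]
      congr 1
      show f (q.out.out⁻¹ * g ^ Function.minimalPeriod (g • ·) q.out * q.out.out) = _
      have h2 := hconj q.out.out⁻¹ (g ^ Function.minimalPeriod (g • ·) q.out)
      rw [inv_inv] at h2
      rw [h2, hf]
    rw [Finset.prod_congr rfl fun q _ => h1 q, ← ofAdd_sum, ← Finset.sum_mul]
    congr 1
    congr 1
    rw [index_eq_sum_minimalPeriod B g]
    push_cast
    rfl
  have h1 := map_mul (transfer (toHom f B hadd)) x y
  rw [key, key, key, ← ofAdd_add] at h1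
  have h2 : (B.index : ℚ) * f (x * y) = (B.index : ℚ) * f x + (B.index : ℚ) * f y :=
    Multiplicative.ofAdd.injective h1
  have h3 : (B.index : ℚ) ≠ 0 := by exact_mod_cast hB.index_ne_zero
  apply mul_left_cancel₀ h3
  rw [h2]; ring

end transfer

section extension

variable {G : Type u} [Group G] {l : G → ℕ}

/-- **The extension.** -/
theorem exists_two {d' : ℕ} (φ : G →* Multiplicative ℤ)
    (hK : ∀ g, l g = 0 → φ g = 1) (hN : WLen (kl l φ) d')
    (hNg : CGen (kl l φ)) {t : G} (ht : φ t = Multiplicative.ofAdd 1) {n : ℕ} (hn : 0 < n)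
    {f : φ.ker → ℚ} (hf : f ∈ VH (kl l φ)) (hf0 : f ≠ 0)
    (hinv : ∀ x, f (MulAut.conjNormal (t ^ n) x) = f x) :
    ∃ H : Subgroup G, H.FiniteIndex ∧ ∃ φ₁ φ₂ : H →* Multiplicative ℤ,
      (∀ a b, ∃ g, φ₁ g = a ∧ φ₂ g = b) ∧ ∀ g : H, l (g : G) = 0 → φ₁ g = 1 ∧ φ₂ g = 1 := by
  classical
  have hφt := map_zpow_ofAdd ht
  set s : G := t ^ n with hs
  have hφs : φ s = Multiplicative.ofAdd (n : ℤ) := by
    rw [hs, ← zpow_natCast, hφt]
  have hn' : (n : ℤ) ≠ 0 := by exact_mod_cast hn.ne'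
  -- the stabiliser in `G`
  let S : Subgroup G :=
    { carrier := {g | ∀ x, f (MulAut.conjNormal g x) = f x}
      one_mem' := fun x => by rw [map_one]; rfl
      mul_mem' := by
        intro g h hg hh x
        have hg' : ∀ x, f (MulAut.conjNormal g x) = f x := hg
        have hh' : ∀ x, f (MulAut.conjNormal h x) = f x := hh
        rw [map_mul]
        show f (MulAut.conjNormal g (MulAut.conjNormal h x)) = f x
        rw [hg', hh']
      inv_mem' := by
        intro g hg x
        have hg' : ∀ x, f (MulAut.conjNormal g x) = f x := hg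
        rw [← hg' (MulAut.conjNormal g⁻¹ x)]
        congr 1
        rw [map_inv]
        exact MulEquiv.apply_symm_apply _ _ }
  have hS : ∀ g, g ∈ S ↔ ∀ x, f (MulAut.conjNormal g x) = f x := fun g => Iff.rfl
  have hsS : s ∈ S := hinv
  let D : Subgroup G := (Subgroup.zpowers (Multiplicative.ofAdd (n : ℤ))).comap φ
  have hD : ∀ g, g ∈ D ↔ ∃ q : ℤ, φ g = Multiplicative.ofAdd (n * q) := by
    intro g
    rw [Subgroup.mem_comap, Subgroup.mem_zpowers_iff]
    constructor
    · rintro ⟨q, hq⟩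
      refine ⟨q, ?_⟩
      rw [← hq, ← ofAdd_zsmul, smul_eq_mul, mul_comm]
    · rintro ⟨q, hq⟩
      refine ⟨q, ?_⟩
      rw [hq, ← ofAdd_zsmul, smul_eq_mul, mul_comm]
  -- the stabiliser in `N`
  let NS : Subgroup φ.ker := S.subgroupOf φ.ker
  obtain ⟨H0, hH0, hadd0⟩ := hf.2.1
  have hH0le : H0 ≤ NS := by
    intro e he
    show (e : G) ∈ S
    intro x
    obtain ⟨m, hm, hx⟩ := exists_pow_mem H0 hH0 x
    have h1 : MulAut.conjNormal (e : G) x = e * x * e⁻¹ := by
      apply Subtype.ext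
      rw [MulAut.conjNormal_apply]; rfl
    rw [h1]
    have h2 : f ((e * x * e⁻¹) ^ m) = f (x ^ m) := by
      rw [conj_pow, hadd0 _ (H0.mul_mem he hx) _ (H0.inv_mem he), hadd0 _ he _ hx]
      have h3 := hadd0 _ he _ (H0.inv_mem he)
      rw [mul_inv_cancel, hf.1.one] at h3
      linarith
    rw [hf.1, hf.1] at h2
    have h4 : (m : ℚ) ≠ 0 := by exact_mod_cast hm.ne'
    exact mul_left_cancel₀ h4 h2
  have hNS : NS.FiniteIndex := Subgroup.finiteIndex_of_le hH0le
  -- `f` is additive on the stabiliser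
  have hfadd : AddOn f NS := by
    intro x hx y hy
    have h1 := add_of_conj (A := NS) (f := fun x => f x) (fun x k => hf.1 x k) (H0.subgroupOf NS)
      inferInstance (fun x hx y hy => hadd0 _ hx _ hy) (by
        intro a x
        have h2 : f (MulAut.conjNormal ((a : φ.ker) : G) (x : φ.ker)) = f x := a.2 (x : φ.ker)
        have h3 : MulAut.conjNormal ((a : φ.ker) : G) (x : φ.ker) = a * x * (a : φ.ker)⁻¹ := by
          apply Subtype.ext
          rw [MulAut.conjNormal_apply]; rfl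
        rw [h3] at h2
        exact h2) ⟨x, hx⟩ ⟨y, hy⟩
    exact h1
  -- the homomorphism onto `ℤ`
  have hlNS := hN.subgroup NS
  have hgNS := hNg.subgroup hN.toPLen NS hNS
  obtain ⟨ψ, hψ⟩ : ∃ ψ : (toHom f NS hfadd).range →* Multiplicative ℤ, Surjective ψ := by
    apply onto_int_of_range'
    · refine range_fg hlNS hgNS _ ?_
      refine (Set.finite_singleton 1).subset ?_
      rintro _ ⟨k, hk, rfl⟩
      rw [toHom_apply, hf.2.2 _ hk, ofAdd_zero]
      rfl
    · intro x y
      rw [map_mul, map_mul, mul_comm]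
    · -- infinite
      obtain ⟨x, hx⟩ : ∃ x, f x ≠ 0 := by
        by_contra hcon
        push Not at hcon
        exact hf0 (funext hcon)
      obtain ⟨m, hm, hxm⟩ := exists_pow_mem NS hNS x
      have h1 : f (x ^ m) ≠ 0 := by
        rw [hf.1]
        exact mul_ne_zero (by exact_mod_cast hm.ne') hx
      refine Infinite.of_injective (fun k : ℕ => (⟨toHom f NS hfadd (⟨x ^ m, hxm⟩ ^ k),
        ⟨_, rfl⟩⟩ : (toHom f NS hfadd).range)) ?_
      intro a b hab
      have h2 : toHom f NS hfadd (⟨x ^ m, hxm⟩ ^ a) = toHom f NS hfadd (⟨x ^ m, hxm⟩ ^ b) :=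
        congrArg Subtype.val hab
      rw [map_pow, map_pow] at h2
      have h3 := congrArg Multiplicative.toAdd h2
      rw [toAdd_pow, toAdd_pow, toHom_apply, toAdd_ofAdd, nsmul_eq_mul, nsmul_eq_mul] at h3
      exact_mod_cast mul_right_cancel₀ h1 h3
  let ψ' : NS →* Multiplicative ℤ := ψ.comp (toHom f NS hfadd).rangeRestrict
  have hψ's : Surjective ψ' := hψ.comp (toHom f NS hfadd).rangeRestrict_surjective
  have hψ'e : ∀ x y : NS, f x = f y → ψ' x = ψ' y := by
    intro x y hxy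
    show ψ ((toHom f NS hfadd).rangeRestrict x) = ψ ((toHom f NS hfadd).rangeRestrict y)
    congr 1
    apply Subtype.ext
    show toHom f NS hfadd x = toHom f NS hfadd y
    rw [toHom_apply, toHom_apply, hxy]
  -- the group `H`
  let H : Subgroup G := S ⊓ D
  have hqH : ∀ g : H, ∃ q : ℤ, φ g = Multiplicative.ofAdd (n * q) := fun g => (hD g).1 g.2.2
  choose q hq using hqH
  have hqmul : ∀ g h : H, q (g * h) = q g + q h := by
    intro g h
    have h1 := hq (g * h)
    rw [Subgroup.coe_mul, map_mul, hq, hq, ← ofAdd_add] at h1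
    have h2 : (n : ℤ) * q g + n * q h = n * q (g * h) := Multiplicative.ofAdd.injective h1
    apply mul_left_cancel₀ hn'
    rw [← h2]; ring
  have hφsz : ∀ k : ℤ, φ (s ^ k) = Multiplicative.ofAdd (n * k) := by
    intro k
    rw [map_zpow, hφs, ← ofAdd_zsmul, smul_eq_mul, mul_comm]
  -- the `N` part
  have hnp : ∀ g : H, (g : G) * (s ^ q g)⁻¹ ∈ φ.ker := by
    intro g
    rw [MonoidHom.mem_ker, map_mul, map_inv, hq, hφsz, mul_inv_cancel]
  have hnpS : ∀ g : H, (⟨(g : G) * (s ^ q g)⁻¹, hnp g⟩ : φ.ker) ∈ NS := by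
    intro g
    show (g : G) * (s ^ q g)⁻¹ ∈ S
    exact S.mul_mem g.2.1 (S.inv_mem (S.zpow_mem hsS _))
  let np : H → NS := fun g => ⟨⟨(g : G) * (s ^ q g)⁻¹, hnp g⟩, hnpS g⟩
  have hφ1 : ∃ φ₁ : H →* Multiplicative ℤ, ∀ g, φ₁ g = Multiplicative.ofAdd (q g) :=
    ⟨MonoidHom.mk' (fun g => Multiplicative.ofAdd (q g)) (fun g h => by
      rw [hqmul, ofAdd_add]), fun g => rfl⟩
  obtain ⟨φ₁, hφ₁⟩ := hφ1
  have hφ2 : ∃ φ₂ : H →* Multiplicative ℤ, ∀ g, φ₂ g = ψ' (np g) := by
    refine ⟨MonoidHom.mk' (fun g => ψ' (np g)) (fun g h => ?_), fun g => rfl⟩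
    rw [← map_mul]
    apply hψ'e
    -- `np (g h) = np g * (s^{q g} np h s^{-q g})`
    have hsz : s ^ q g ∈ S := S.zpow_mem hsS _
    have hmem : MulAut.conjNormal (s ^ q g) (np h : φ.ker) ∈ NS := by
      show ((MulAut.conjNormal (s ^ q g) (np h : φ.ker) : φ.ker) : G) ∈ S
      rw [MulAut.conjNormal_apply]
      exact S.mul_mem (S.mul_mem hsz (np h).2) (S.inv_mem hsz)
    have h1 : ((np (g * h) : NS) : φ.ker) = (np g : φ.ker) * MulAut.conjNormal (s ^ q g) (np h : φ.ker) := by
      apply Subtype.ext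
      rw [Subgroup.coe_mul, MulAut.conjNormal_apply]
      show ((g * h : H) : G) * (s ^ q (g * h))⁻¹
        = (g : G) * (s ^ q g)⁻¹ * (s ^ q g * ((h : G) * (s ^ q h)⁻¹) * (s ^ q g)⁻¹)
      rw [hqmul, Subgroup.coe_mul, zpow_add]
      group
    rw [h1, hfadd _ (np g).2 _ hmem, hsz, Subgroup.coe_mul, hfadd _ (np g).2 _ (np h).2]
  obtain ⟨φ₂, hφ₂⟩ := hφ2
  refine ⟨H, ?_, φ₁, φ₂, ?_, ?_⟩
  · -- finite index
    have hfin : Finite (φ.ker ⧸ NS) := inferInstance
    rw [Subgroup.finiteIndex_iff_finite_quotient]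
    refine Finite.of_surjective (fun p : Fin n × (φ.ker ⧸ NS) =>
      (QuotientGroup.mk (t ^ (p.1 : ℕ) * ((Quotient.out p.2 : φ.ker) : G)) : G ⧸ H)) ?_
    intro x
    obtain ⟨g, rfl⟩ := QuotientGroup.mk_surjective x
    set k : ℤ := Multiplicative.toAdd (φ g) with hk
    have hφg : φ g = Multiplicative.ofAdd k := rfl
    have h1 := Int.emod_nonneg k hn'
    have h2 := Int.emod_lt_of_pos k (by exact_mod_cast hn : (0 : ℤ) < n)
    obtain ⟨r, hr⟩ := Int.eq_ofNat_of_zero_le h1
    have hrn : r < n := by omega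
    have hkr : k = r + n * (k / n) := by
      have := Int.emod_add_mul_ediv k n
      omega
    -- `g = t^r x s^{k/n}`
    set y : G := (t ^ r)⁻¹ * g * (s ^ (k / n))⁻¹ with hy
    have hyker : y ∈ φ.ker := by
      rw [MonoidHom.mem_ker, hy, map_mul, map_mul, map_inv, map_inv, hφsz, hφg, ← zpow_natCast, hφt,
        ← ofAdd_neg, ← ofAdd_neg, ← ofAdd_add, ← ofAdd_add]
      have : -(r : ℤ) + k + -(n * (k / n)) = 0 := by omega
      rw [this]; rfl
    refine ⟨(⟨r, hrn⟩, QuotientGroup.mk (⟨y, hyker⟩ : φ.ker)), ?_⟩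
    show (QuotientGroup.mk (t ^ r * ((Quotient.out (QuotientGroup.mk (⟨y, hyker⟩ : φ.ker) : φ.ker ⧸ NS) : φ.ker) : G)) : G ⧸ H) = QuotientGroup.mk g
    set o : φ.ker := Quotient.out (QuotientGroup.mk (⟨y, hyker⟩ : φ.ker) : φ.ker ⧸ NS) with ho
    have h3 : (QuotientGroup.mk o : φ.ker ⧸ NS) = QuotientGroup.mk ⟨y, hyker⟩ := Quotient.out_eq' _
    have h4 := QuotientGroup.eq.1 h3
    rw [QuotientGroup.eq]
    have h5 : (o : G)⁻¹ * y ∈ S := h4
    have h6 : (t ^ r * (o : G))⁻¹ * g = ((o : G)⁻¹ * y) * s ^ (k / n) := by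
      rw [hy]; group
    rw [h6]
    refine H.mul_mem ⟨h5, ?_⟩ ⟨S.zpow_mem hsS _, ?_⟩
    · apply (hD _).2
      refine ⟨0, ?_⟩
      have : φ ((o : G)⁻¹ * y) = 1 := by
        rw [map_mul, map_inv, (hyker : φ y = 1), (o.2 : φ o = 1)]; simp
      rw [this]; simp
    · apply (hD _).2
      exact ⟨_, hφsz _⟩
  · intro a b
    obtain ⟨x, hx⟩ := hψ's b
    set k : ℤ := Multiplicative.toAdd a with hk
    have hgS : ((x : φ.ker) : G) * s ^ k ∈ H := by
      refine ⟨S.mul_mem x.2 (S.zpow_mem hsS _), ?_⟩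
      apply (hD _).2
      refine ⟨k, ?_⟩
      rw [map_mul, hφsz, ((x : φ.ker).2 : φ (x : φ.ker) = 1), one_mul]
    have hqk : q ⟨_, hgS⟩ = k := by
      have h1 := hq ⟨_, hgS⟩
      have h2 : φ (((x : φ.ker) : G) * s ^ k) = Multiplicative.ofAdd (n * k) := by
        rw [map_mul, hφsz, ((x : φ.ker).2 : φ (x : φ.ker) = 1), one_mul]
      have h3 : φ ((⟨_, hgS⟩ : H) : G) = Multiplicative.ofAdd (n * k) := h2
      rw [h3] at h1
      exact (mul_left_cancel₀ hn' (Multiplicative.ofAdd.injective h1)).symm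
    refine ⟨⟨_, hgS⟩, ?_, ?_⟩
    · rw [hφ₁, hqk]; rfl
    · rw [hφ₂, ← hx]
      apply hψ'e
      congr 1
      apply Subtype.ext
      show ((x : φ.ker) : G) * s ^ k * (s ^ q ⟨_, hgS⟩)⁻¹ = _
      rw [hqk, mul_inv_cancel_right]
  · intro g hg0
    have h1 := hK _ hg0
    have hqg : q g = 0 := by
      have h2 := hq g
      rw [h1] at h2
      have h3 : (0 : ℤ) = n * q g := Multiplicative.ofAdd.injective h2
      rcases mul_eq_zero.1 h3.symm with h4 | h4
      · exact absurd h4 hn'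
      · exact h4
    refine ⟨by rw [hφ₁, hqg]; rfl, ?_⟩
    rw [hφ₂, ← map_one ψ']
    apply hψ'e
    have h4 : kl l φ (np g : φ.ker) = 0 := by
      show l ((g : G) * (s ^ q g)⁻¹) = 0
      rw [hqg]; simpa using hg0
    rw [hf.2.2 _ h4]
    exact hf.1.one.symm

end extension

/-- **The dichotomy** for boundedly generated groups with a pseudo-length of weakly polynomial
growth. -/
theorem dichotomy {G : Type u} [Group G] {l : G → ℕ} {d : ℕ} (hl : WLen l d) (hg : CGen l)
    (hinf : ∀ b, ∃ g, b < l g) :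
    (∃ H : Subgroup G, H.FiniteIndex ∧ ∃ φ : H →* Multiplicative ℤ, Surjective φ ∧
      (∀ g : H, l (g : G) = 0 → φ g = 1) ∧ ∃ B, ∀ g : H, φ g = 1 → l (g : G) ≤ B) ∨
    (∃ H : Subgroup G, H.FiniteIndex ∧ ∃ φ₁ φ₂ : H →* Multiplicative ℤ,
      (∀ a b, ∃ g, φ₁ g = a ∧ φ₂ g = b) ∧ ∀ g : H, l (g : G) = 0 → φ₁ g = 1 ∧ φ₂ g = 1) := by
  classical
  obtain ⟨G1, hG1, φ, hφ, hK⟩ := onto_int hl hg hinf
  have hl1 := hl.subgroup G1
  have hg1 := hg.subgroup hl.toPLen G1 hG1
  have hN := hl1.subgroup φ.ker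
  have hNg := ker_cgen hl1 hg1 φ hφ hK
  by_cases hb : ∀ b, ∃ k : φ.ker, b < l ((k : G1) : G)
  · right
    have hne := exists_VH_ne hN hNg hb
    obtain ⟨t, ht⟩ := hφ (Multiplicative.ofAdd 1)
    obtain ⟨n, hn, f, hf, hf0, hinv⟩ := exists_periodic φ hl1.toPLen hN hl1 hNg hne t
    obtain ⟨H, hH, φ₁, φ₂, h1, h2⟩ := exists_two φ hK hN hNg ht hn hf hf0 hinv
    let e : H ≃* H.map G1.subtype := H.equivMapOfInjective G1.subtype G1.subtype_injective
    refine ⟨H.map G1.subtype, ?_, φ₁.comp e.symm.toMonoidHom, φ₂.comp e.symm.toMonoidHom, ?_, ?_⟩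
    · rw [Subgroup.finiteIndex_iff, Subgroup.index_map_subtype]
      exact Nat.mul_ne_zero hH.index_ne_zero hG1.index_ne_zero
    · intro a b
      obtain ⟨g, hga, hgb⟩ := h1 a b
      refine ⟨e g, ?_, ?_⟩
      · show φ₁ (e.symm (e g)) = a
        rw [e.symm_apply_apply, hga]
      · show φ₂ (e.symm (e g)) = b
        rw [e.symm_apply_apply, hgb]
    · intro g hg0
      apply h2 (e.symm g)
      have h3 : ((e (e.symm g) : H.map G1.subtype) : G) = ((e.symm g : H) : G1) := rfl
      rw [← h3, e.apply_symm_apply]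
      exact hg0
  · left
    push Not at hb
    obtain ⟨B, hB⟩ := hb
    exact ⟨G1, hG1, φ, hφ, hK, B, fun g hg => hB ⟨g, hg⟩⟩

end Crest.Agent.R147.St
end

-- ▼ part R147/StGraph

/-!
R147, structure block (helper505), part 15: quasi-transitive graphs of weakly polynomial growth.
Either some quasi-transitive group of automorphisms surjects onto `ℤ²` (with an equivariant
Lipschitz map `V → ℤ²`), or there is an equivariant Lipschitz map `V → ℤ` with fibres of bounded
diameter.
-/

set_option autoImplicit false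
set_option linter.unusedSectionVars false

universe u

namespace Crest.Agent.R147.St

open Filter Function Crest.ProbabilityR.Percolation

section

variable {V : Type u} {G : SimpleGraph V}

lemma iso_dist_le (hconn : G.Connected) (g : G ≃g G) (x y : V) :
    G.dist (g x) (g y) ≤ G.dist x y := by
  obtain ⟨w, hw⟩ := hconn.exists_walk_length_eq_dist x y
  rw [← hw]
  have h1 := SimpleGraph.dist_le (w.map g.toHom)
  rw [SimpleGraph.Walk.length_map] at h1
  exact h1

lemma iso_dist (hconn : G.Connected) (g : G ≃g G) (x y : V) :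
    G.dist (g x) (g y) = G.dist x y := by
  apply le_antisymm (iso_dist_le hconn g x y)
  have h1 := iso_dist_le hconn g⁻¹ (g x) (g y)
  have h2 : ∀ z, g⁻¹ (g z) = z := fun z => g.symm_apply_apply z
  rw [h2, h2] at h1
  exact h1

/-- the displacement of the root. -/
noncomputable def len (o : V) (g : G ≃g G) : ℕ := G.dist o (g o)

lemma mul_app (g h : G ≃g G) (x : V) : (g * h) x = g (h x) := rfl

lemma inv_app_self (g : G ≃g G) (x : V) : g⁻¹ (g x) = x := g.symm_apply_apply x

lemma app_inv_self (g : G ≃g G) (x : V) : g (g⁻¹ x) = x := g.apply_symm_apply x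

lemma len_plen (hconn : G.Connected) (o : V) : PLen (len (G := G) o) where
  one := by
    show G.dist o o = 0
    exact SimpleGraph.dist_self
  mul g h := by
    show G.dist o (g (h o)) ≤ G.dist o (g o) + G.dist o (h o)
    have h1 := hconn.dist_triangle (u := o) (v := g o) (w := g (h o))
    rw [iso_dist hconn] at h1
    exact h1
  inv g := by
    show G.dist o (g⁻¹ o) = G.dist o (g o)
    rw [← iso_dist hconn g o (g⁻¹ o), app_inv_self, SimpleGraph.dist_comm]

lemma gball_finite (hconn : G.Connected) (hloc : ∀ v : V, (G.neighborSet v).Finite) (o : V)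
    (n : ℕ) : {v | G.dist o v ≤ n}.Finite := by
  induction n with
  | zero =>
    refine (Set.finite_singleton o).subset ?_
    intro v hv
    have h1 : G.dist o v = 0 := Nat.le_zero.1 hv
    exact ((hconn.dist_eq_zero_iff).1 h1).symm
  | succ n ih =>
    refine (ih.union (ih.biUnion fun v _ => hloc v)).subset ?_
    intro v hv
    by_cases h : G.dist o v ≤ n
    · exact Or.inl h
    · right
      have hv' : G.dist o v ≤ n + 1 := hv
      have h1 : G.dist o v = n + 1 := by omega
      obtain ⟨w, hw⟩ := hconn.exists_walk_length_eq_dist v o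
      rw [SimpleGraph.dist_comm, h1] at hw
      cases w with
      | nil => simp at hw
      | cons hadj w' =>
        rename_i y
        rw [SimpleGraph.Walk.length_cons] at hw
        simp only [Set.mem_iUnion]
        refine ⟨y, ?_, hadj.symm⟩
        have h2 := SimpleGraph.dist_le w'
        show G.dist o y ≤ n
        rw [SimpleGraph.dist_comm]
        omega

lemma len_cov (hconn : G.Connected) (hloc : ∀ v : V, (G.neighborSet v).Finite) (o : V) (n : ℕ) :
    Cov (len (G := G) o) n {v | G.dist o v ≤ n}.ncard := by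
  classical
  intro F hF1 hF2
  have hinj : Set.InjOn (fun g : G ≃g G => g o) F := by
    intro g hg h hh hgh
    by_contra hne
    apply hF2 g hg h hh hne
    show G.dist o ((g⁻¹ * h) o) = 0
    have h1 : g o = h o := hgh
    rw [mul_app, ← h1, inv_app_self, SimpleGraph.dist_self]
  rw [← Finset.card_image_of_injOn hinj, ← Set.ncard_coe_finset]
  refine Set.ncard_le_ncard ?_ (gball_finite hconn hloc o n)
  intro v hv
  rw [Finset.coe_image] at hv
  obtain ⟨g, hg, rfl⟩ := hv
  exact hF1 g hg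

/-- weakly polynomial growth of a graph. -/
def WGrowth (G : SimpleGraph V) (o : V) (C d : ℕ) : Prop :=
  ∃ᶠ n in atTop, {v | G.dist o v ≤ n}.ncard ≤ C * (n + 1) ^ d

lemma len_wlen (hconn : G.Connected) (hloc : ∀ v : V, (G.neighborSet v).Finite) (o : V)
    {C d : ℕ} (hgr : WGrowth G o C d) : WLen (len (G := G) o) d where
  toPLen := len_plen hconn o
  fin n := ⟨_, len_cov hconn hloc o n⟩
  gr := ⟨C, hgr.mono fun n hn => (len_cov hconn hloc o n).mono le_rfl hn⟩

/-- every vertex is close to the orbit of the root. -/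
lemma exists_near (hconn : G.Connected) (hqt : IsQuasiTransitive G) (o : V) :
    ∃ R : ℕ, ∀ v, ∃ g : G ≃g G, G.dist v (g o) ≤ R := by
  classical
  obtain ⟨F, hF⟩ := hqt
  refine ⟨F.sup (fun f => G.dist f o), fun v => ?_⟩
  obtain ⟨φ, hφ⟩ := hF v
  refine ⟨φ⁻¹, ?_⟩
  rw [← iso_dist hconn φ v (φ⁻¹ o), app_inv_self]
  exact Finset.le_sup (f := fun f => G.dist f o) hφ

lemma len_cgen (hconn : G.Connected) (hqt : IsQuasiTransitive G) (o : V) :
    CGen (len (G := G) o) := by
  obtain ⟨R, hR⟩ := exists_near hconn hqt o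
  refine ⟨2 * R + 1, ?_⟩
  rw [eq_top_iff]
  intro g _
  set S : Subgroup (G ≃g G) := Subgroup.closure {g : G ≃g G | len o g ≤ 2 * R + 1} with hS
  have hSmem : ∀ g h : G ≃g G, h ∈ S → G.dist (h o) (g o) ≤ 2 * R + 1 → g ∈ S := by
    intro g h hh hd
    have h1 : h⁻¹ * g ∈ S := by
      apply Subgroup.subset_closure
      show G.dist o ((h⁻¹ * g) o) ≤ 2 * R + 1
      rw [← iso_dist hconn h o ((h⁻¹ * g) o), mul_app, app_inv_self]
      exact hd
    have h2 := S.mul_mem hh h1
    rwa [mul_inv_cancel_left] at h2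
  -- along a walk
  have key : ∀ (x y : V) (w : G.Walk x y) (h : G ≃g G), h ∈ S → G.dist x (h o) ≤ R →
      ∃ h' ∈ S, G.dist y (h' o) ≤ R := by
    intro x y w
    induction w with
    | nil => intro h hh hd; exact ⟨h, hh, hd⟩
    | cons hadj w' ih =>
      rename_i a b c
      intro h hh hd
      obtain ⟨h', hd'⟩ := hR b
      refine ih h' (hSmem h' h hh ?_) hd'
      have h1 := hconn.dist_triangle (u := h o) (v := a) (w := h' o)
      have h2 := hconn.dist_triangle (u := a) (v := b) (w := h' o)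
      have h3 : G.dist a b = 1 := SimpleGraph.dist_eq_one_iff_adj.2 hadj
      rw [SimpleGraph.dist_comm (u := h o) (v := a)] at h1
      omega
  obtain ⟨w, _⟩ := hconn.exists_walk_length_eq_dist o (g o)
  obtain ⟨h', hh', hd'⟩ := key _ _ w 1 S.one_mem (by
    show G.dist o o ≤ R
    rw [SimpleGraph.dist_self]; exact Nat.zero_le _)
  refine hSmem g h' hh' ?_
  rw [SimpleGraph.dist_comm]
  omega

lemma len_unbounded [Infinite V] (hconn : G.Connected)
    (hloc : ∀ v : V, (G.neighborSet v).Finite) (hqt : IsQuasiTransitive G) (o : V) (b : ℕ) :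
    ∃ g : G ≃g G, b < len o g := by
  obtain ⟨R, hR⟩ := exists_near hconn hqt o
  by_contra hcon
  push Not at hcon
  have h1 : (Set.univ : Set V) ⊆ {v | G.dist o v ≤ b + R} := by
    intro v _
    obtain ⟨g, hg⟩ := hR v
    have h2 := hconn.dist_triangle (u := o) (v := g o) (w := v)
    have h3 := hcon g
    rw [SimpleGraph.dist_comm (u := g o) (v := v)] at h2
    show G.dist o v ≤ b + R
    have h4 : len o g = G.dist o (g o) := rfl
    omega
  exact Set.infinite_univ ((gball_finite hconn hloc o _).subset h1)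

/-- quasi-transitive groups of automorphisms. -/
def QT (H : Subgroup (G ≃g G)) : Prop := ∃ F : Finset V, ∀ v, ∃ h : H, (h : G ≃g G) v ∈ F

lemma QT.of_finiteIndex (hqt : IsQuasiTransitive G) (H : Subgroup (G ≃g G)) (hH : H.FiniteIndex) :
    QT H := by
  classical
  obtain ⟨F, hF⟩ := hqt
  have : Fintype ((G ≃g G) ⧸ H) := H.fintypeQuotientOfFiniteIndex
  refine ⟨((Finset.univ : Finset ((G ≃g G) ⧸ H)) ×ˢ F).image
    (fun p => (Quotient.out p.1 : G ≃g G)⁻¹ p.2), fun v => ?_⟩
  obtain ⟨φ, hφ⟩ := hF v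
  have h1 : (Quotient.out (QuotientGroup.mk φ : (G ≃g G) ⧸ H) : G ≃g G)⁻¹ * φ ∈ H := by
    rw [← QuotientGroup.eq]
    exact Quotient.out_eq' _
  refine ⟨⟨_, h1⟩, ?_⟩
  rw [Finset.mem_image]
  exact ⟨(QuotientGroup.mk φ, φ v), by simp [hφ], rfl⟩

/-- the equivariant map of a homomorphism which is trivial on stabilisers. -/
theorem exists_equivariant (H : Subgroup (G ≃g G)) (φ : H →* Multiplicative ℤ)
    (hstab : ∀ (h : H) (v : V), (h : G ≃g G) v = v → φ h = 1) :
    ∃ Φ : V → ℤ, ∀ (h : H) (v : V), Φ ((h : G ≃g G) v) = Multiplicative.toAdd (φ h) + Φ v := by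
  classical
  let r : Setoid V :=
    { r := fun x y => ∃ h : H, (h : G ≃g G) x = y
      iseqv :=
        { refl := fun x => ⟨1, rfl⟩
          symm := by
            rintro x y ⟨h, rfl⟩
            exact ⟨h⁻¹, inv_app_self _ _⟩
          trans := by
            rintro x y z ⟨h, rfl⟩ ⟨k, rfl⟩
            exact ⟨k * h, rfl⟩ } }
  let rep : V → V := fun v => Quotient.out (Quotient.mk r v)
  have hrep : ∀ v, ∃ h : H, (h : G ≃g G) (rep v) = v := fun v =>
    Quotient.exact (Quotient.out_eq (Quotient.mk r v))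
  choose hh hhh using hrep
  refine ⟨fun v => Multiplicative.toAdd (φ (hh v)), fun h v => ?_⟩
  have h1 : rep ((h : G ≃g G) v) = rep v := by
    show Quotient.out (Quotient.mk r ((h : G ≃g G) v)) = Quotient.out (Quotient.mk r v)
    congr 1
    apply Quotient.sound
    exact ⟨h⁻¹, inv_app_self _ _⟩
  have h2 : (((hh ((h : G ≃g G) v))⁻¹ * (h * hh v) : H) : G ≃g G) (rep v) = rep v := by
    show ((hh ((h : G ≃g G) v) : G ≃g G))⁻¹ ((h : G ≃g G) ((hh v : G ≃g G) (rep v))) = rep v
    rw [hhh v]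
    have h3 := hhh ((h : G ≃g G) v)
    rw [h1] at h3
    calc ((hh ((h : G ≃g G) v) : G ≃g G))⁻¹ ((h : G ≃g G) v)
        = ((hh ((h : G ≃g G) v) : G ≃g G))⁻¹ ((hh ((h : G ≃g G) v) : G ≃g G) (rep v)) := by rw [h3]
      _ = rep v := inv_app_self _ _
  have h3 := hstab _ _ h2
  rw [map_mul, map_inv, inv_mul_eq_one, map_mul] at h3
  show Multiplicative.toAdd (φ (hh ((h : G ≃g G) v))) = _
  rw [h3, toAdd_mul]

/-- a homomorphism killing the null elements is trivial on stabilisers. -/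
theorem stab_one (hconn : G.Connected) (hloc : ∀ v : V, (G.neighborSet v).Finite) (o : V)
    (H : Subgroup (G ≃g G)) (φ : H →* Multiplicative ℤ)
    (hK : ∀ g : H, len o (g : G ≃g G) = 0 → φ g = 1) (h : H) (v : V)
    (hv : (h : G ≃g G) v = v) : φ h = 1 := by
  refine eq_one_of_finite φ {k : H | (k : G ≃g G) v = v} ?_ ?_ h hv
  · intro k hk n
    induction n with
    | zero => rfl
    | succ n ih =>
      have hk' : (k : G ≃g G) v = v := hk
      have ih' : ((k ^ n : H) : G ≃g G) v = v := ih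
      show ((k ^ (n + 1) : H) : G ≃g G) v = v
      rw [pow_succ, Subgroup.coe_mul, mul_app, hk', ih']
  · have h1 := (image_ball_finite ((len_plen hconn o).subgroup H) φ (by
      refine (Set.finite_singleton 1).subset ?_
      rintro _ ⟨k, hk, rfl⟩
      exact hK k hk) ((len_cov hconn hloc o (2 * G.dist o v)).subgroup H)).1
    refine h1.subset ?_
    rintro _ ⟨k, hk, rfl⟩
    refine ⟨k, ?_, rfl⟩
    have hk' : (k : G ≃g G) v = v := hk
    show G.dist o ((k : G ≃g G) o) ≤ 2 * G.dist o v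
    have h2 := hconn.dist_triangle (u := o) (v := v) (w := (k : G ≃g G) o)
    have h3 := iso_dist hconn (k : G ≃g G) v o
    rw [hk'] at h3
    rw [h3, SimpleGraph.dist_comm (u := v) (v := o)] at h2
    omega

/-- equivariant maps are Lipschitz. -/
theorem exists_jump (hloc : ∀ v : V, (G.neighborSet v).Finite) {H : Subgroup (G ≃g G)}
    (hQ : QT H) (φ : H →* Multiplicative ℤ) (Φ : V → ℤ)
    (hΦ : ∀ (h : H) (v : V), Φ ((h : G ≃g G) v) = Multiplicative.toAdd (φ h) + Φ v) :
    ∃ C : ℕ, ∀ x y, G.Adj x y → |Φ x - Φ y| ≤ C := by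
  classical
  obtain ⟨F, hF⟩ := hQ
  have hfin : (⋃ f ∈ F, (fun w => (Φ f - Φ w).natAbs) '' G.neighborSet f).Finite :=
    F.finite_toSet.biUnion fun f _ => (hloc f).image _
  obtain ⟨C, hC⟩ := hfin.bddAbove
  refine ⟨C, fun x y hxy => ?_⟩
  obtain ⟨h, hh⟩ := hF x
  have h1 : (Φ ((h : G ≃g G) x) - Φ ((h : G ≃g G) y)).natAbs ≤ C := by
    apply hC
    simp only [Set.mem_iUnion]
    exact ⟨_, hh, (h : G ≃g G) y, (h : G ≃g G).map_adj_iff.2 hxy, rfl⟩
  rw [hΦ, hΦ] at h1
  have h2 : Multiplicative.toAdd (φ h) + Φ x - (Multiplicative.toAdd (φ h) + Φ y) = Φ x - Φ y := by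
    ring
  rw [h2] at h1
  rw [Int.abs_eq_natAbs]
  exact_mod_cast h1

end

/-- An equivariant Lipschitz map to `ℤ²`. -/
structure Z2Data {V : Type u} (G : SimpleGraph V) where
  /-- the group -/
  H : Subgroup (G ≃g G)
  /-- meets every orbit -/
  F : Finset V
  cov : ∀ v, ∃ h : H, (h : G ≃g G) v ∈ F
  /-- the homomorphism -/
  φ : H →* Multiplicative (ℤ × ℤ)
  surj : Surjective φ
  /-- the map -/
  Φ : V → ℤ × ℤ
  equi : ∀ (h : H) (v : V), Φ ((h : G ≃g G) v) = Multiplicative.toAdd (φ h) + Φ v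
  /-- the Lipschitz constant -/
  C : ℕ
  jump : ∀ x y, G.Adj x y → |(Φ x).1 - (Φ y).1| ≤ C ∧ |(Φ x).2 - (Φ y).2| ≤ C

/-- An equivariant Lipschitz map to `ℤ` with fibres of bounded diameter. -/
structure Z1Data {V : Type u} (G : SimpleGraph V) where
  /-- the group -/
  H : Subgroup (G ≃g G)
  /-- meets every orbit -/
  F : Finset V
  cov : ∀ v, ∃ h : H, (h : G ≃g G) v ∈ F
  /-- the homomorphism -/
  φ : H →* Multiplicative ℤ
  surj : Surjective φ
  /-- the map -/
  Φ : V → ℤ
  equi : ∀ (h : H) (v : V), Φ ((h : G ≃g G) v) = Multiplicative.toAdd (φ h) + Φ v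
  /-- the Lipschitz constant -/
  C : ℕ
  jump : ∀ x y, G.Adj x y → |Φ x - Φ y| ≤ C
  /-- the diameter of the fibres -/
  D : ℕ
  fib : ∀ x y, Φ x = Φ y → G.dist x y ≤ D

/-- **The structure theorem** for infinite connected locally finite quasi-transitive graphs of
weakly polynomial growth. -/
theorem structure_theorem {V : Type u} [Infinite V] (G : SimpleGraph V) (hconn : G.Connected)
    (hloc : ∀ v : V, (G.neighborSet v).Finite) (hqt : IsQuasiTransitive G) (o : V) {C d : ℕ}
    (hgr : WGrowth G o C d) : Nonempty (Z1Data G) ∨ Nonempty (Z2Data G) := by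
  classical
  rcases dichotomy (len_wlen hconn hloc o hgr) (len_cgen hconn hqt o)
    (len_unbounded hconn hloc hqt o) with
    ⟨H, hH, φ, hφ, hK, B, hB⟩ | ⟨H, hH, φ₁, φ₂, hs, hK⟩
  · left
    have hQ := QT.of_finiteIndex hqt H hH
    obtain ⟨Φ, hΦ⟩ := exists_equivariant H φ (stab_one hconn hloc o H φ hK)
    obtain ⟨C', hC'⟩ := exists_jump hloc hQ φ Φ hΦ
    obtain ⟨F, hF⟩ := hQ
    -- the fibres
    obtain ⟨t, ht⟩ := hφ (Multiplicative.ofAdd 1)
    have hl := (len_plen hconn o).subgroup H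
    have hzl : ∀ n : ℤ, len o ((t ^ n : H) : G ≃g G) ≤ n.natAbs * len o (t : G ≃g G) := by
      intro n
      obtain ⟨k, rfl | rfl⟩ := n.eq_nat_or_neg
      · rw [zpow_natCast]; simpa using hl.pow t k
      · rw [zpow_neg, zpow_natCast]
        have h1 := hl.inv (t ^ k)
        have h2 := hl.pow t k
        rw [Int.natAbs_neg, Int.natAbs_natCast]
        exact h1.le.trans h2
    set M : ℕ := F.sup (fun f => (Φ f).natAbs) with hM
    set R : ℕ := F.sup (fun f => G.dist o f) with hR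
    refine ⟨⟨H, F, hF, φ, hφ, Φ, hΦ, C', hC', R + (B + 2 * M * len o (t : G ≃g G)) + R, ?_⟩⟩
    intro x y hxy
    obtain ⟨h, hh⟩ := hF x
    obtain ⟨k, hk⟩ := hF y
    -- `h x = f`, `k y = f'`; `d(x,y) = d(f, h k⁻¹ f')`
    have e1 : G.dist x y = G.dist ((h : G ≃g G) x) (((h * k⁻¹ : H) : G ≃g G) ((k : G ≃g G) y)) := by
      have : ((h * k⁻¹ : H) : G ≃g G) ((k : G ≃g G) y) = (h : G ≃g G) y := by
        show (h : G ≃g G) ((k : G ≃g G)⁻¹ ((k : G ≃g G) y)) = (h : G ≃g G) y
        rw [inv_app_self]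
      rw [this, iso_dist hconn]
    have hx := hΦ h x
    have hy := hΦ k y
    have h1 : (Φ ((h : G ≃g G) x)).natAbs ≤ M := Finset.le_sup (f := fun f => (Φ f).natAbs) hh
    have h2 : (Φ ((k : G ≃g G) y)).natAbs ≤ M := Finset.le_sup (f := fun f => (Φ f).natAbs) hk
    set n : ℤ := Multiplicative.toAdd (φ (h * k⁻¹)) with hn
    have hn1 : n = Multiplicative.toAdd (φ h) - Multiplicative.toAdd (φ k) := by
      rw [hn, map_mul, map_inv, toAdd_mul, toAdd_inv]; ring
    have hn2 : n.natAbs ≤ 2 * M := by omega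
    have h3 : φ ((h * k⁻¹) * (t ^ n)⁻¹) = 1 := by
      rw [map_mul, map_inv, map_zpow, ht, ← ofAdd_zsmul, smul_eq_mul, mul_one, hn, ofAdd_toAdd,
        mul_inv_cancel]
    have h4 := hB _ h3
    have h5 : len o ((h * k⁻¹ : H) : G ≃g G) ≤ B + 2 * M * len o (t : G ≃g G) := by
      have h6 := hl.mul ((h * k⁻¹) * (t ^ n)⁻¹) (t ^ n)
      have e2 : (h * k⁻¹) * (t ^ n)⁻¹ * t ^ n = h * k⁻¹ := by group
      rw [e2] at h6
      have h7 := hzl n
      have h8 : n.natAbs * len o (t : G ≃g G) ≤ 2 * M * len o (t : G ≃g G) :=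
        Nat.mul_le_mul_right _ hn2
      have h6' : len o ((h * k⁻¹ : H) : G ≃g G) ≤ len o (((h * k⁻¹) * (t ^ n)⁻¹ : H) : G ≃g G)
          + len o ((t ^ n : H) : G ≃g G) := h6
      omega
    rw [e1]
    set g : G ≃g G := ((h * k⁻¹ : H) : G ≃g G) with hg
    have h9 : G.dist o ((h : G ≃g G) x) ≤ R := Finset.le_sup (f := fun f => G.dist o f) hh
    have h10 : G.dist o ((k : G ≃g G) y) ≤ R := Finset.le_sup (f := fun f => G.dist o f) hk
    have h11 := hconn.dist_triangle (u := (h : G ≃g G) x) (v := o) (w := g ((k : G ≃g G) y))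
    have h12 := hconn.dist_triangle (u := o) (v := g o) (w := g ((k : G ≃g G) y))
    rw [iso_dist hconn g] at h12
    rw [SimpleGraph.dist_comm (u := (h : G ≃g G) x) (v := o)] at h11
    have h13 : len o g = G.dist o (g o) := rfl
    omega
  · right
    have hQ := QT.of_finiteIndex hqt H hH
    obtain ⟨Φ₁, hΦ₁⟩ := exists_equivariant H φ₁
      (stab_one hconn hloc o H φ₁ fun g hg => (hK g hg).1)
    obtain ⟨Φ₂, hΦ₂⟩ := exists_equivariant H φ₂
      (stab_one hconn hloc o H φ₂ fun g hg => (hK g hg).2)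
    obtain ⟨C₁, hC₁⟩ := exists_jump hloc hQ φ₁ Φ₁ hΦ₁
    obtain ⟨C₂, hC₂⟩ := exists_jump hloc hQ φ₂ Φ₂ hΦ₂
    obtain ⟨F, hF⟩ := hQ
    refine ⟨⟨H, F, hF, MonoidHom.mk' (fun h => Multiplicative.ofAdd
      (Multiplicative.toAdd (φ₁ h), Multiplicative.toAdd (φ₂ h))) ?_, ?_,
      fun v => (Φ₁ v, Φ₂ v), ?_, max C₁ C₂, ?_⟩⟩
    · intro a b
      simp only [map_mul, toAdd_mul]
      rfl
    · intro x
      obtain ⟨g, hg1, hg2⟩ := hs (Multiplicative.ofAdd (Multiplicative.toAdd x).1)
        (Multiplicative.ofAdd (Multiplicative.toAdd x).2)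
      refine ⟨g, ?_⟩
      show Multiplicative.ofAdd (Multiplicative.toAdd (φ₁ g), Multiplicative.toAdd (φ₂ g)) = x
      rw [hg1, hg2]
      rfl
    · intro h v
      exact Prod.ext (hΦ₁ h v) (hΦ₂ h v)
    · intro x y hxy
      have h1 := hC₁ x y hxy
      have h2 := hC₂ x y hxy
      push_cast
      exact ⟨h1.trans (le_max_left _ _), h2.trans (le_max_right _ _)⟩

end Crest.Agent.R147.St
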