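import Crest.Agent.R147.Cl684Exp
import Crest.Agent.R147.StGraph
import Mathlib
import Crest.Agent.R147.Cl684Expl
import Crest.Agent.R147.Tri856

-- ▼ part R147/Cl684Cut
section

/-!
Row 147, classical blocks (helper684): graphs with infinitely many bounded cutsets have `p_c = 1`.
In particular graphs which fibre over `ℤ` with bounded fibres, and graphs of linear growth
(infinitely often).
-/

set_option autoImplicit false

open Crest.ProbabilityR.Percolation MeasureTheory ProbabilityTheory unitInterval Filter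
open Crest.Agent.R159 Crest.Agent.R159.FV Crest.Agent.R159.Sharp
open scoped Topology

namespace Crest.Agent.R147.Cl

open scoped Classical

universe u
variable {V : Type u} {G : SimpleGraph V}

section fin
variable {α : Type u}

theorem dependsOn_disjoint (D : Finset α) : DependsOn D (fun S : Finset α => Disjoint D S) := by
  intro S T h
  apply propext
  show Disjoint D S ↔ Disjoint D T
  rw [Finset.disjoint_iff_inter_eq_empty, Finset.disjoint_iff_inter_eq_empty,
    Finset.inter_comm D S, h, Finset.inter_comm T D]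

theorem Pr_disjoint_ge {p : ℝ} (hp1 : p ≤ 1) {E : Finset α} :
    ∀ D : Finset α, D ⊆ E → (1 - p) ^ D.card ≤ Pr E (fun _ => p) (fun S => Disjoint D S) := by
  intro D
  induction D using Finset.induction_on with
  | empty =>
    intro _
    rw [Pr_congr (B := fun _ => True) _ (fun S _ => by simp)]
    unfold Pr
    rw [show (fun _ : Finset α => FV.ind True) = fun _ => (1 : ℝ) from by
      funext _; exact FV.ind_true trivial, Ex_one]
    simp
  | insert e D he ih =>
    intro hE
    have heE : e ∈ E := hE (Finset.mem_insert_self e D)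
    have hDE : D ⊆ E := fun x hx => hE (Finset.mem_insert_of_mem hx)
    have h1 : Pr E (fun _ => p) (fun S => Disjoint (insert e D) S) =
        Pr E (fun _ => p) (fun S => e ∉ S ∧ Disjoint D S) := by
      apply Pr_congr
      intro S _
      rw [Finset.disjoint_insert_left]
    have hdep : DependsOn {e} (fun S : Finset α => e ∉ S) := by
      intro S T h
      apply propext
      have : e ∈ S ∩ {e} ↔ e ∈ T ∩ {e} := by rw [h]
      simpa using not_congr this
    rw [h1, Pr_and_of_disjoint (Finset.singleton_subset_iff.2 heE) hDE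
      (by simpa using he) _ hdep (dependsOn_disjoint D), Pr_not, Pr_mem heE,
      Finset.card_insert_of_notMem he, pow_succ, mul_comm]
    exact mul_le_mul_of_nonneg_left (ih hDE) (by linarith)

/-- independence of disjoint cutsets -/
theorem Pr_all_hit_le {p : ℝ} (hp0 : 0 ≤ p) (hp1 : p ≤ 1) {E : Finset α} {M : ℕ} :
    ∀ (L : List (Finset α)), (∀ D ∈ L, D ⊆ E) → (∀ D ∈ L, D.card ≤ M) →
      L.Pairwise (fun D D' => Disjoint D D') →
      Pr E (fun _ => p) (fun S => ∀ D ∈ L, ¬ Disjoint D S) ≤ (1 - (1 - p) ^ M) ^ L.length := by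
  intro L
  induction L with
  | nil =>
    intro _ _ _
    have := Pr_le_one (E := E) (w := fun _ => p) (fun _ _ => hp0) (fun _ _ => hp1)
      (fun S => ∀ D ∈ ([] : List (Finset α)), ¬ Disjoint D S)
    simpa using this
  | cons D L ih =>
    intro hE hM hdis
    rw [List.pairwise_cons] at hdis
    have h1 : Pr E (fun _ => p) (fun S => ∀ D' ∈ D :: L, ¬ Disjoint D' S) =
        Pr E (fun _ => p) (fun S => ¬ Disjoint D S ∧ ∀ D' ∈ L, ¬ Disjoint D' S) := by
      apply Pr_congr
      intro S _
      simp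
    set U : Finset α := L.foldr (fun D' U => D' ∪ U) ∅ with hU
    have hmemU : ∀ x, x ∈ U ↔ ∃ D' ∈ L, x ∈ D' := by
      intro x
      rw [hU]
      clear hU ih hE hM hdis h1
      induction L with
      | nil => simp
      | cons a L ih => simp [ih]
    have hUE : U ⊆ E := by
      intro x hx
      obtain ⟨D', hD', hx'⟩ := (hmemU x).1 hx
      exact hE D' (List.mem_cons_of_mem _ hD') hx'
    have hDU : Disjoint D U := by
      rw [Finset.disjoint_left]
      intro x hx hxU
      obtain ⟨D', hD', hx'⟩ := (hmemU x).1 hxU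
      exact Finset.disjoint_left.1 (hdis.1 D' hD') hx hx'
    have hdepU : DependsOn U (fun S : Finset α => ∀ D' ∈ L, ¬ Disjoint D' S) := by
      intro S T h
      apply propext
      have key : ∀ D' ∈ L, (Disjoint D' S ↔ Disjoint D' T) := by
        intro D' hD'
        have hsub : D' ⊆ U := fun x hx => (hmemU x).2 ⟨D', hD', hx⟩
        rw [Finset.disjoint_left, Finset.disjoint_left]
        constructor
        · intro h' x hx hxT
          have : x ∈ T ∩ U := Finset.mem_inter.2 ⟨hxT, hsub hx⟩
          rw [← h] at this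
          exact h' hx (Finset.mem_inter.1 this).1
        · intro h' x hx hxS
          have : x ∈ S ∩ U := Finset.mem_inter.2 ⟨hxS, hsub hx⟩
          rw [h] at this
          exact h' hx (Finset.mem_inter.1 this).1
      constructor
      · intro h' D' hD' h2
        exact h' D' hD' ((key D' hD').2 h2)
      · intro h' D' hD' h2
        exact h' D' hD' ((key D' hD').1 h2)
    have hdepD : DependsOn D (fun S : Finset α => ¬ Disjoint D S) := by
      intro S T h
      have := dependsOn_disjoint D S T h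
      simp only at this ⊢
      rw [this]
    have hD : Pr E (fun _ => p) (fun S => ¬ Disjoint D S) ≤ 1 - (1 - p) ^ M := by
      rw [Pr_not]
      have h2 := Pr_disjoint_ge hp1 D (hE D List.mem_cons_self)
      have h3 : (1 - p) ^ M ≤ (1 - p) ^ D.card :=
        pow_le_pow_of_le_one (by linarith) (by linarith) (hM D List.mem_cons_self)
      linarith
    have hL := ih (fun D' hD' => hE D' (List.mem_cons_of_mem _ hD'))
      (fun D' hD' => hM D' (List.mem_cons_of_mem _ hD')) hdis.2
    rw [h1, Pr_and_of_disjoint (hE D List.mem_cons_self) hUE hDU _ hdepD hdepU,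
      List.length_cons, pow_succ, mul_comm]
    have h4 : 0 ≤ 1 - (1 - p) ^ M := by
      have : (1 - p) ^ M ≤ 1 := pow_le_one₀ (by linarith) (by linarith)
      linarith
    exact mul_le_mul hL hD (Pr_nonneg (fun _ _ => hp0) (fun _ _ => hp1) _) (by positivity)

end fin

/-- cutset hypothesis: arbitrarily far cutsets of size at most `M` -/
def HasCuts (G : SimpleGraph V) (M : ℕ) (o : V) : Prop :=
  ∀ B : Finset V, ∃ E : Finset (Sym2 V), (↑E : Set (Sym2 V)) ⊆ G.edgeSet ∧ E.card ≤ M ∧
    (∀ a b, s(a, b) ∈ E → ¬ (a ∈ B ∧ b ∈ B)) ∧ ¬ Inf.InfAt G (G.edgeSet \ ↑E) o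

theorem exists_disjoint_cuts {M : ℕ} {o : V} (h : HasCuts G M o) (n : ℕ) :
    ∃ L : List (Finset (Sym2 V)), L.length = n ∧ (∀ D ∈ L, (↑D : Set (Sym2 V)) ⊆ G.edgeSet) ∧
      (∀ D ∈ L, D.card ≤ M) ∧ L.Pairwise (fun D D' => Disjoint D D') ∧
      ∀ D ∈ L, ¬ Inf.InfAt G (G.edgeSet \ ↑D) o := by
  induction n with
  | zero => exact ⟨[], rfl, by simp, by simp, List.Pairwise.nil, by simp⟩
  | succ n ih =>
    obtain ⟨L, hlen, hE, hM, hdis, hcut⟩ := ih
    -- endpoints of the previous cutsets
    set U : Finset (Sym2 V) := L.foldr (fun D' U => D' ∪ U) ∅ with hU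
    have hmemU : ∀ x, x ∈ U ↔ ∃ D' ∈ L, x ∈ D' := by
      intro x
      rw [hU]
      clear hU hlen hE hM hdis hcut
      induction L with
      | nil => simp
      | cons a L ih => simp [ih]
    set B : Finset V := U.biUnion (fun e => e.toFinset) with hB
    obtain ⟨E, h1, h2, h3, h4⟩ := h B
    refine ⟨E :: L, by simp [hlen], ?_, ?_, ?_, ?_⟩
    · intro D hD
      rcases List.mem_cons.1 hD with rfl | hD
      · exact h1
      · exact hE D hD
    · intro D hD
      rcases List.mem_cons.1 hD with rfl | hD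
      · exact h2
      · exact hM D hD
    · rw [List.pairwise_cons]
      refine ⟨fun D hD => ?_, hdis⟩
      rw [Finset.disjoint_left]
      intro e heE heD
      induction e using Sym2.ind with
      | _ a b =>
        apply h3 a b heE
        have heU : s(a, b) ∈ U := (hmemU _).2 ⟨D, hD, heD⟩
        constructor
        · exact Finset.mem_biUnion.2 ⟨_, heU, by simp⟩
        · exact Finset.mem_biUnion.2 ⟨_, heU, by simp⟩
    · intro D hD
      rcases List.mem_cons.1 hD with rfl | hD
      · exact h4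
      · exact hcut D hD

theorem th0_eq_zero_of_cuts [Countable V] {M : ℕ} {o : V} (h : HasCuts G M o) (p : I)
    (hp : (p : ℝ) < 1) : th0 G p o = 0 := by
  apply le_antisymm _ (th0_nonneg G p o)
  set r : ℝ := 1 - (1 - (p : ℝ)) ^ M with hr
  have hr1 : r < 1 := by
    rw [hr]
    have : 0 < (1 - (p : ℝ)) ^ M := pow_pos (by linarith) _
    linarith
  have hr0 : 0 ≤ r := by
    rw [hr]
    have : (1 - (p : ℝ)) ^ M ≤ 1 := pow_le_one₀ (by linarith) (by linarith [p.2.1])
    linarith
  have hle : ∀ n : ℕ, th0 G p o ≤ r ^ n := by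
    intro n
    obtain ⟨L, hlen, hE, hM, hdis, hcut⟩ := exists_disjoint_cuts h n
    set U : Finset (Sym2 V) := L.foldr (fun D' U => D' ∪ U) ∅ with hU
    have hmemU : ∀ x, x ∈ U ↔ ∃ D' ∈ L, x ∈ D' := by
      intro x
      rw [hU]
      clear hU hlen hE hM hdis hcut
      induction L with
      | nil => simp
      | cons a L ih => simp [ih]
    have hUE : (↑U : Set (Sym2 V)) ⊆ G.edgeSet := by
      intro x hx
      obtain ⟨D', hD', hx'⟩ := (hmemU x).1 hx
      exact hE D' hD' hx'
    have h1 := Inf.setBer_real_Pr G.edgeSet p U hUE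
      (fun ξ => ∀ D ∈ L, ∃ e ∈ D, e ∈ ξ)
    have h2 : FV.Pr U (fun _ => (p : ℝ)) (fun S => ∀ D ∈ L, ∃ e ∈ D, e ∈ (↑S : Set (Sym2 V))) =
        Pr U (fun _ => (p : ℝ)) (fun S => ∀ D ∈ L, ¬ Disjoint D S) := by
      apply Pr_congr
      intro S _
      simp only [Finset.not_disjoint_iff, Finset.mem_coe]
    have h3 : th0 G p o ≤ (setBernoulli G.edgeSet p).real
        {ω | ∀ D ∈ L, ∃ e ∈ D, e ∈ ω ∩ (↑U : Set (Sym2 V))} := by
      unfold th0
      apply measureReal_mono _ (measure_ne_top _ _)
      intro ω hω D hD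
      by_contra hcon
      push Not at hcon
      apply hcut D hD
      have h4 : openSubgraph G ω ≤ openSubgraph G (G.edgeSet \ ↑D) := by
        intro a b hab
        rw [Inf.openSubgraph_adj] at hab ⊢
        refine ⟨⟨hab.2, ?_⟩, hab.2⟩
        intro hD'
        exact hcon _ hD' ⟨hab.1, (hmemU _).2 ⟨D, hD, hD'⟩⟩
      have hω' : {y | (openSubgraph G ω).Reachable o y}.Infinite := hω
      exact Set.Infinite.mono (fun y hy => SimpleGraph.Reachable.mono h4 hy) hω'
    rw [h1, h2] at h3
    have h5 := Pr_all_hit_le (p := (p : ℝ)) p.2.1 p.2.2 (E := U) (M := M) L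
      (fun D hD x hx => (hmemU x).2 ⟨D, hD, hx⟩) hM hdis
    rw [hlen] at h5
    refine h3.trans (le_trans (le_of_eq ?_) h5)
    congr!
  have hlim := tendsto_pow_atTop_nhds_zero_of_lt_one hr0 hr1
  exact ge_of_tendsto' hlim hle

/-- **(C1)** infinitely many bounded cutsets imply `p_c = 1`. -/
theorem pc_eq_one_of_cuts [Infinite V] (hconn : G.Connected)
    (hloc : ∀ v : V, (G.neighborSet v).Finite) {M : ℕ} {o : V} (h : HasCuts G M o) :
    bondCriticalValue G = 1 := by
  have : Countable V := Inf.countable_of_connected G hconn hloc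
  apply le_antisymm (bondCriticalValue_le_one G)
  unfold bondCriticalValue
  apply le_csInf
  · refine ⟨1, 1, ?_, rfl⟩
    simp only [Set.mem_ofPred_eq]
    rw [setBernoulli_one, Measure.dirac_apply_of_mem]
    · exact one_pos
    · simp only [Set.mem_ofPred_eq]
      rw [Inf.hasInfiniteCluster_iff]
      refine ⟨o, ?_⟩
      unfold Inf.InfAt
      rw [Inf.openSubgraph_edgeSet]
      have : {y | G.Reachable o y} = Set.univ := by
        ext y; simp [hconn.preconnected o y]
      rw [this]
      exact Set.infinite_univ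
  · rintro _ ⟨p, hp, rfl⟩
    by_contra hlt
    push Not at hlt
    have h0 : ∀ x, th0 G p x = 0 := by
      intro x
      by_contra hne
      have hpos : 0 < th0 G p x := lt_of_le_of_ne (th0_nonneg G p x) (Ne.symm hne)
      have hp0 : 0 < (p : ℝ) := by
        rcases lt_or_eq_of_le p.2.1 with h | h
        · exact h
        · exfalso
          have : p = 0 := Subtype.ext h.symm
          rw [this, th0_zero] at hpos
          exact lt_irrefl _ hpos
      -- transport positivity to `o`
      have hall : ∀ y, 0 < th0 G p y := by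
        intro y
        obtain ⟨w⟩ := hconn.preconnected x y
        clear hne
        induction w with
        | nil => exact hpos
        | @cons a b y hab w ih =>
          apply ih
          have h1 := setBer_insert_le G.edgeSet p s(a, b) hab (Inf.measurableSet_infAt G b)
          have h2 : th0 G p a ≤ (setBernoulli G.edgeSet p).real
              {ω | insert s(a, b) ω ∈ {ω | Inf.InfAt G ω b}} := by
            apply measureReal_mono _ (measure_ne_top _ _)
            intro ω hω
            have h3 : Inf.InfAt G (insert s(a, b) ω) a :=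
              Inf.InfAt.mono G (Set.subset_insert _ _) hω
            refine Inf.InfAt.of_reachable G (SimpleGraph.Adj.reachable ?_) h3
            rw [Inf.openSubgraph_adj]
            exact ⟨Set.mem_insert _ _, hab⟩
          have h4 : 0 < (p : ℝ) * th0 G p a := mul_pos hp0 hpos
          have h5 : (p : ℝ) * th0 G p a ≤ th0 G p b :=
            (mul_le_mul_of_nonneg_left h2 hp0.le).trans h1
          linarith
      have := hall o
      rw [th0_eq_zero_of_cuts h p hlt] at this
      exact lt_irrefl _ this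
    rw [Set.mem_ofPred_eq, measure_hasInf_eq_zero p h0] at hp
    exact lt_irrefl _ hp

theorem card_toE_le (hloc : ∀ v : V, (G.neighborSet v).Finite) {D : ℕ}
    (hD : ∀ v, (nb hloc v).card ≤ D) (W : Finset V) : (toE hloc W).card ≤ W.card * D := by
  unfold toE
  refine Finset.card_biUnion_le_card_mul _ _ _ fun v _ => ?_
  exact Finset.card_image_le.trans (hD v)

/-- a vertex cutset `W` blocking all exits from a finite set `A ∋ o` -/
theorem not_infAt_of_vertex_cut (hloc : ∀ v : V, (G.neighborSet v).Finite) {o : V}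
    {A : Set V} (hA : A.Finite) (ho : o ∈ A) (W : Finset V)
    (h : ∀ a b, a ∈ A → G.Adj a b → b ∉ A → b ∈ W) :
    ¬ Inf.InfAt G (G.edgeSet \ ↑(toE hloc W)) o := by
  intro hinf
  apply hinf
  apply hA.subset
  intro y hy
  have hy' : (openSubgraph G (G.edgeSet \ ↑(toE hloc W))).Reachable o y := hy
  rw [SimpleGraph.reachable_iff_reflTransGen] at hy'
  by_contra hyA
  obtain ⟨u, v, hu, hv, huv⟩ := exists_exit_edge hy' ho hyA
  rw [Inf.openSubgraph_adj] at huv
  apply huv.1.2
  rw [Finset.mem_coe, mem_toE]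
  exact ⟨huv.2, Or.inr (h u v hu huv.2 hv)⟩

/-- **(C2)** graphs fibring over `ℤ` with bounded fibres have bounded cutsets. -/
theorem hasCuts_of_strip (hloc : ∀ v : V, (G.neighborSet v).Finite) {D : ℕ}
    (hD : ∀ v, (nb hloc v).card ≤ D) (Φ : V → ℤ) {C0 m : ℕ}
    (hΦ : ∀ x y, G.Adj x y → |Φ x - Φ y| ≤ C0) (hfin : ∀ i, (Φ ⁻¹' {i}).Finite)
    (hcard : ∀ i, (Φ ⁻¹' {i}).ncard ≤ m) (o : V) :
    HasCuts G ((2 * ((C0 + 1) * m)) * D) o := by
  intro B
  obtain ⟨L, hL⟩ : ∃ L : ℤ, ∀ b ∈ insert o B, |Φ b| < L := by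
    refine ⟨((insert o B).sup (fun b => (Φ b).natAbs) : ℕ) + 1, fun b hb => ?_⟩
    have h1 := Finset.le_sup (f := fun b => (Φ b).natAbs) hb
    rw [Int.abs_eq_natAbs]
    exact Int.lt_add_one_of_le (by exact_mod_cast h1)
  set W1 : Finset V := (Finset.range (C0 + 1)).biUnion (fun j => (hfin (L + j)).toFinset) with hW1
  set W2 : Finset V := (Finset.range (C0 + 1)).biUnion (fun j => (hfin (-(L + j))).toFinset)
    with hW2
  have hcW : ∀ i, ((hfin i).toFinset).card ≤ m := by
    intro i
    rw [← Set.ncard_eq_toFinset_card _ (hfin i)]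
    exact hcard i
  have hW1c : W1.card ≤ (C0 + 1) * m := by
    have := Finset.card_biUnion_le_card_mul (Finset.range (C0 + 1))
      (fun j : ℕ => (hfin (L + j)).toFinset) m (fun j _ => hcW _)
    rwa [Finset.card_range] at this
  have hW2c : W2.card ≤ (C0 + 1) * m := by
    have := Finset.card_biUnion_le_card_mul (Finset.range (C0 + 1))
      (fun j : ℕ => (hfin (-(L + j))).toFinset) m (fun j _ => hcW _)
    rwa [Finset.card_range] at this
  have hmW1 : ∀ v, v ∈ W1 ↔ L ≤ Φ v ∧ Φ v ≤ L + C0 := by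
    intro v
    rw [hW1, Finset.mem_biUnion]
    simp only [Finset.mem_range, Set.Finite.mem_toFinset, Set.mem_preimage, Set.mem_singleton_iff]
    constructor
    · rintro ⟨j, hj, h⟩
      omega
    · rintro ⟨h1, h2⟩
      exact ⟨(Φ v - L).toNat, by omega, by omega⟩
  have hmW2 : ∀ v, v ∈ W2 ↔ Φ v ≤ -L ∧ -(L + C0) ≤ Φ v := by
    intro v
    rw [hW2, Finset.mem_biUnion]
    simp only [Finset.mem_range, Set.Finite.mem_toFinset, Set.mem_preimage, Set.mem_singleton_iff]
    constructor
    · rintro ⟨j, hj, h⟩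
      omega
    · rintro ⟨h1, h2⟩
      exact ⟨(-Φ v - L).toNat, by omega, by omega⟩
  have hWB : ∀ v ∈ W1 ∪ W2, v ∉ B := by
    intro v hv hvB
    have h1 := hL v (Finset.mem_insert_of_mem hvB)
    rw [abs_lt] at h1
    rcases Finset.mem_union.1 hv with h | h
    · rw [hmW1] at h
      omega
    · rw [hmW2] at h
      omega
  refine ⟨toE hloc (W1 ∪ W2), toE_subset_edgeSet hloc _, ?_, ?_, ?_⟩
  · refine (card_toE_le hloc hD _).trans (Nat.mul_le_mul_right _ ?_)
    refine (Finset.card_union_le _ _).trans ?_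
    omega
  · intro a b hab hB
    rw [mem_toE] at hab
    rcases hab.2 with h | h
    · exact hWB a h hB.1
    · exact hWB b h hB.2
  · apply not_infAt_of_vertex_cut hloc (A := {v | |Φ v| < L})
    · have hsub : {v | |Φ v| < L} ⊆ ⋃ i ∈ Finset.Icc (-L) L, Φ ⁻¹' {i} := by
        intro v hv
        have hv' : |Φ v| < L := hv
        rw [abs_lt] at hv'
        rw [Set.mem_iUnion₂]
        exact ⟨Φ v, Finset.mem_Icc.2 ⟨hv'.1.le, hv'.2.le⟩, rfl⟩
      exact (Set.Finite.biUnion (Finset.finite_toSet _) fun i _ => hfin i).subset hsub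
    · exact hL o (Finset.mem_insert_self o B)
    · intro a b ha hab hb
      have ha' : |Φ a| < L := ha
      have hb' : ¬ |Φ b| < L := hb
      have h1 := hΦ a b hab
      rw [abs_lt] at ha' hb'
      rw [abs_le] at h1
      rw [Finset.mem_union, hmW1, hmW2]
      omega

theorem pc_eq_one_of_strip [Infinite V] (hconn : G.Connected)
    (hloc : ∀ v : V, (G.neighborSet v).Finite) {D : ℕ}
    (hD : ∀ v, (nb hloc v).card ≤ D) (Φ : V → ℤ) {C0 m : ℕ}
    (hΦ : ∀ x y, G.Adj x y → |Φ x - Φ y| ≤ C0) (hfin : ∀ i, (Φ ⁻¹' {i}).Finite)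
    (hcard : ∀ i, (Φ ⁻¹' {i}).ncard ≤ m) : bondCriticalValue G = 1 :=
  pc_eq_one_of_cuts hconn hloc (hasCuts_of_strip hloc hD Φ hΦ hfin hcard (Classical.arbitrary V))



end Crest.Agent.R147.Cl
end

-- ▼ part R147/StLin
section

/-!
R147, structure block (helper505), part 16: for `p_c < 1` and weakly polynomial growth there is an
equivariant Lipschitz map to `ℤ²` (the two-ended case is excluded by helper684's cutset theorem).
-/

set_option autoImplicit false
set_option linter.unusedSectionVars false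

universe u

namespace Crest.Agent.R147.St

open Filter Function Crest.ProbabilityR.Percolation

variable {V : Type u} {G : SimpleGraph V}

/-- balls have bounded cardinality -/
theorem exists_ball_bound (hconn : G.Connected) (hloc : ∀ v : V, (G.neighborSet v).Finite)
    (hqt : IsQuasiTransitive G) (D : ℕ) : ∃ m : ℕ, ∀ v, {w | G.dist v w ≤ D}.ncard ≤ m := by
  classical
  obtain ⟨F, hF⟩ := hqt
  refine ⟨F.sup (fun f => {w | G.dist f w ≤ D}.ncard), fun v => ?_⟩
  obtain ⟨φ, hφ⟩ := hF v
  refine le_trans ?_ (Finset.le_sup (f := fun f => {w | G.dist f w ≤ D}.ncard) hφ)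
  refine Set.ncard_le_ncard_of_injOn (fun w => φ w) ?_ φ.injective.injOn
    (gball_finite hconn hloc _ _)
  intro w hw
  show G.dist (φ v) (φ w) ≤ D
  rw [iso_dist hconn]
  exact hw

/-- the two-ended case -/
theorem Z1Data.pc_eq_one [Infinite V] (hconn : G.Connected)
    (hloc : ∀ v : V, (G.neighborSet v).Finite) (hqt : IsQuasiTransitive G) (Z : Z1Data G) :
    bondCriticalValue G = 1 := by
  classical
  obtain ⟨m, hm⟩ := exists_ball_bound hconn hloc hqt Z.D
  obtain ⟨D, hD⟩ := Cl.exists_degree_bound hloc hqt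
  have key : ∀ i, (Z.Φ ⁻¹' {i}).Finite ∧ (Z.Φ ⁻¹' {i}).ncard ≤ m := by
    intro i
    rcases (Z.Φ ⁻¹' {i}).eq_empty_or_nonempty with h | ⟨x, hx⟩
    · rw [h]; simp
    · have hsub : Z.Φ ⁻¹' {i} ⊆ {w | G.dist x w ≤ Z.D} := by
        intro w hw
        have h1 : Z.Φ x = i := hx
        have h2 : Z.Φ w = i := hw
        exact Z.fib x w (h1.trans h2.symm)
      exact ⟨(gball_finite hconn hloc _ _).subset hsub,
        (Set.ncard_le_ncard hsub (gball_finite hconn hloc _ _)).trans (hm x)⟩
  exact Cl.pc_eq_one_of_strip hconn hloc hD Z.Φ Z.jump (fun i => (key i).1) (fun i => (key i).2)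

/-- **Weakly polynomial growth and `p_c < 1` give an equivariant Lipschitz map to `ℤ²`.** -/
theorem exists_Z2Data [Infinite V] (hconn : G.Connected)
    (hloc : ∀ v : V, (G.neighborSet v).Finite) (hqt : IsQuasiTransitive G)
    (hlt : bondCriticalValue G < 1) (o : V) {C d : ℕ} (hgr : WGrowth G o C d) :
    Nonempty (Z2Data G) := by
  rcases structure_theorem G hconn hloc hqt o hgr with ⟨⟨Z⟩⟩ | h
  · rw [Z.pc_eq_one hconn hloc hqt] at hlt
    exact absurd hlt (lt_irrefl _)
  · exact h

/-- **The dichotomy**: for `p_c < 1`, either there is an equivariant Lipschitz map to `ℤ²` or the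
growth is superpolynomial at all scales. -/
theorem Z2Data_or_superpolynomial [Infinite V] (hconn : G.Connected)
    (hloc : ∀ v : V, (G.neighborSet v).Finite) (hqt : IsQuasiTransitive G)
    (hlt : bondCriticalValue G < 1) (o : V) :
    Nonempty (Z2Data G) ∨ ∀ C d : ℕ, ∀ᶠ n in atTop,
      C * (n + 1) ^ d < {v | G.dist o v ≤ n}.ncard := by
  by_cases h : ∃ C d : ℕ, WGrowth G o C d
  · obtain ⟨C, d, h⟩ := h
    exact Or.inl (exists_Z2Data hconn hloc hqt hlt o h)
  · right
    push Not at h
    intro C d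
    have h1 := h C d
    rw [WGrowth, not_frequently] at h1
    exact h1.mono fun n hn => not_le.1 hn

end Crest.Agent.R147.St
end

-- ▼ part R147/DustAn
section

/-!
Row 147 (helper326): analytic lemmas for the entropy proof of the dust inequality.

`phi t = t log t`, `J p a b = p φ(a) + (1-p) φ(b) - φ(p a + (1-p) b)` (Jensen gap of `φ`, i.e. the
local relative entropy).  `J` is homogeneous, nonnegative, subadditive and satisfies the
doubling bound `J p a (a + 2 t) ≤ 4 J p a (a + t)`.
-/

set_option autoImplicit false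

namespace Crest.Agent.R147.Dust

open Finset

noncomputable def phi (t : ℝ) : ℝ := t * Real.log t

noncomputable def J (p a b : ℝ) : ℝ := p * phi a + (1 - p) * phi b - phi (p * a + (1 - p) * b)

theorem phi_zero : phi 0 = 0 := by simp [phi]

/-- two-term log-sum inequality -/
theorem log_sum2 {a a' m m' : ℝ} (ha : 0 ≤ a) (ha' : 0 ≤ a') (hm : 0 ≤ m) (hm' : 0 ≤ m')
    (h : 0 < a → 0 < m) (h' : 0 < a' → 0 < m') :
    phi (a + a') - (a + a') * Real.log (m + m') ≤
      (phi a - a * Real.log m) + (phi a' - a' * Real.log m') := by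
  unfold phi
  rcases ha.eq_or_lt with rfl | ha0
  · rcases ha'.eq_or_lt with rfl | ha0'
    · simp
    · have hm0' := h' ha0'
      have : Real.log m' ≤ Real.log (m + m') := Real.log_le_log hm0' (by linarith)
      simp only [zero_add, zero_mul, sub_zero, sub_self]
      nlinarith
  · have hm0 := h ha0
    rcases ha'.eq_or_lt with rfl | ha0'
    · have : Real.log m ≤ Real.log (m + m') := Real.log_le_log hm0 (by linarith)
      simp only [add_zero, zero_mul, sub_zero]
      nlinarith
    · have hm0' := h' ha0'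
      have hM : 0 < m + m' := by linarith
      have hA : 0 < a + a' := by linarith
      -- log t ≤ t - 1
      have k1 : Real.log ((m * (a + a')) / (a * (m + m'))) ≤ (m * (a + a')) / (a * (m + m')) - 1 :=
        Real.log_le_sub_one_of_pos (by positivity)
      have k2 : Real.log ((m' * (a + a')) / (a' * (m + m'))) ≤
          (m' * (a + a')) / (a' * (m + m')) - 1 :=
        Real.log_le_sub_one_of_pos (by positivity)
      rw [Real.log_div (by positivity) (by positivity), Real.log_mul (by positivity) (by positivity),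
        Real.log_mul (by positivity) (by positivity)] at k1
      rw [Real.log_div (by positivity) (by positivity), Real.log_mul (by positivity) (by positivity),
        Real.log_mul (by positivity) (by positivity)] at k2
      have k1' := mul_le_mul_of_nonneg_left k1 ha
      have k2' := mul_le_mul_of_nonneg_left k2 ha'
      have e1 : a * ((m * (a + a')) / (a * (m + m')) - 1) + a' * ((m' * (a + a')) / (a' * (m + m')) - 1)
          = 0 := by
        field_simp
        ring
      nlinarith

/-- log-sum inequality over a finset -/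
theorem log_sum {ι : Type*} (s : Finset ι) (a m : ι → ℝ) (ha : ∀ i ∈ s, 0 ≤ a i)
    (hm : ∀ i ∈ s, 0 ≤ m i) (h : ∀ i ∈ s, 0 < a i → 0 < m i) :
    phi (∑ i ∈ s, a i) - (∑ i ∈ s, a i) * Real.log (∑ i ∈ s, m i) ≤
      ∑ i ∈ s, (phi (a i) - a i * Real.log (m i)) := by
  classical
  induction s using Finset.induction_on with
  | empty => simp [phi]
  | insert i s hi ih =>
    rw [Finset.sum_insert hi, Finset.sum_insert hi, Finset.sum_insert hi]
    have ih' := ih (fun j hj => ha j (Finset.mem_insert_of_mem hj))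
      (fun j hj => hm j (Finset.mem_insert_of_mem hj)) (fun j hj => h j (Finset.mem_insert_of_mem hj))
    have key := log_sum2 (ha i (Finset.mem_insert_self i s))
      (Finset.sum_nonneg (fun j hj => ha j (Finset.mem_insert_of_mem hj)))
      (hm i (Finset.mem_insert_self i s))
      (Finset.sum_nonneg (fun j hj => hm j (Finset.mem_insert_of_mem hj)))
      (h i (Finset.mem_insert_self i s))
      (by
        intro hpos
        obtain ⟨j, hj, hj0⟩ := Finset.exists_ne_zero_of_sum_ne_zero hpos.ne'
        have hjpos : 0 < a j := lt_of_le_of_ne (ha j (Finset.mem_insert_of_mem hj)) (Ne.symm hj0)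
        exact Finset.sum_pos' (fun k hk => hm k (Finset.mem_insert_of_mem hk))
          ⟨j, hj, h j (Finset.mem_insert_of_mem hj) hjpos⟩)
    linarith

theorem phi_mul {c t : ℝ} (hc : 0 ≤ c) (ht : 0 ≤ t) : phi (c * t) = c * t * Real.log c + c * phi t := by
  unfold phi
  rcases hc.eq_or_lt with rfl | hc
  · simp
  rcases ht.eq_or_lt with rfl | ht
  · simp
  rw [Real.log_mul hc.ne' ht.ne']; ring

theorem J_smul {p a b c : ℝ} (hp0 : 0 ≤ p) (hp1 : p ≤ 1) (hc : 0 ≤ c) (ha : 0 ≤ a) (hb : 0 ≤ b) :
    J p (c * a) (c * b) = c * J p a b := by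
  unfold J
  have h1 : 0 ≤ 1 - p := by linarith
  have : p * (c * a) + (1 - p) * (c * b) = c * (p * a + (1 - p) * b) := by ring
  rw [this, phi_mul hc ha, phi_mul hc hb, phi_mul hc (by positivity)]
  ring

theorem J_self (p a : ℝ) : J p a a = 0 := by
  unfold J
  have : p * a + (1 - p) * a = a := by ring
  rw [this]; ring

theorem J_nonneg {p a b : ℝ} (hp0 : 0 < p) (hp1 : p < 1) (ha : 0 ≤ a) (hb : 0 ≤ b) :
    0 ≤ J p a b := by
  have h1 : 0 < 1 - p := by linarith
  have key := log_sum2 (a := p * a) (a' := (1 - p) * b) (m := p) (m' := 1 - p)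
    (by positivity) (by positivity) hp0.le h1.le (fun _ => hp0) (fun _ => h1)
  have e : p + (1 - p) = 1 := by ring
  rw [e, Real.log_one, mul_zero, sub_zero, phi_mul hp0.le ha, phi_mul h1.le hb] at key
  unfold J
  linarith

theorem J_add {p a b a' b' : ℝ} (hp0 : 0 < p) (hp1 : p < 1) (ha : 0 ≤ a) (hb : 0 ≤ b)
    (ha' : 0 ≤ a') (hb' : 0 ≤ b') :
    J p (a + a') (b + b') ≤ J p a b + J p a' b' := by
  have h1 : 0 < 1 - p := by linarith
  set m := p * a + (1 - p) * b with hm
  set m' := p * a' + (1 - p) * b' with hm'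
  have hm0 : 0 ≤ m := by positivity
  have hm0' : 0 ≤ m' := by positivity
  have k1 := log_sum2 (a := a) (a' := a') (m := m) (m' := m') ha ha' hm0 hm0'
    (fun h => by rw [hm]; positivity) (fun h => by rw [hm']; positivity)
  have k2 := log_sum2 (a := b) (a' := b') (m := m) (m' := m') hb hb' hm0 hm0'
    (fun h => by rw [hm]; positivity) (fun h => by rw [hm']; positivity)
  have e : p * (a + a') + (1 - p) * (b + b') = m + m' := by rw [hm, hm']; ring
  unfold J
  rw [e, ← hm, ← hm']
  have k1' := mul_le_mul_of_nonneg_left k1 hp0.le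
  have k2' := mul_le_mul_of_nonneg_left k2 h1.le
  have f1 : phi (m + m') = p * ((a + a') * Real.log (m + m')) + (1 - p) * ((b + b') * Real.log (m + m')) := by
    unfold phi
    have : m + m' = p * (a + a') + (1 - p) * (b + b') := e.symm
    calc (m + m') * Real.log (m + m') = (p * (a + a') + (1 - p) * (b + b')) * Real.log (m + m') := by
          rw [← this]
      _ = _ := by ring
  have f2 : phi m = p * (a * Real.log m) + (1 - p) * (b * Real.log m) := by
    unfold phi
    calc m * Real.log m = (p * a + (1 - p) * b) * Real.log m := by rw [← hm]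
      _ = _ := by ring
  have f3 : phi m' = p * (a' * Real.log m') + (1 - p) * (b' * Real.log m') := by
    unfold phi
    calc m' * Real.log m' = (p * a' + (1 - p) * b') * Real.log m' := by rw [← hm']
      _ = _ := by ring
  rw [f1, f2, f3]
  nlinarith [k1', k2']

theorem J_sum {ι : Type*} (s : Finset ι) {p : ℝ} (hp0 : 0 < p) (hp1 : p < 1) (a b : ι → ℝ)
    (ha : ∀ i ∈ s, 0 ≤ a i) (hb : ∀ i ∈ s, 0 ≤ b i) :
    J p (∑ i ∈ s, a i) (∑ i ∈ s, b i) ≤ ∑ i ∈ s, J p (a i) (b i) := by
  classical
  induction s using Finset.induction_on with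
  | empty => simp [J_self]
  | insert i s hi ih =>
    rw [Finset.sum_insert hi, Finset.sum_insert hi, Finset.sum_insert hi]
    have ih' := ih (fun j hj => ha j (Finset.mem_insert_of_mem hj))
      (fun j hj => hb j (Finset.mem_insert_of_mem hj))
    have := J_add (a := a i) (b := b i) (a' := ∑ j ∈ s, a j) (b' := ∑ j ∈ s, b j) hp0 hp1
      (ha i (Finset.mem_insert_self i s)) (hb i (Finset.mem_insert_self i s))
      (Finset.sum_nonneg (fun j hj => ha j (Finset.mem_insert_of_mem hj)))
      (Finset.sum_nonneg (fun j hj => hb j (Finset.mem_insert_of_mem hj)))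
    linarith

theorem J_mono {p a b b' : ℝ} (hp0 : 0 < p) (hp1 : p < 1) (ha : 0 ≤ a) (hab : a ≤ b)
    (hbb' : b ≤ b') : J p a b ≤ J p a b' := by
  rcases hab.eq_or_lt with rfl | hab
  · rw [J_self]; exact J_nonneg hp0 hp1 ha (by linarith)
  have hb' : a < b' := by linarith
  -- b = l a + (1-l) b'
  set l := (b' - b) / (b' - a) with hl
  have hd : 0 < b' - a := by linarith
  have hl0 : 0 ≤ l := div_nonneg (by linarith) hd.le
  have hl1 : l ≤ 1 := by rw [hl, div_le_one hd]; linarith
  have hb : b = l * a + (1 - l) * b' := by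
    rw [hl]; field_simp; ring
  have ha2 : a = l * a + (1 - l) * a := by ring
  have key := J_add (a := l * a) (b := l * a) (a' := (1 - l) * a) (b' := (1 - l) * b') hp0 hp1
    (by positivity) (by positivity) (mul_nonneg (by linarith) ha)
    (mul_nonneg (by linarith) (by linarith))
  rw [← ha2, ← hb, J_self, zero_add, J_smul hp0.le hp1.le (by linarith) ha (by linarith)] at key
  have := J_nonneg (a := a) (b := b') hp0 hp1 ha (by linarith)
  nlinarith

theorem hasDerivAt_phi {t : ℝ} (ht : t ≠ 0) : HasDerivAt phi (Real.log t + 1) t := by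
  have h := (hasDerivAt_id t).mul (Real.hasDerivAt_log ht)
  have e : (1 * Real.log t + id t * t⁻¹) = Real.log t + 1 := by
    simp only [id]
    rw [mul_inv_cancel₀ ht, one_mul]
  rw [e] at h
  exact h

theorem J_double {p a t : ℝ} (hp0 : 0 < p) (hp1 : p < 1) (ha : 0 ≤ a) (ht : 0 ≤ t) :
    J p a (a + 2 * t) ≤ 4 * J p a (a + t) := by
  have hq : 0 < 1 - p := by linarith
  rcases ha.eq_or_lt with rfl | ha
  · have h1 : J p 0 (0 + 2 * t) = 2 * J p 0 (0 + t) := by
      have := J_smul (p := p) (a := 0) (b := t) (c := 2) hp0.le hp1.le (by norm_num) le_rfl ht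
      rw [mul_zero] at this
      rw [zero_add, zero_add]; exact this
    rw [h1]
    have := J_nonneg (p := p) (a := 0) (b := 0 + t) hp0 hp1 le_rfl (by linarith)
    linarith
  -- calculus
  set q := 1 - p with hqdef
  let g : ℝ → ℝ := fun s => 4 * J p a (a + s) - J p a (a + 2 * s)
  have hder : ∀ s : ℝ, 0 ≤ s → HasDerivAt g
      (4 * (q * (Real.log (a + s) + 1) - (Real.log (p * a + q * (a + s)) + 1) * q)
        - (q * ((Real.log (a + 2 * s) + 1) * 2) - (Real.log (p * a + q * (a + 2 * s)) + 1) * (q * 2))) s := by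
    intro s hs
    have d1 : HasDerivAt (fun s : ℝ => a + s) 1 s := by
      simpa using (hasDerivAt_id s).const_add a
    have d2 : HasDerivAt (fun s : ℝ => a + 2 * s) 2 s := by
      simpa using ((hasDerivAt_id s).const_mul 2).const_add a
    have d3 : HasDerivAt (fun s : ℝ => p * a + q * (a + s)) q s := by
      simpa using (d1.const_mul q).const_add (p * a)
    have d4 : HasDerivAt (fun s : ℝ => p * a + q * (a + 2 * s)) (q * 2) s := by
      simpa using (d2.const_mul q).const_add (p * a)
    have p1 : HasDerivAt (fun s : ℝ => phi (a + s)) ((Real.log (a + s) + 1) * 1) s :=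
      (hasDerivAt_phi (by positivity)).comp s d1
    have p2 : HasDerivAt (fun s : ℝ => phi (a + 2 * s)) ((Real.log (a + 2 * s) + 1) * 2) s :=
      (hasDerivAt_phi (by positivity)).comp s d2
    have p3 : HasDerivAt (fun s : ℝ => phi (p * a + q * (a + s)))
        ((Real.log (p * a + q * (a + s)) + 1) * q) s :=
      (hasDerivAt_phi (by positivity)).comp s d3
    have p4 : HasDerivAt (fun s : ℝ => phi (p * a + q * (a + 2 * s)))
        ((Real.log (p * a + q * (a + 2 * s)) + 1) * (q * 2)) s :=
      (hasDerivAt_phi (by positivity)).comp s d4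
    have j1 : HasDerivAt (fun s : ℝ => J p a (a + s))
        (q * ((Real.log (a + s) + 1) * 1) - (Real.log (p * a + q * (a + s)) + 1) * q) s := by
      have := ((p1.const_mul q).const_add (p * phi a)).sub p3
      exact this
    have j2 : HasDerivAt (fun s : ℝ => J p a (a + 2 * s))
        (q * ((Real.log (a + 2 * s) + 1) * 2) - (Real.log (p * a + q * (a + 2 * s)) + 1) * (q * 2)) s := by
      have := ((p2.const_mul q).const_add (p * phi a)).sub p4
      exact this
    have := (j1.const_mul 4).sub j2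
    rw [mul_one] at this
    exact this
  have hmono : MonotoneOn g (Set.Ici 0) := by
    apply monotoneOn_of_deriv_nonneg (convex_Ici 0)
    · intro s hs
      exact (hder s hs).continuousAt.continuousWithinAt
    · intro s hs
      rw [interior_Ici] at hs
      exact (hder s (le_of_lt hs)).differentiableAt.differentiableWithinAt
    · intro s hs
      rw [interior_Ici] at hs
      have hs0 : 0 < s := hs
      rw [(hder s hs0.le).deriv]
      have e1 : p * a + q * (a + s) = a + q * s := by rw [hqdef]; ring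
      have e2 : p * a + q * (a + 2 * s) = a + q * (2 * s) := by rw [hqdef]; ring
      rw [e1, e2]
      have key : Real.log ((a + 2 * s) * (a + q * s) ^ 2) ≤ Real.log ((a + s) ^ 2 * (a + q * (2 * s))) := by
        apply Real.log_le_log (by positivity)
        have hq1 : q ≤ 1 := by rw [hqdef]; linarith
        have : 0 ≤ a * s ^ 2 * (1 - q ^ 2) + 2 * q * s ^ 3 * (1 - q) := by
          have h1 : 0 ≤ 1 - q := by linarith
          have h2 : 0 ≤ 1 - q ^ 2 := by nlinarith
          positivity
        nlinarith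
      rw [Real.log_mul (by positivity) (by positivity), Real.log_mul (by positivity) (by positivity),
        Real.log_pow, Real.log_pow] at key
      push_cast at key
      have := mul_le_mul_of_nonneg_left key (mul_pos two_pos hq).le
      nlinarith
  have h0 : g 0 = 0 := by
    simp only [g]
    rw [mul_zero, add_zero, J_self]; ring
  have := hmono (Set.mem_Ici.2 le_rfl) (Set.mem_Ici.2 ht) ht
  rw [h0] at this
  simp only [g] at this
  linarith

/-- the local inequality of the dust theorem -/
theorem J_local {p a d u v : ℝ} (hp0 : 0 < p) (hp1 : p < 1) (ha : 0 ≤ a) (hd : a ≤ d)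
    (hu : a ≤ u) (hv : a ≤ v) (h : d + a ≤ u + v) :
    J p a d ≤ 2 * (J p a u + J p a v) := by
  -- d = a + 2 t
  have k1 := J_double (p := p) (a := a) (t := (d - a) / 2) hp0 hp1 ha (by linarith)
  have e1 : a + 2 * ((d - a) / 2) = d := by ring
  rw [e1] at k1
  have k2 : J p a (a + (d - a) / 2) ≤ J p a ((u + v) / 2) :=
    J_mono hp0 hp1 ha (by linarith) (by linarith)
  have k3 := J_add (a := a) (b := u) (a' := a) (b' := v) hp0 hp1 ha (by linarith) ha (by linarith)
  have e2 : J p (a + a) (u + v) = 2 * J p a ((u + v) / 2) := by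
    have := J_smul (p := p) (a := a) (b := (u + v) / 2) (c := 2) hp0.le hp1.le (by norm_num) ha
      (by linarith)
    rw [← this]
    congr 1 <;> ring
  rw [e2] at k3
  linarith

end Crest.Agent.R147.Dust
end

-- ▼ part R147/Dust
section

/-!
Row 147 (helper326): THE DUST THEOREM (finite graph, independent bonds).

`A = {C(x), C(y) macroscopic, x not connected to y}`, `Q = {no vertex of B is in a macroscopic
cluster}` (macroscopic = any increasing family of vertex sets).  Then `P(A ∩ Q)^4 ≤ P(Q) P(A)^4`.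

Proof: relative entropy along the exploration of the clusters of `B`.
-/

set_option autoImplicit false

namespace Crest.Agent.R147.Dust

open Finset Crest.Agent.R159.FV Crest.Agent.R147.Cl
open scoped Classical

universe u
variable {V : Type u}

/-! ### the events -/

/-- the two macroscopic distinct clusters -/
def EvA (mac : Set V → Prop) (x y : V) (ω : Finset (Sym2 V)) : Prop :=
  mac (cl ω {x}) ∧ mac (cl ω {y}) ∧ ¬ conn ω x y

/-- no macroscopic cluster meets `B` -/
def EvQ (mac : Set V → Prop) (B : Set V) (ω : Finset (Sym2 V)) : Prop :=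
  ∀ b ∈ B, ¬ mac (cl ω {b})

def EvAQ (mac : Set V → Prop) (x y : V) (B : Set V) (ω : Finset (Sym2 V)) : Prop :=
  EvA mac x y ω ∧ EvQ mac B ω

theorem mem_cl_single {ω : Finset (Sym2 V)} {x v : V} : v ∈ cl ω {x} ↔ conn ω x v := by
  constructor
  · rintro ⟨r, hr, h⟩
    rw [Set.mem_singleton_iff] at hr
    rwa [hr] at h
  · intro h; exact ⟨x, rfl, h⟩

theorem cl_mono {ω ω' : Finset (Sym2 V)} (h : ω ⊆ ω') (R : Set V) : cl ω R ⊆ cl ω' R := by
  rintro v ⟨r, hr, hv⟩
  exact ⟨r, hr, hv.mono h⟩

theorem EvA_symm {mac : Set V → Prop} {x y : V} {ω : Finset (Sym2 V)} :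
    EvA mac x y ω ↔ EvA mac y x ω := by
  unfold EvA
  constructor
  · rintro ⟨h1, h2, h3⟩; exact ⟨h2, h1, fun h => h3 h.symm⟩
  · rintro ⟨h1, h2, h3⟩; exact ⟨h2, h1, fun h => h3 h.symm⟩

/-- `e` touches `S` -/
def tch (e : Sym2 V) (S : Set V) : Prop := ∃ a ∈ e, a ∈ S

/-- adding an edge which does not touch the cluster of `x` does not change it -/
theorem cl_insert_of_not_tch {ω : Finset (Sym2 V)} {x : V} {e : Sym2 V}
    (h : ¬ tch e (cl ω {x})) : cl (insert e ω) {x} = cl ω {x} := by
  apply Set.Subset.antisymm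
  · intro v hv
    rw [mem_cl_single] at hv ⊢
    unfold conn at hv
    induction hv with
    | refl => exact conn_refl ω x
    | @tail b c _ hbc ih =>
      rcases Finset.mem_insert.1 hbc with h1 | h1
      · exact absurd ⟨b, by rw [← h1]; exact Sym2.mem_mk_left b c, mem_cl_single.2 ih⟩ h
      · exact ih.trans (conn_of_mem h1)
  · exact cl_mono (Finset.subset_insert e ω) _

theorem cl_insert_of_not_tch' {ω : Finset (Sym2 V)} {x : V} {e : Sym2 V}
    (h : ¬ tch e (cl (insert e ω) {x})) : cl (insert e ω) {x} = cl ω {x} := by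
  apply cl_insert_of_not_tch
  rintro ⟨a, ha, ha'⟩
  exact h ⟨a, ha, cl_mono (Finset.subset_insert e ω) _ ha'⟩

theorem cl_insert_eq_iff {ω : Finset (Sym2 V)} {x : V} {e : Sym2 V} {S : Set V}
    (h : ¬ tch e S) : cl (insert e ω) {x} = S ↔ cl ω {x} = S := by
  constructor
  · intro hS
    rw [← cl_insert_of_not_tch' (by rw [hS]; exact h), hS]
  · intro hS
    rw [cl_insert_of_not_tch (by rw [hS]; exact h), hS]

section Geometry

variable {mac : Set V → Prop} (hmac : ∀ S T : Set V, S ⊆ T → mac S → mac T)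
include hmac

/-- under `Q`, vertices of macroscopic clusters are not reached from `B` -/
theorem not_mem_clB {B : Set V} {ω : Finset (Sym2 V)} (hQ : EvQ mac B ω) {x v : V}
    (hx : mac (cl ω {x})) (hv : v ∈ cl ω {x}) : v ∉ cl ω B := by
  rintro ⟨b, hb, hbv⟩
  apply hQ b hb
  apply hmac _ _ _ hx
  intro z hz
  rw [mem_cl_single] at hz hv ⊢
  exact hbv.trans (hv.symm.trans hz)

/-- closing an edge at the explored set -/
theorem close {B : Set V} {ω : Finset (Sym2 V)} {x y : V} {e : Sym2 V}
    (he : tch e (cl ω B)) (h : EvAQ mac x y B (insert e ω)) :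
    EvAQ mac x y B ω ∧ ¬ tch e (cl ω {x}) ∧ ¬ tch e (cl ω {y}) := by
  obtain ⟨⟨h1, h2, h3⟩, hQ⟩ := h
  obtain ⟨u, hue, hu⟩ := he
  have hsub : ω ⊆ insert e ω := Finset.subset_insert e ω
  -- all endpoints of `e` are reached from `B` in `insert e ω`
  have hend : ∀ a ∈ e, a ∈ cl (insert e ω) B := by
    intro a ha
    have hu' : u ∈ cl (insert e ω) B := cl_mono hsub _ hu
    by_cases hau : a = u
    · rw [hau]; exact hu'
    · have : e = s(u, a) := (Sym2.mem_and_mem_iff (fun h => hau h.symm)).1 ⟨hue, ha⟩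
      exact mem_cl_of_conn hu' (conn_of_mem (by rw [← this]; exact Finset.mem_insert_self _ _))
  have hx : ¬ tch e (cl (insert e ω) {x}) := by
    rintro ⟨a, ha, ha'⟩
    exact not_mem_clB hmac hQ h1 ha' (hend a ha)
  have hy : ¬ tch e (cl (insert e ω) {y}) := by
    rintro ⟨a, ha, ha'⟩
    exact not_mem_clB hmac hQ h2 ha' (hend a ha)
  have ex := cl_insert_of_not_tch' hx
  have ey := cl_insert_of_not_tch' hy
  refine ⟨⟨⟨by rw [← ex]; exact h1, by rw [← ey]; exact h2, fun h => h3 (h.mono hsub)⟩, ?_⟩,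
    by rw [← ex]; exact hx, by rw [← ey]; exact hy⟩
  intro b hb hm
  exact hQ b hb (hmac _ _ (cl_mono hsub _) hm)

/-- an edge at the explored set cannot touch both `C(x)` and `C(y)` -/
theorem not_both {B : Set V} {ω : Finset (Sym2 V)} {x y : V} {e : Sym2 V}
    (he : tch e (cl ω B)) (h : EvAQ mac x y B ω) (hx : tch e (cl ω {x})) (hy : tch e (cl ω {y})) :
    False := by
  obtain ⟨⟨h1, h2, h3⟩, hQ⟩ := h
  obtain ⟨u, hue, hu⟩ := he
  obtain ⟨a, hae, ha⟩ := hx
  obtain ⟨b, hbe, hb⟩ := hy
  have hua : u ≠ a := fun h => not_mem_clB hmac hQ h1 ha (h ▸ hu)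
  have hub : u ≠ b := fun h => not_mem_clB hmac hQ h2 hb (h ▸ hu)
  have e1 : e = s(u, a) := (Sym2.mem_and_mem_iff hua).1 ⟨hue, hae⟩
  have e2 : e = s(u, b) := (Sym2.mem_and_mem_iff hub).1 ⟨hue, hbe⟩
  have hab : a = b := by
    rw [e1] at e2
    rcases Sym2.eq_iff.1 e2 with ⟨_, h⟩ | ⟨h, h'⟩
    · exact h
    · exact absurd h hub
  rw [mem_cl_single] at ha hb
  rw [← hab] at hb
  exact h3 (ha.trans hb.symm)

end Geometry

/-! ### the functions of the state -/

/-- probability of `P` given the explored open edges `O` (unexplored edges `E`) -/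
noncomputable def pf (w : Sym2 V → ℝ) (E O : Finset (Sym2 V)) (P : Finset (Sym2 V) → Prop) : ℝ :=
  Ex E w (fun T => ind (P (O ∪ T)))

theorem pf_insert (w : Sym2 V → ℝ) {E O : Finset (Sym2 V)} {e : Sym2 V} (he : e ∉ E)
    (P : Finset (Sym2 V) → Prop) :
    pf w (insert e E) O P = w e * pf w E (insert e O) P + (1 - w e) * pf w E O P := by
  unfold pf
  rw [Ex_insert he]
  congr 2
  apply Ex_congr
  intro T _
  rw [Finset.union_insert, Finset.insert_union]

section W

variable {w : Sym2 V → ℝ} {E O : Finset (Sym2 V)} (h0 : ∀ e ∈ E, 0 < w e) (h1 : ∀ e ∈ E, w e < 1)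
include h0 h1

theorem pf_nonneg (P : Finset (Sym2 V) → Prop) : 0 ≤ pf w E O P :=
  Ex_nonneg (fun e he => (h0 e he).le) (fun e he => (h1 e he).le) (fun _ _ => ind_nonneg _)

theorem pf_mono {P P' : Finset (Sym2 V) → Prop} (h : ∀ T, T ⊆ E → P (O ∪ T) → P' (O ∪ T)) :
    pf w E O P ≤ pf w E O P' :=
  Ex_mono (fun e he => (h0 e he).le) (fun e he => (h1 e he).le) (fun T hT => ind_mono (h T hT))


omit h0 h1 in
theorem exists_of_pf_pos {P : Finset (Sym2 V) → Prop} (h : 0 < pf w E O P) :
    ∃ T, T ⊆ E ∧ P (O ∪ T) := by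
  by_contra hcon
  push Not at hcon
  have : pf w E O P = 0 := by
    unfold pf
    rw [Ex_congr w (g := fun _ => 0) (fun T hT => ind_false (hcon T hT)), Ex_const]
  linarith


end W

/-- `cS = P(C(x) = S | state)` -/
noncomputable def cS (w : Sym2 V → ℝ) (x : V) (S : Set V) (E O : Finset (Sym2 V)) : ℝ :=
  pf w E O (fun ω => cl ω {x} = S)

/-- `mS = P(A, Q, C(x) = S | state)` -/
noncomputable def mS (w : Sym2 V → ℝ) (mac : Set V → Prop) (x y : V) (B : Set V) (S : Set V)
    (E O : Finset (Sym2 V)) : ℝ :=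
  pf w E O (fun ω => EvAQ mac x y B ω ∧ cl ω {x} = S)

/-- edges off `S` -/
noncomputable def off (E : Finset (Sym2 V)) (S : Set V) : Finset (Sym2 V) :=
  E.filter (fun e => ¬ tch e S)

/-- `bS = P(C(y) macroscopic off S)` -/
noncomputable def bS (w : Sym2 V → ℝ) (mac : Set V → Prop) (y : V) (S : Set V)
    (E₀ : Finset (Sym2 V)) : ℝ :=
  Ex (off E₀ S) w (fun T => ind (mac (cl T {y})))

noncomputable def term (w : Sym2 V → ℝ) (mac : Set V → Prop) (x y : V) (B : Set V)
    (E₀ : Finset (Sym2 V)) (S : Set V) (E O : Finset (Sym2 V)) : ℝ :=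
  mS w mac x y B S E O * Real.log (cS w x S E O * bS w mac y S E₀) - phi (mS w mac x y B S E O)

/-- the possible values of `C(x)` -/
noncomputable def idx (x : V) (E₀ : Finset (Sym2 V)) : Finset (Set V) :=
  E₀.powerset.image (fun T => cl T {x})

noncomputable def Psi (w : Sym2 V → ℝ) (mac : Set V → Prop) (x y : V) (B : Set V)
    (E₀ : Finset (Sym2 V)) (E O : Finset (Sym2 V)) : ℝ :=
  ∑ S ∈ idx x E₀, term w mac x y B E₀ S E O

/-! ### the leaf inequality `mS ≤ cS * bS` -/

theorem dependsOn_cl {O E : Finset (Sym2 V)} {x : V} {S : Set V} :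
    DependsOn (E.filter (fun e => tch e S)) (fun T => ind (cl (O ∪ (T ∩ E)) {x} = S)) := by
  intro T T' hTT'
  have key : ∀ T T' : Finset (Sym2 V),
      T ∩ E.filter (fun e => tch e S) = T' ∩ E.filter (fun e => tch e S) →
      cl (O ∪ (T ∩ E)) {x} = S → cl (O ∪ (T' ∩ E)) {x} = S := by
    intro T T' h hS
    have hedge : ∀ e : Sym2 V, tch e S → (e ∈ O ∪ (T ∩ E) ↔ e ∈ O ∪ (T' ∩ E)) := by
      intro e he
      rw [Finset.mem_union, Finset.mem_union, Finset.mem_inter, Finset.mem_inter]
      have h' := Finset.ext_iff.1 h e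
      rw [Finset.mem_inter, Finset.mem_inter, Finset.mem_filter] at h'
      tauto
    apply Set.Subset.antisymm
    · intro v hv
      rw [mem_cl_single] at hv
      unfold conn at hv
      induction hv with
      | refl => rw [← hS, mem_cl_single]; exact conn_refl _ x
      | @tail b c _ hbc ih =>
        have hb : s(b, c) ∈ O ∪ (T ∩ E) := (hedge _ ⟨b, Sym2.mem_mk_left b c, ih⟩).2 hbc
        rw [← hS, mem_cl_single] at ih ⊢
        exact ih.trans (conn_of_mem hb)
    · intro v hv
      rw [← hS, mem_cl_single] at hv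
      rw [mem_cl_single]
      unfold conn at hv
      induction hv with
      | refl => exact conn_refl _ x
      | @tail b c hxb hbc ih =>
        have hbS : b ∈ S := by rw [← hS, mem_cl_single]; exact hxb
        exact ih.trans (conn_of_mem ((hedge _ ⟨b, Sym2.mem_mk_left b c, hbS⟩).1 hbc))
  by_cases h : cl (O ∪ (T ∩ E)) {x} = S
  · simp only
    rw [ind_true h, ind_true (key T T' hTT' h)]
  · simp only
    rw [ind_false h, ind_false (fun h' => h (key T' T hTT'.symm h'))]

theorem mS_le {w : Sym2 V → ℝ} {mac : Set V → Prop} (hmac : ∀ S T : Set V, S ⊆ T → mac S → mac T)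
    {x y : V} {B : Set V} {E₀ E O : Finset (Sym2 V)} {S : Set V} (hE : E ⊆ E₀)
    (h0 : ∀ e ∈ E₀, 0 < w e) (h1 : ∀ e ∈ E₀, w e < 1)
    (hO : ∀ e ∈ O, ∀ a ∈ e, a ∈ cl O B) :
    mS w mac x y B S E O ≤ cS w x S E O * bS w mac y S E₀ := by
  have h0' : ∀ e ∈ E, 0 ≤ w e := fun e he => (h0 e (hE he)).le
  have h1' : ∀ e ∈ E, w e ≤ 1 := fun e he => (h1 e (hE he)).le
  set f : Finset (Sym2 V) → ℝ := fun T => ind (cl (O ∪ (T ∩ E)) {x} = S) with hf
  set g : Finset (Sym2 V) → ℝ := fun T => ind (mac (cl (T ∩ off E S) {y})) with hg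
  have hgdep : DependsOn (off E S) g := by
    intro T T' h
    simp only [hg]
    rw [h]
  have step1 : mS w mac x y B S E O ≤ Ex E w (fun T => f T * g T) := by
    unfold mS pf
    apply Ex_mono h0' h1'
    intro T hT
    have hTE : T ∩ E = T := Finset.inter_eq_left.2 hT
    by_cases h : EvAQ mac x y B (O ∪ T) ∧ cl (O ∪ T) {x} = S
    · rw [ind_true h]
      obtain ⟨⟨⟨ha1, ha2, ha3⟩, hQ⟩, hS⟩ := h
      have hfT : f T = 1 := by
        simp only [hf]; rw [hTE]; exact ind_true hS
      have hgT : g T = 1 := by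
        simp only [hg]
        apply ind_true
        apply hmac _ _ _ ha2
        intro v hv
        rw [mem_cl_single] at hv ⊢
        unfold conn at hv
        induction hv with
        | refl => exact conn_refl _ y
        | @tail b c hyb hbc ih =>
          apply ih.trans
          apply conn_of_mem
          have hbY : b ∈ cl (O ∪ T) {y} := mem_cl_single.2 hyb
          have hyc : conn (O ∪ T) y c := Relation.ReflTransGen.tail hyb hbc
          have hbO : s(b, c) ∉ O := by
            intro hbO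
            have : b ∈ cl O B := hO _ hbO b (Sym2.mem_mk_left b c)
            exact not_mem_clB hmac hQ ha2 hbY (cl_mono Finset.subset_union_left _ this)
          have hbT : s(b, c) ∈ T := by
            rcases Finset.mem_union.1 hbc with h | h
            · exact absurd h hbO
            · exact h
          rw [Finset.mem_inter]
          refine ⟨hbT, ?_⟩
          unfold off
          rw [Finset.mem_filter]
          refine ⟨hT hbT, ?_⟩
          rintro ⟨a, ha, haS⟩
          rw [← hS, mem_cl_single] at haS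
          rcases Sym2.mem_iff.1 ha with rfl | rfl
          · exact ha3 (haS.trans (mem_cl_single.1 hbY).symm)
          · exact ha3 (haS.trans hyc.symm)
      rw [hfT, hgT, mul_one]
    · rw [ind_false h]
      exact mul_nonneg (ind_nonneg _) (ind_nonneg _)
  have step2 : Ex E w (fun T => f T * g T) = Ex E w f * Ex E w g :=
    Ex_mul_of_disjoint (D₁ := E.filter (fun e => tch e S)) (D₂ := off E S)
      (Finset.filter_subset _ _) (Finset.filter_subset _ _)
      (Finset.disjoint_filter_filter_not _ _ _) w dependsOn_cl hgdep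
  have e1 : Ex E w f = cS w x S E O := by
    unfold cS pf
    apply Ex_congr
    intro T hT
    simp only [hf]
    rw [Finset.inter_eq_left.2 hT]
  have e2 : Ex E w g = Ex (off E S) w (fun T => ind (mac (cl T {y}))) := by
    rw [Ex_marginal (Finset.filter_subset _ _) w hgdep]
    apply Ex_congr
    intro T hT
    simp only [hg]
    rw [Finset.inter_eq_left.2 (show T ⊆ off E S from hT)]
  have hsub : off E S ⊆ off E₀ S := Finset.filter_subset_filter _ hE
  have e3 : Ex (off E S) w (fun T => ind (mac (cl T {y}))) ≤ bS w mac y S E₀ := by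
    unfold bS
    apply Ex_mono_volume hsub
      (fun e he => (h0 e (Finset.mem_of_mem_filter e he)).le)
      (fun e he => (h1 e (Finset.mem_of_mem_filter e he)).le)
    intro T T' hTT'
    exact ind_mono (hmac _ _ (cl_mono hTT' _))
  rw [step2, e1, e2] at step1
  have hc : 0 ≤ cS w x S E O :=
    pf_nonneg (fun e he => h0 e (hE he)) (fun e he => h1 e (hE he)) _
  exact step1.trans (mul_le_mul_of_nonneg_left e3 hc)


/-! ### sums over the value of the cluster -/

theorem pf_congr {w : Sym2 V → ℝ} {E O : Finset (Sym2 V)} {P P' : Finset (Sym2 V) → Prop}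
    (h : ∀ T, T ⊆ E → (P (O ∪ T) ↔ P' (O ∪ T))) : pf w E O P = pf w E O P' := by
  unfold pf
  apply Ex_congr
  intro T hT
  exact ind_congr (h T hT)

theorem cl_mem_idx {x : V} {E₀ E O T : Finset (Sym2 V)} (hE : E ⊆ E₀) (hO : O ⊆ E₀) (hT : T ⊆ E) :
    cl (O ∪ T) {x} ∈ idx x E₀ := by
  unfold idx
  rw [Finset.mem_image]
  exact ⟨O ∪ T, Finset.mem_powerset.2 (Finset.union_subset hO (hT.trans hE)), rfl⟩

/-- sum over the values of the cluster in a subset `s` of the possible values -/
theorem sum_pf {w : Sym2 V → ℝ} {x : V} {E₀ E O : Finset (Sym2 V)} (hE : E ⊆ E₀) (hO : O ⊆ E₀)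
    (P : Finset (Sym2 V) → Prop) (D : Set V → Prop) [DecidablePred D] :
    ∑ S ∈ (idx x E₀).filter D, pf w E O (fun ω => P ω ∧ cl ω {x} = S)
      = pf w E O (fun ω => P ω ∧ D (cl ω {x})) := by
  unfold pf
  rw [← Ex_sum]
  apply Ex_congr
  intro T hT
  by_cases h : P (O ∪ T) ∧ D (cl (O ∪ T) {x})
  · rw [ind_true h]
    rw [Finset.sum_eq_single (cl (O ∪ T) {x})]
    · exact ind_true ⟨h.1, rfl⟩
    · intro S _ hS
      exact ind_false (fun h' => hS h'.2.symm)
    · intro hn
      exact absurd (Finset.mem_filter.2 ⟨cl_mem_idx hE hO hT, h.2⟩) hn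
  · rw [ind_false h]
    apply Finset.sum_eq_zero
    intro S hS
    apply ind_false
    rintro ⟨h1, h2⟩
    apply h
    rw [Finset.mem_filter] at hS
    exact ⟨h1, by rw [h2]; exact hS.2⟩

theorem sum_mS {w : Sym2 V → ℝ} {mac : Set V → Prop} {x y : V} {B : Set V}
    {E₀ E O : Finset (Sym2 V)} (hE : E ⊆ E₀) (hO : O ⊆ E₀) (D : Set V → Prop) [DecidablePred D] :
    ∑ S ∈ (idx x E₀).filter D, mS w mac x y B S E O
      = pf w E O (fun ω => EvAQ mac x y B ω ∧ D (cl ω {x})) := by
  unfold mS
  exact sum_pf hE hO _ D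

/-! ### the step -/

/-- entropy step of the left hand side -/
theorem neg_log_step {p a b q r : ℝ} (hp0 : 0 < p) (hp1 : p < 1) (ha : 0 ≤ a) (hb : 0 ≤ b)
    (haq : a ≤ q) (hbr : b ≤ r) :
    -(p * a + (1 - p) * b) * Real.log (p * q + (1 - p) * r) ≤
      p * (-a * Real.log q) + (1 - p) * (-b * Real.log r) + J p a b := by
  have hp1' : 0 < 1 - p := by linarith
  have hq : 0 ≤ q := ha.trans haq
  have hr : 0 ≤ r := hb.trans hbr
  have key := log_sum2 (a := p * a) (a' := (1 - p) * b) (m := p * q) (m' := (1 - p) * r)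
    (by positivity) (by positivity) (by positivity) (by positivity)
    (fun h => by
      have : 0 < a := (pos_iff_pos_of_mul_pos h).1 hp0
      exact mul_pos hp0 (lt_of_lt_of_le this haq))
    (fun h => by
      have : 0 < b := (pos_iff_pos_of_mul_pos h).1 hp1'
      exact mul_pos hp1' (lt_of_lt_of_le this hbr))
  have e1 : ∀ c t s : ℝ, 0 < c → 0 ≤ t → t ≤ s →
      phi (c * t) - c * t * Real.log (c * s) = c * phi t - c * (t * Real.log s) := by
    intro c t s hc ht hts
    rcases ht.eq_or_lt with rfl | ht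
    · simp [phi]
    · have hs : 0 < s := lt_of_lt_of_le ht hts
      rw [phi_mul hc.le ht.le, Real.log_mul hc.ne' hs.ne']
      ring
  rw [e1 p a q hp0 ha haq, e1 (1 - p) b r hp1' hb hbr] at key
  unfold J
  linarith


section Step

variable {w : Sym2 V → ℝ} {mac : Set V → Prop}
  (hmac : ∀ S T : Set V, S ⊆ T → mac S → mac T)
  {x y : V} {B : Set V} {E₀ E O : Finset (Sym2 V)} {e : Sym2 V}
  (hE : insert e E ⊆ E₀) (heE : e ∉ E) (hO : ∀ f ∈ O, ∀ a ∈ f, a ∈ cl O B)
  (h0 : ∀ e ∈ E₀, 0 < w e) (h1 : ∀ e ∈ E₀, w e < 1) (he : tch e (cl O B))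

omit hmac in
/-- a set not touched by `e` -/
theorem cS_insert_of_not_tch {S : Set V} (hS : ¬ tch e S) :
    cS w x S E (insert e O) = cS w x S E O := by
  unfold cS pf
  apply Ex_congr
  intro T _
  rw [Finset.insert_union]
  exact ind_congr (cl_insert_eq_iff hS)

include heE in
theorem term_untouched {S : Set V} (hS : ¬ tch e S) :
    term w mac x y B E₀ S (insert e E) O
      = w e * term w mac x y B E₀ S E (insert e O) + (1 - w e) * term w mac x y B E₀ S E O
        + J (w e) (mS w mac x y B S E (insert e O)) (mS w mac x y B S E O) := by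
  have hc : cS w x S (insert e E) O = cS w x S E O := by
    have h : cS w x S (insert e E) O = w e * cS w x S E (insert e O) + (1 - w e) * cS w x S E O :=
      pf_insert w heE _
    rw [h, cS_insert_of_not_tch hS]; ring
  have hm : mS w mac x y B S (insert e E) O
      = w e * mS w mac x y B S E (insert e O) + (1 - w e) * mS w mac x y B S E O :=
    pf_insert w heE _
  unfold term
  rw [hc, hm, cS_insert_of_not_tch hS]
  unfold J
  ring

include hmac hE heE hO h0 h1 he in
theorem term_touched {S : Set V} (hS : tch e S) :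
    term w mac x y B E₀ S (insert e E) O
      = w e * term w mac x y B E₀ S E (insert e O) + (1 - w e) * term w mac x y B E₀ S E O := by
  have hEE : E ⊆ E₀ := (Finset.subset_insert e E).trans hE
  have h0' : ∀ e ∈ E, 0 < w e := fun e he => h0 e (hEE he)
  have h1' : ∀ e ∈ E, w e < 1 := fun e he => h1 e (hEE he)
  have hwe : w e < 1 := h1 e (hE (Finset.mem_insert_self e E))
  have htch : ∀ T : Finset (Sym2 V), tch e (cl (O ∪ T) B) := by
    intro T
    obtain ⟨u, hu, hu'⟩ := he
    exact ⟨u, hu, cl_mono Finset.subset_union_left _ hu'⟩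
  -- mS after opening is zero
  have hmo : mS w mac x y B S E (insert e O) = 0 := by
    by_contra hne
    have hpos : 0 < mS w mac x y B S E (insert e O) :=
      lt_of_le_of_ne (pf_nonneg h0' h1' _) (Ne.symm hne)
    obtain ⟨T, hT, hA, hST⟩ := exists_of_pf_pos hpos
    rw [Finset.insert_union] at hA hST
    obtain ⟨_, hx, _⟩ := close hmac (htch T) hA
    have : cl (insert e (O ∪ T)) {x} = cl (O ∪ T) {x} := cl_insert_of_not_tch hx
    rw [← this, hST] at hx
    exact hx hS
  have hm : mS w mac x y B S (insert e E) O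
      = w e * mS w mac x y B S E (insert e O) + (1 - w e) * mS w mac x y B S E O :=
    pf_insert w heE _
  have hto : term w mac x y B E₀ S E (insert e O) = 0 := by
    unfold term
    rw [hmo, phi_zero]; ring
  rw [hto, mul_zero, zero_add]
  rw [hmo, mul_zero, zero_add] at hm
  rcases (pf_nonneg h0' h1' (O := O) (fun ω => EvAQ mac x y B ω ∧ cl ω {x} = S)).eq_or_lt with hz | hpos
  · have hz' : mS w mac x y B S E O = 0 := hz.symm
    unfold term
    rw [hm, hz', mul_zero, phi_zero]; ring
  · have hpos' : 0 < mS w mac x y B S E O := hpos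
    -- the other endpoint is off S
    obtain ⟨T, hT, hA, hST⟩ := exists_of_pf_pos hpos
    obtain ⟨u, hue, hu⟩ := he
    have huS : u ∉ S := by
      intro huS
      have := not_mem_clB hmac hA.2 hA.1.1 (v := u) (by rw [hST]; exact huS)
      exact this (cl_mono Finset.subset_union_left _ hu)
    obtain ⟨a, hae, haS⟩ := hS
    have hua : u ≠ a := fun h => huS (h ▸ haS)
    have hco : cS w x S E (insert e O) = 0 := by
      unfold cS pf
      rw [Ex_congr w (g := fun _ => 0) ?_, Ex_const]
      intro T' _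
      apply ind_false
      intro hS'
      apply huS
      have ha' : conn (insert e O ∪ T') x a := by rw [← mem_cl_single, hS']; exact haS
      rw [← hS', mem_cl_single]
      apply ha'.trans
      apply conn_of_mem
      have : e = s(a, u) := (Sym2.mem_and_mem_iff (Ne.symm hua)).1 ⟨hae, hue⟩
      rw [← this]
      exact Finset.mem_union_left _ (Finset.mem_insert_self e O)
    have hc : cS w x S (insert e E) O = (1 - w e) * cS w x S E O := by
      have h : cS w x S (insert e E) O = w e * cS w x S E (insert e O) + (1 - w e) * cS w x S E O :=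
        pf_insert w heE _
      rw [h, hco, mul_zero, zero_add]
    have hle := mS_le (w := w) hmac (x := x) (y := y) (B := B) (S := S) hEE h0 h1 hO
    have hcb : 0 < cS w x S E O * bS w mac y S E₀ := lt_of_lt_of_le hpos' hle
    unfold term
    rw [hm, hc, phi_mul (by linarith) hpos'.le, mul_assoc (1 - w e) (cS w x S E O),
      Real.log_mul (by linarith) hcb.ne']
    ring

include hmac hE heE hO h0 h1 he in
/-- the step for `Psi` -/
theorem Psi_step (hOE : O ⊆ E₀) :
    w e * Psi w mac x y B E₀ E (insert e O) + (1 - w e) * Psi w mac x y B E₀ E O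
      + J (w e) (pf w E (insert e O) (EvAQ mac x y B))
          (pf w E O (fun ω => EvAQ mac x y B ω ∧ ¬ tch e (cl ω {x})))
      ≤ Psi w mac x y B E₀ (insert e E) O := by
  have hEE : E ⊆ E₀ := (Finset.subset_insert e E).trans hE
  have h0' : ∀ e ∈ E, 0 < w e := fun e he => h0 e (hEE he)
  have h1' : ∀ e ∈ E, w e < 1 := fun e he => h1 e (hEE he)
  have he0 : e ∈ E₀ := hE (Finset.mem_insert_self e E)
  have hwe0 : 0 < w e := h0 e he0
  have hwe : w e < 1 := h1 e he0
  have htch : ∀ T : Finset (Sym2 V), tch e (cl (O ∪ T) B) := by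
    intro T
    obtain ⟨u, hu, hu'⟩ := he
    exact ⟨u, hu, cl_mono Finset.subset_union_left _ hu'⟩
  have hOE' : insert e O ⊆ E₀ := Finset.insert_subset he0 hOE
  have key : ∀ S ∈ idx x E₀, term w mac x y B E₀ S (insert e E) O
      = w e * term w mac x y B E₀ S E (insert e O) + (1 - w e) * term w mac x y B E₀ S E O
        + (if ¬ tch e S then J (w e) (mS w mac x y B S E (insert e O)) (mS w mac x y B S E O)
            else 0) := by
    intro S _
    by_cases hS : tch e S
    · rw [if_neg (not_not.2 hS), add_zero]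
      exact term_touched hmac hE heE hO h0 h1 he hS
    · rw [if_pos hS]
      exact term_untouched heE hS
  have hsum : Psi w mac x y B E₀ (insert e E) O
      = w e * Psi w mac x y B E₀ E (insert e O) + (1 - w e) * Psi w mac x y B E₀ E O
        + ∑ S ∈ (idx x E₀).filter (fun S => ¬ tch e S),
            J (w e) (mS w mac x y B S E (insert e O)) (mS w mac x y B S E O) := by
    unfold Psi
    rw [Finset.sum_congr rfl key, Finset.sum_add_distrib, Finset.sum_add_distrib,
      ← Finset.mul_sum, ← Finset.mul_sum, ← Finset.sum_filter]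
  rw [hsum]
  have hJ := J_sum ((idx x E₀).filter (fun S => ¬ tch e S)) hwe0 hwe
    (fun S => mS w mac x y B S E (insert e O)) (fun S => mS w mac x y B S E O)
    (fun S _ => pf_nonneg h0' h1' _) (fun S _ => pf_nonneg h0' h1' _)
  rw [sum_mS hEE hOE' (fun S => ¬ tch e S), sum_mS hEE hOE (fun S => ¬ tch e S)] at hJ
  have hmo : pf w E (insert e O) (fun ω => EvAQ mac x y B ω ∧ ¬ tch e (cl ω {x}))
      = pf w E (insert e O) (EvAQ mac x y B) := by
    apply pf_congr
    intro T _
    constructor
    · exact fun h => h.1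
    · intro h
      refine ⟨h, ?_⟩
      rw [Finset.insert_union] at h ⊢
      obtain ⟨_, hx, _⟩ := close hmac (htch T) h
      rw [cl_insert_of_not_tch hx]
      exact hx
  rw [hmo] at hJ
  linarith

end Step


/-! ### the induction -/

theorem term_nonneg {w : Sym2 V → ℝ} {mac : Set V → Prop}
    (hmac : ∀ S T : Set V, S ⊆ T → mac S → mac T)
    {x y : V} {B : Set V} {E₀ E O : Finset (Sym2 V)} {S : Set V} (hE : E ⊆ E₀)
    (h0 : ∀ e ∈ E₀, 0 < w e) (h1 : ∀ e ∈ E₀, w e < 1)
    (hO : ∀ e ∈ O, ∀ a ∈ e, a ∈ cl O B) :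
    0 ≤ term w mac x y B E₀ S E O := by
  have hle := mS_le (w := w) hmac (x := x) (y := y) (B := B) (S := S) hE h0 h1 hO
  have hm : 0 ≤ mS w mac x y B S E O :=
    pf_nonneg (fun e he => h0 e (hE he)) (fun e he => h1 e (hE he)) _
  unfold term
  rcases hm.eq_or_lt with hz | hpos
  · rw [← hz, phi_zero]; simp
  · have := Real.log_le_log hpos hle
    unfold phi
    have := mul_le_mul_of_nonneg_left this hm
    linarith

theorem pf_EvAQ_le {w : Sym2 V → ℝ} {mac : Set V → Prop} {x y : V} {B : Set V}
    {E O : Finset (Sym2 V)} (h0 : ∀ e ∈ E, 0 < w e) (h1 : ∀ e ∈ E, w e < 1) :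
    pf w E O (EvAQ mac x y B) ≤ pf w E O (EvQ mac B) :=
  pf_mono h0 h1 (fun _ _ h => h.2)

/-- clusters of `B` are not changed by edges which do not touch them -/
theorem cl_union_of_not_tch {B : Set V} {O T : Finset (Sym2 V)}
    (h : ∀ e ∈ T, ¬ tch e (cl O B)) {b : V} (hb : b ∈ B) : cl (O ∪ T) {b} = cl O {b} := by
  apply Set.Subset.antisymm
  · intro v hv
    rw [mem_cl_single] at hv ⊢
    unfold conn at hv
    induction hv with
    | refl => exact conn_refl O b
    | @tail c d _ hcd ih =>
      rcases Finset.mem_union.1 hcd with h1 | h1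
      · exact ih.trans (conn_of_mem h1)
      · exact absurd ⟨c, Sym2.mem_mk_left c d, ⟨b, hb, ih⟩⟩ (h _ h1)
  · exact cl_mono Finset.subset_union_left _

theorem leaf {w : Sym2 V → ℝ} {mac : Set V → Prop}
    (hmac : ∀ S T : Set V, S ⊆ T → mac S → mac T) {x y : V} {B : Set V}
    {E₀ E O : Finset (Sym2 V)}
    (h0 : ∀ e ∈ E₀, 0 < w e) (h1 : ∀ e ∈ E₀, w e < 1) (hE : E ⊆ E₀)
    (hO : ∀ f ∈ O, ∀ a ∈ f, a ∈ cl O B) (hn : ∀ e ∈ E, ¬ tch e (cl O B)) :
    -(pf w E O (EvAQ mac x y B)) * Real.log (pf w E O (EvQ mac B))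
      ≤ 2 * (Psi w mac x y B E₀ E O + Psi w mac y x B E₀ E O) := by
  have h0' : ∀ e ∈ E, 0 < w e := fun e he => h0 e (hE he)
  have h1' : ∀ e ∈ E, w e < 1 := fun e he => h1 e (hE he)
  have hR : 0 ≤ 2 * (Psi w mac x y B E₀ E O + Psi w mac y x B E₀ E O) := by
    have a1 : 0 ≤ Psi w mac x y B E₀ E O :=
      Finset.sum_nonneg (fun S _ => term_nonneg hmac hE h0 h1 hO)
    have a2 : 0 ≤ Psi w mac y x B E₀ E O :=
      Finset.sum_nonneg (fun S _ => term_nonneg hmac hE h0 h1 hO)
    linarith
  refine le_trans (le_of_eq ?_) hR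
  have hQ : ∀ T, T ⊆ E → (EvQ mac B (O ∪ T) ↔ EvQ mac B O) := by
    intro T hT
    unfold EvQ
    constructor
    · intro h b hb
      rw [← cl_union_of_not_tch (fun e he => hn e (hT he)) hb]
      exact h b hb
    · intro h b hb
      rw [cl_union_of_not_tch (fun e he => hn e (hT he)) hb]
      exact h b hb
  by_cases hq : EvQ mac B O
  · have : pf w E O (EvQ mac B) = 1 := by
      unfold pf
      rw [Ex_congr w (g := fun _ => 1) (fun T hT => ind_true ((hQ T hT).2 hq)), Ex_const]
    rw [this, Real.log_one, mul_zero]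
  · have hz : pf w E O (EvQ mac B) = 0 := by
      unfold pf
      rw [Ex_congr w (g := fun _ => 0) (fun T hT => ind_false (fun h => hq ((hQ T hT).1 h))), Ex_const]
    rw [hz, Real.log_zero, mul_zero]

/-- the real-variable inequality for the pair of macroscopic clusters -/
theorem pair_ineq {w : Sym2 V → ℝ} {mac : Set V → Prop}
    (hmac : ∀ S T : Set V, S ⊆ T → mac S → mac T) {x y : V} {B : Set V}
    {E O : Finset (Sym2 V)} {e : Sym2 V}
    (h0 : ∀ e ∈ E, 0 < w e) (h1 : ∀ e ∈ E, w e < 1) (he : tch e (cl O B)) :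
    pf w E O (EvAQ mac x y B) + pf w E (insert e O) (EvAQ mac x y B)
      ≤ pf w E O (fun ω => EvAQ mac x y B ω ∧ ¬ tch e (cl ω {x}))
        + pf w E O (fun ω => EvAQ mac x y B ω ∧ ¬ tch e (cl ω {y})) := by
  unfold pf
  rw [← Ex_add, ← Ex_add]
  apply Ex_mono (fun e he => (h0 e he).le) (fun e he => (h1 e he).le)
  intro T _
  have htch : tch e (cl (O ∪ T) B) := by
    obtain ⟨u, hu, hu'⟩ := he
    exact ⟨u, hu, cl_mono Finset.subset_union_left _ hu'⟩
  rw [Finset.insert_union]
  by_cases h : EvAQ mac x y B (insert e (O ∪ T))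
  · obtain ⟨ha, hx, hy⟩ := close hmac htch h
    rw [ind_true h, ind_true ha, ind_true ⟨ha, hx⟩, ind_true ⟨ha, hy⟩]
  · rw [ind_false h, add_zero]
    by_cases ha : EvAQ mac x y B (O ∪ T)
    · rw [ind_true ha]
      by_cases hx : tch e (cl (O ∪ T) {x})
      · by_cases hy : tch e (cl (O ∪ T) {y})
        · exact (not_both hmac htch ha hx hy).elim
        · have : ind (EvAQ mac x y B (O ∪ T) ∧ ¬ tch e (cl (O ∪ T) {y})) = 1 := ind_true ⟨ha, hy⟩
          rw [this]
          linarith [ind_nonneg (EvAQ mac x y B (O ∪ T) ∧ ¬ tch e (cl (O ∪ T) {x}))]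
      · have : ind (EvAQ mac x y B (O ∪ T) ∧ ¬ tch e (cl (O ∪ T) {x})) = 1 := ind_true ⟨ha, hx⟩
        rw [this]
        linarith [ind_nonneg (EvAQ mac x y B (O ∪ T) ∧ ¬ tch e (cl (O ∪ T) {y}))]
    · rw [ind_false ha]
      exact add_nonneg (ind_nonneg _) (ind_nonneg _)

theorem EvAQ_symm {mac : Set V → Prop} {x y : V} {B : Set V} {ω : Finset (Sym2 V)} :
    EvAQ mac x y B ω ↔ EvAQ mac y x B ω := by
  unfold EvAQ
  rw [EvA_symm]

theorem main_ind {w : Sym2 V → ℝ} {mac : Set V → Prop}
    (hmac : ∀ S T : Set V, S ⊆ T → mac S → mac T) {x y : V} {B : Set V} {E₀ : Finset (Sym2 V)}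
    (h0 : ∀ e ∈ E₀, 0 < w e) (h1 : ∀ e ∈ E₀, w e < 1) :
    ∀ (n : ℕ) (E O : Finset (Sym2 V)), E.card = n → E ⊆ E₀ → O ⊆ E₀ →
      (∀ f ∈ O, ∀ a ∈ f, a ∈ cl O B) →
      -(pf w E O (EvAQ mac x y B)) * Real.log (pf w E O (EvQ mac B))
        ≤ 2 * (Psi w mac x y B E₀ E O + Psi w mac y x B E₀ E O) := by
  intro n
  induction n with
  | zero =>
    intro E O hcard hE hOE hO
    apply leaf hmac h0 h1 hE hO
    intro e he
    rw [Finset.card_eq_zero.1 hcard] at he
    exact absurd he (Finset.notMem_empty e)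
  | succ n ih =>
    intro E O hcard hE hOE hO
    by_cases hex : ∃ e ∈ E, tch e (cl O B)
    · obtain ⟨e, heE, he⟩ := hex
      obtain ⟨E', hE', rfl⟩ : ∃ E', e ∉ E' ∧ insert e E' = E :=
        ⟨E.erase e, Finset.notMem_erase e E, Finset.insert_erase heE⟩
      have hcard' : E'.card = n := by
        rw [Finset.card_insert_of_notMem hE'] at hcard
        omega
      have hEE : E' ⊆ E₀ := (Finset.subset_insert e E').trans hE
      have h0' : ∀ e ∈ E', 0 < w e := fun e he => h0 e (hEE he)
      have h1' : ∀ e ∈ E', w e < 1 := fun e he => h1 e (hEE he)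
      have he0 : e ∈ E₀ := hE (Finset.mem_insert_self e E')
      have hwe0 : 0 < w e := h0 e he0
      have hwe : w e < 1 := h1 e he0
      have hOE' : insert e O ⊆ E₀ := Finset.insert_subset he0 hOE
      have hO' : ∀ f ∈ insert e O, ∀ a ∈ f, a ∈ cl (insert e O) B := by
        intro f hf a ha
        rcases Finset.mem_insert.1 hf with rfl | hf
        · obtain ⟨u, hue, hu⟩ := he
          have hu' : u ∈ cl (insert f O) B := cl_mono (Finset.subset_insert f O) _ hu
          by_cases hau : a = u
          · rw [hau]; exact hu'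
          · have : f = s(u, a) := (Sym2.mem_and_mem_iff (fun h => hau h.symm)).1 ⟨hue, ha⟩
            exact mem_cl_of_conn hu' (conn_of_mem (by rw [← this]; exact Finset.mem_insert_self _ _))
        · exact cl_mono (Finset.subset_insert e O) _ (hO f hf a ha)
      have ihc := ih E' O hcard' hEE hOE hO
      have iho := ih E' (insert e O) hcard' hEE hOE' hO'
      -- left side
      have hm : pf w (insert e E') O (EvAQ mac x y B)
          = w e * pf w E' (insert e O) (EvAQ mac x y B) + (1 - w e) * pf w E' O (EvAQ mac x y B) :=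
        pf_insert w hE' _
      have hq : pf w (insert e E') O (EvQ mac B)
          = w e * pf w E' (insert e O) (EvQ mac B) + (1 - w e) * pf w E' O (EvQ mac B) :=
        pf_insert w hE' _
      have hl := neg_log_step (p := w e) (a := pf w E' (insert e O) (EvAQ mac x y B))
        (b := pf w E' O (EvAQ mac x y B)) (q := pf w E' (insert e O) (EvQ mac B))
        (r := pf w E' O (EvQ mac B)) hwe0 hwe (pf_nonneg h0' h1' _) (pf_nonneg h0' h1' _)
        (pf_EvAQ_le h0' h1') (pf_EvAQ_le h0' h1')
      rw [← hm, ← hq] at hl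
      -- right side
      have sx := Psi_step (w := w) hmac (x := x) (y := y) hE hE' hO h0 h1 he hOE
      have sy := Psi_step (w := w) hmac (x := y) (y := x) hE hE' hO h0 h1 he hOE
      have ey1 : pf w E' (insert e O) (EvAQ mac y x B) = pf w E' (insert e O) (EvAQ mac x y B) :=
        pf_congr (fun T _ => EvAQ_symm)
      have ey2 : pf w E' O (fun ω => EvAQ mac y x B ω ∧ ¬ tch e (cl ω {y}))
          = pf w E' O (fun ω => EvAQ mac x y B ω ∧ ¬ tch e (cl ω {y})) :=
        pf_congr (fun T _ => by rw [EvAQ_symm])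
      rw [ey1, ey2] at sy
      have htch : ∀ T : Finset (Sym2 V), tch e (cl (O ∪ T) B) := by
        intro T
        obtain ⟨u, hu, hu'⟩ := he
        exact ⟨u, hu, cl_mono Finset.subset_union_left _ hu'⟩
      have hau : pf w E' (insert e O) (EvAQ mac x y B)
          ≤ pf w E' O (fun ω => EvAQ mac x y B ω ∧ ¬ tch e (cl ω {x})) := by
        apply Ex_mono (fun e he => (h0' e he).le) (fun e he => (h1' e he).le)
        intro T _
        apply ind_mono
        intro h
        rw [Finset.insert_union] at h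
        obtain ⟨ha, hx, hy⟩ := close hmac (htch T) h
        exact ⟨ha, hx⟩
      have hav : pf w E' (insert e O) (EvAQ mac x y B)
          ≤ pf w E' O (fun ω => EvAQ mac x y B ω ∧ ¬ tch e (cl ω {y})) := by
        apply Ex_mono (fun e he => (h0' e he).le) (fun e he => (h1' e he).le)
        intro T _
        apply ind_mono
        intro h
        rw [Finset.insert_union] at h
        obtain ⟨ha, hx, hy⟩ := close hmac (htch T) h
        exact ⟨ha, hy⟩
      have had : pf w E' (insert e O) (EvAQ mac x y B) ≤ pf w E' O (EvAQ mac x y B) :=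
        hau.trans (pf_mono h0' h1' (fun _ _ h => h.1))
      have hloc := J_local (p := w e) hwe0 hwe (pf_nonneg h0' h1' _) had hau hav
        (pair_ineq hmac h0' h1' he)
      have hwe' : 0 < 1 - w e := by linarith
      have iho' := mul_le_mul_of_nonneg_left iho hwe0.le
      have ihc' := mul_le_mul_of_nonneg_left ihc hwe'.le
      nlinarith [iho', ihc', hl, sx, sy, hloc]
    · push Not at hex
      exact leaf hmac h0 h1 hE hO hex

/-! ### the root -/

theorem Psi_root {w : Sym2 V → ℝ} {mac : Set V → Prop}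
    (hmac : ∀ S T : Set V, S ⊆ T → mac S → mac T) {x y : V} {B : Set V} {E₀ : Finset (Sym2 V)}
    (h0 : ∀ e ∈ E₀, 0 < w e) (h1 : ∀ e ∈ E₀, w e < 1)
    (hpos : 0 < pf w E₀ ∅ (EvAQ mac x y B)) :
    Psi w mac x y B E₀ E₀ ∅ ≤
      pf w E₀ ∅ (EvAQ mac x y B) * Real.log (pf w E₀ ∅ (EvA mac x y))
        - phi (pf w E₀ ∅ (EvAQ mac x y B)) := by
  have hO : ∀ f ∈ (∅ : Finset (Sym2 V)), ∀ a ∈ f, a ∈ cl (∅ : Finset (Sym2 V)) B := by
    intro f hf; exact absurd hf (Finset.notMem_empty f)
  have h0n : ∀ e ∈ E₀, 0 ≤ w e := fun e he => (h0 e he).le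
  have h1n : ∀ e ∈ E₀, w e ≤ 1 := fun e he => (h1 e he).le
  set D : Set V → Prop := fun S => 0 < mS w mac x y B S E₀ ∅ with hD
  have hmS0 : ∀ S, 0 ≤ mS w mac x y B S E₀ ∅ := fun S => pf_nonneg h0 h1 _
  -- restriction to the relevant values
  have hPsi : Psi w mac x y B E₀ E₀ ∅ = ∑ S ∈ (idx x E₀).filter D, term w mac x y B E₀ S E₀ ∅ := by
    unfold Psi
    rw [Finset.sum_filter]
    apply Finset.sum_congr rfl
    intro S _
    by_cases h : D S
    · rw [if_pos h]
    · rw [if_neg h]
      have hz : mS w mac x y B S E₀ ∅ = 0 := le_antisymm (not_lt.1 h) (hmS0 S)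
      unfold term
      rw [hz, phi_zero]; ring
  have hm : ∑ S ∈ (idx x E₀).filter D, mS w mac x y B S E₀ ∅ = pf w E₀ ∅ (EvAQ mac x y B) := by
    have h2 : ∑ S ∈ (idx x E₀).filter D, mS w mac x y B S E₀ ∅
        = ∑ S ∈ (idx x E₀).filter (fun _ => True), mS w mac x y B S E₀ ∅ := by
      rw [Finset.sum_filter, Finset.sum_filter]
      apply Finset.sum_congr rfl
      intro S _
      rw [if_pos trivial]
      by_cases h : D S
      · rw [if_pos h]
      · rw [if_neg h]
        exact le_antisymm (hmS0 S) (not_lt.1 h)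
    rw [h2, sum_mS (Finset.Subset.refl E₀) (Finset.empty_subset E₀)]
    apply pf_congr
    intro T _
    simp
  have hcb0 : ∀ S, 0 ≤ cS w x S E₀ ∅ * bS w mac y S E₀ := by
    intro S
    apply mul_nonneg (pf_nonneg h0 h1 _)
    exact Ex_nonneg (fun e he => h0n e (Finset.mem_of_mem_filter e he))
      (fun e he => h1n e (Finset.mem_of_mem_filter e he)) (fun _ _ => ind_nonneg _)
  have hle : ∀ S, mS w mac x y B S E₀ ∅ ≤ cS w x S E₀ ∅ * bS w mac y S E₀ :=
    fun S => mS_le hmac (Finset.Subset.refl E₀) h0 h1 hO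
  -- the sum of `cS * bS`
  have hsum : ∑ S ∈ (idx x E₀).filter D, cS w x S E₀ ∅ * bS w mac y S E₀
      ≤ pf w E₀ ∅ (EvA mac x y) := by
    have h3 : ∑ S ∈ (idx x E₀).filter D, pf w E₀ ∅ (fun ω => EvA mac x y ω ∧ cl ω {x} = S)
        ≤ pf w E₀ ∅ (EvA mac x y) := by
      rw [sum_pf (Finset.Subset.refl E₀) (Finset.empty_subset E₀)]
      exact pf_mono h0 h1 (fun _ _ h => h.1)
    refine le_trans (Finset.sum_le_sum ?_) h3
    intro S hS
    rw [Finset.mem_filter] at hS
    obtain ⟨T₀, hT₀, hA₀, hS₀⟩ := exists_of_pf_pos hS.2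
    set f : Finset (Sym2 V) → ℝ := fun T => ind (cl (∅ ∪ (T ∩ E₀)) {x} = S) with hf
    set g : Finset (Sym2 V) → ℝ := fun T => ind (mac (cl (T ∩ off E₀ S) {y})) with hg
    have hgdep : DependsOn (off E₀ S) g := by
      intro T T' h
      simp only [hg]
      rw [h]
    have e1 : Ex E₀ w f = cS w x S E₀ ∅ := by
      unfold cS pf
      apply Ex_congr
      intro T hT
      simp only [hf]
      rw [Finset.inter_eq_left.2 hT]
    have e2 : Ex E₀ w g = bS w mac y S E₀ := by
      unfold bS
      rw [Ex_marginal (Finset.filter_subset _ _) w hgdep]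
      apply Ex_congr
      intro T hT
      simp only [hg]
      rw [Finset.inter_eq_left.2 (show T ⊆ off E₀ S from hT)]
    have step2 : Ex E₀ w (fun T => f T * g T) = Ex E₀ w f * Ex E₀ w g :=
      Ex_mul_of_disjoint (D₁ := E₀.filter (fun e => tch e S)) (D₂ := off E₀ S)
        (Finset.filter_subset _ _) (Finset.filter_subset _ _)
        (Finset.disjoint_filter_filter_not _ _ _) w dependsOn_cl hgdep
    rw [← e1, ← e2, ← step2]
    unfold pf
    apply Ex_mono h0n h1n
    intro T hT
    have hTE : T ∩ E₀ = T := Finset.inter_eq_left.2 hT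
    simp only [hf, hg]
    rw [← ind_and]
    apply ind_mono
    rintro ⟨h1, h2⟩
    rw [hTE] at h1
    refine ⟨⟨?_, ?_, ?_⟩, h1⟩
    · rw [h1, ← hS₀]
      exact hA₀.1.1
    · apply hmac _ _ _ h2
      apply cl_mono
      exact Finset.inter_subset_left.trans Finset.subset_union_right
    · intro hxy
      rw [← mem_cl_single, h1, ← hS₀, mem_cl_single] at hxy
      exact hA₀.1.2.2 hxy
  have hlog := log_sum ((idx x E₀).filter D) (fun S => mS w mac x y B S E₀ ∅)
    (fun S => cS w x S E₀ ∅ * bS w mac y S E₀) (fun S _ => hmS0 S) (fun S _ => hcb0 S)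
    (fun S _ h => lt_of_lt_of_le h (hle S))
  rw [hm] at hlog
  have hneg : ∑ S ∈ (idx x E₀).filter D, (phi (mS w mac x y B S E₀ ∅)
      - mS w mac x y B S E₀ ∅ * Real.log (cS w x S E₀ ∅ * bS w mac y S E₀))
      = - Psi w mac x y B E₀ E₀ ∅ := by
    rw [hPsi, ← Finset.sum_neg_distrib]
    apply Finset.sum_congr rfl
    intro S _
    unfold term
    ring
  rw [hneg] at hlog
  have hmle : pf w E₀ ∅ (EvAQ mac x y B) ≤ ∑ S ∈ (idx x E₀).filter D, cS w x S E₀ ∅ * bS w mac y S E₀ := by
    rw [← hm]
    exact Finset.sum_le_sum (fun S _ => hle S)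
  have hll := Real.log_le_log (lt_of_lt_of_le hpos hmle) hsum
  have := mul_le_mul_of_nonneg_left hll hpos.le
  linarith

/-- **The dust theorem**: if `B` meets no macroscopic cluster, then two distinct macroscopic
clusters at `x`, `y` are unlikely.  `P(A ∩ Q)^4 ≤ P(Q) P(A)^4`. -/
theorem dust (E : Finset (Sym2 V)) (w : Sym2 V → ℝ)
    (hw0 : ∀ e ∈ E, 0 < w e) (hw1 : ∀ e ∈ E, w e < 1) (mac : Set V → Prop)
    (hmac : ∀ S T : Set V, S ⊆ T → mac S → mac T) (x y : V) (B : Set V) :
    Pr E w (fun ω => (mac (cl ω {x}) ∧ mac (cl ω {y}) ∧ ¬ conn ω x y) ∧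
        ∀ b ∈ B, ¬ mac (cl ω {b})) ^ 4
      ≤ Pr E w (fun ω => ∀ b ∈ B, ¬ mac (cl ω {b})) *
          Pr E w (fun ω => mac (cl ω {x}) ∧ mac (cl ω {y}) ∧ ¬ conn ω x y) ^ 4 := by
  have em : Pr E w (fun ω => (mac (cl ω {x}) ∧ mac (cl ω {y}) ∧ ¬ conn ω x y) ∧
      ∀ b ∈ B, ¬ mac (cl ω {b})) = pf w E ∅ (EvAQ mac x y B) := by
    unfold Pr pf
    apply Ex_congr
    intro T _
    rw [Finset.empty_union]
    rfl
  have eq : Pr E w (fun ω => ∀ b ∈ B, ¬ mac (cl ω {b})) = pf w E ∅ (EvQ mac B) := by
    unfold Pr pf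
    apply Ex_congr
    intro T _
    rw [Finset.empty_union]
    rfl
  have eA : Pr E w (fun ω => mac (cl ω {x}) ∧ mac (cl ω {y}) ∧ ¬ conn ω x y)
      = pf w E ∅ (EvA mac x y) := by
    unfold Pr pf
    apply Ex_congr
    intro T _
    rw [Finset.empty_union]
    rfl
  rw [em, eq, eA]
  have hm0 : 0 ≤ pf w E ∅ (EvAQ mac x y B) := pf_nonneg hw0 hw1 _
  have hq0 : 0 ≤ pf w E ∅ (EvQ mac B) := pf_nonneg hw0 hw1 _
  have hA0 : 0 ≤ pf w E ∅ (EvA mac x y) := pf_nonneg hw0 hw1 _
  rcases hm0.eq_or_lt with hz | hpos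
  · rw [← hz]
    have : (0 : ℝ) ^ 4 = 0 := by norm_num
    rw [this]
    positivity
  have hmq : pf w E ∅ (EvAQ mac x y B) ≤ pf w E ∅ (EvQ mac B) := pf_EvAQ_le hw0 hw1
  have hmA : pf w E ∅ (EvAQ mac x y B) ≤ pf w E ∅ (EvA mac x y) :=
    pf_mono hw0 hw1 (fun _ _ h => h.1)
  have hq : 0 < pf w E ∅ (EvQ mac B) := lt_of_lt_of_le hpos hmq
  have hA : 0 < pf w E ∅ (EvA mac x y) := lt_of_lt_of_le hpos hmA
  have key := main_ind (w := w) hmac (x := x) (y := y) (B := B) hw0 hw1 E.card E ∅ rfl
    (Finset.Subset.refl E) (Finset.empty_subset E)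
    (fun f hf => absurd hf (Finset.notMem_empty f))
  have r1 := Psi_root (w := w) hmac (x := x) (y := y) (B := B) hw0 hw1 hpos
  have es : pf w E ∅ (EvAQ mac y x B) = pf w E ∅ (EvAQ mac x y B) :=
    pf_congr (fun T _ => EvAQ_symm)
  have eA' : pf w E ∅ (EvA mac y x) = pf w E ∅ (EvA mac x y) :=
    pf_congr (fun T _ => EvA_symm)
  have r2 := Psi_root (w := w) hmac (x := y) (y := x) (B := B) hw0 hw1 (by rw [es]; exact hpos)
  rw [es, eA'] at r2
  set m := pf w E ∅ (EvAQ mac x y B)
  set q := pf w E ∅ (EvQ mac B)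
  set A := pf w E ∅ (EvA mac x y)
  have k1 : m * (4 * Real.log m) ≤ m * (Real.log q + 4 * Real.log A) := by
    unfold phi at r1 r2
    nlinarith
  have k2 : 4 * Real.log m ≤ Real.log q + 4 * Real.log A := le_of_mul_le_mul_left k1 hpos
  have k3 : Real.log (m ^ 4) ≤ Real.log (q * A ^ 4) := by
    rw [Real.log_mul hq.ne' (by positivity), Real.log_pow, Real.log_pow]
    push_cast
    exact k2
  exact (Real.log_le_log_iff (by positivity) (by positivity)).1 k3

end Crest.Agent.R147.Dust
end

-- ▼ part R147/DustFin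

/-!
Row 147 (helper326): the finite-volume dust theorem in the form used by `Tri856`.
-/

set_option autoImplicit false

namespace Crest.Agent.R147.Dust

universe u

theorem dustFin (V : Type u) : Crest.Agent.R147.Tri.DustFin V :=
  fun E w h0 h1 mac hm x y B => dust E w h0 h1 mac hm x y B

end Crest.Agent.R147.Dust
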