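import Mathlib
import Crest.Agent.R147.StGraph
import Crest.Agent.R147.Exit247A
import Crest.Agent.R147.Cl684Uniq

-- ▼ part R147/Pl592
section

/-!
# R147, block B5d: the plan of moves

Normalised coordinates `(x, y)`; move `false` is `u₁ = (0, 1)`, move `true` is `u₂ = (1, s)` with
`|s| ≤ 1`.  The plan with parameter `m` is `(u₁ u₁ u₂)^m u₁ u₁ u₁ …`.
-/

namespace Crest.Agent.R147.Pl

/-- The displacement of a move. -/
noncomputable def mv (s : ℝ) (i : Bool) : ℝ × ℝ := if i then (1, s) else (0, 1)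

/-- The type of the `t`-th move of the plan with parameter `m`. -/
def idx (m t : ℕ) : Bool := decide (t < 3 * m ∧ t % 3 = 2)

/-- The number of `u₂` moves among the first `t` ones. -/
def cnt (m t : ℕ) : ℕ := min (t / 3) m

/-- The position after `t` moves. -/
noncomputable def pos (s : ℝ) (m t : ℕ) : ℝ × ℝ :=
  ((cnt m t : ℝ), (t : ℝ) - (cnt m t : ℝ) + s * (cnt m t : ℝ))

theorem cnt_succ (m t : ℕ) : cnt m (t + 1) = cnt m t + if idx m t then 1 else 0 := by
  unfold cnt idx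
  by_cases h : t < 3 * m ∧ t % 3 = 2
  · rw [if_pos (by simpa using h)]
    rcases h with ⟨h1, h2⟩
    omega
  · rw [if_neg (by simpa using h)]
    omega

@[simp] theorem pos_zero (s : ℝ) (m : ℕ) : pos s m 0 = (0, 0) := by
  simp [pos, cnt]

theorem pos_succ (s : ℝ) (m t : ℕ) : pos s m (t + 1) = pos s m t + mv s (idx m t) := by
  unfold pos mv
  rw [cnt_succ]
  cases idx m t
  · simp only [Bool.false_eq_true, if_false, add_zero, Prod.mk_add_mk]
    push_cast
    ext <;> ring_nf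
  · simp only [if_true, Prod.mk_add_mk]
    push_cast
    ext <;> ring_nf

/-- Length of the plan. -/
def len (m : ℕ) : ℕ := 3 * m + 205

theorem cnt_le (m t : ℕ) : cnt m t ≤ m := min_le_right _ _

theorem cnt_le_div (m t : ℕ) : (cnt m t : ℝ) ≤ (t : ℝ) / 3 := by
  have h : 3 * cnt m t ≤ t := by unfold cnt; omega
  have h' : (3 : ℝ) * cnt m t ≤ t := by exact_mod_cast h
  linarith

theorem cnt_of_le {m t : ℕ} (h : 3 * m ≤ t) : cnt m t = m := by unfold cnt; omega

theorem pos_fst (s : ℝ) (m t : ℕ) : (pos s m t).1 = cnt m t := rfl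

theorem pos_fst_nonneg (s : ℝ) (m t : ℕ) : 0 ≤ (pos s m t).1 := by
  rw [pos_fst]; positivity

theorem pos_fst_le (s : ℝ) (m t : ℕ) : (pos s m t).1 ≤ m := by
  rw [pos_fst]; exact_mod_cast cnt_le m t


/-- Phase 2 is vertical. -/
theorem pos_fst_of_le (s : ℝ) {m t : ℕ} (h : 3 * m ≤ t) : (pos s m t).1 = m := by
  rw [pos_fst, cnt_of_le h]

/-- The height grows at least with speed `1 / 3`. -/
theorem div_le_pos_snd {s : ℝ} (hs : |s| ≤ 1) (m t : ℕ) : (t : ℝ) / 3 ≤ (pos s m t).2 := by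
  have h1 := cnt_le_div m t
  have h2 : (0 : ℝ) ≤ cnt m t := by positivity
  have h3 := (abs_le.1 hs).1
  unfold pos
  nlinarith

theorem pos_snd_nonneg {s : ℝ} (hs : |s| ≤ 1) (m t : ℕ) : 0 ≤ (pos s m t).2 :=
  le_trans (by positivity) (div_le_pos_snd hs m t)

/-- The height grows at most with speed `1`. -/
theorem pos_snd_le {s : ℝ} (hs : |s| ≤ 1) (m t : ℕ) : (pos s m t).2 ≤ t := by
  have h2 : (0 : ℝ) ≤ cnt m t := by positivity
  have h3 := (abs_le.1 hs).2
  unfold pos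
  nlinarith

/-- The final height. -/
theorem pos_snd_len {s : ℝ} (hs : |s| ≤ 1) (m : ℕ) : 205 + (m : ℝ) ≤ (pos s m (len m)).2 := by
  have h3 := (abs_le.1 hs).1
  have h4 : cnt m (len m) = m := cnt_of_le (by unfold len; omega)
  have h5 : (0 : ℝ) ≤ m := by positivity
  unfold pos
  rw [h4]
  unfold len
  push_cast
  nlinarith


/-- The choice of the parameter. -/
theorem exists_param {x d : ℝ} (hx : |x| ≤ 8) (hd : d = 50 ∨ d = 10) :
    ∃ m : ℕ, 1 ≤ m ∧ m ≤ 59 ∧ |x + m - d| ≤ 1 / 2 := by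
  obtain ⟨h1, h2⟩ := abs_le.1 hx
  have hr := abs_sub_round (d - x)
  have hlo : (3 / 2 : ℝ) ≤ round (d - x) := by
    have := (abs_le.1 hr).2
    rcases hd with rfl | rfl <;> linarith
  have hhi : (round (d - x) : ℝ) ≤ 117 / 2 := by
    have := (abs_le.1 hr).1
    rcases hd with rfl | rfl <;> linarith
  have hlo' : (1 : ℤ) < round (d - x) := by
    have : (1 : ℝ) < round (d - x) := by linarith
    exact_mod_cast this
  have hhi' : round (d - x) < (59 : ℤ) := by
    have : (round (d - x) : ℝ) < 59 := by linarith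
    exact_mod_cast this
  refine ⟨(round (d - x)).toNat, by omega, by omega, ?_⟩
  have hcast : (((round (d - x)).toNat : ℕ) : ℝ) = (round (d - x) : ℝ) := by
    have : (((round (d - x)).toNat : ℕ) : ℤ) = round (d - x) := Int.toNat_of_nonneg (by omega)
    exact_mod_cast this
  rw [hcast, abs_sub_comm]
  have : d - (x + (round (d - x) : ℝ)) = (d - x) - round (d - x) := by ring
  rw [this]
  exact hr



end Crest.Agent.R147.Pl
end

-- ▼ part R147/Lo505

/-!
Row 147, block E4b (helper505): local facts about the blocks `B(f) = th hloc k {f}`, `f` in the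
orbit of `o` under the group of `Z : Z2Data G`, and about the block-removed domains.
-/

set_option autoImplicit false

open Crest.ProbabilityR.Percolation
open Crest.Agent.R159 Crest.Agent.R159.Sharp Crest.Agent.R147.Cl Crest.Agent.R147.St

namespace Crest.Agent.R147.Lo

open scoped Classical

universe u
variable {V : Type u} {G : SimpleGraph V}

/-! ### the orbit -/

/-- the orbit of `o` -/
def Orb (Z : Z2Data G) (o : V) : Set V := {f | ∃ h : Z.H, (h : G ≃g G) o = f}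

theorem mem_Orb_self (Z : Z2Data G) (o : V) : o ∈ Orb Z o := ⟨1, rfl⟩

theorem Orb_act (Z : Z2Data G) (o : V) (h : Z.H) {f : V} (hf : f ∈ Orb Z o) :
    (h : G ≃g G) f ∈ Orb Z o := by
  obtain ⟨g, rfl⟩ := hf
  exact ⟨h * g, rfl⟩

theorem Orb_act_iff (Z : Z2Data G) (o : V) (h : Z.H) {f : V} :
    (h : G ≃g G) f ∈ Orb Z o ↔ f ∈ Orb Z o := by
  constructor
  · intro hf
    have := Orb_act Z o h⁻¹ hf
    have h2 : ((h⁻¹ : Z.H) : G ≃g G) ((h : G ≃g G) f) = f := by
      show ((h⁻¹ * h : Z.H) : G ≃g G) f = f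
      rw [inv_mul_cancel]
      rfl
    rwa [h2] at this
  · exact Orb_act Z o h


theorem act_inv_act (Z : Z2Data G) (h : Z.H) (v : V) :
    ((h⁻¹ : Z.H) : G ≃g G) ((h : G ≃g G) v) = v := by
  show ((h⁻¹ * h : Z.H) : G ≃g G) v = v
  rw [inv_mul_cancel]
  rfl



theorem quasiTransitive (Z : Z2Data G) : IsQuasiTransitive G :=
  ⟨Z.F, fun v => by
    obtain ⟨h, hh⟩ := Z.cov v
    exact ⟨h, hh⟩⟩

/-! ### balls -/

variable (hloc : ∀ v : V, (G.neighborSet v).Finite)

/-- `Φ` is Lipschitz -/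
theorem jump_walk (Z : Z2Data G) {x y : V} (w : G.Walk x y) :
    |(Z.Φ x).1 - (Z.Φ y).1| ≤ Z.C * w.length ∧ |(Z.Φ x).2 - (Z.Φ y).2| ≤ Z.C * w.length := by
  induction w with
  | nil => simp
  | @cons a b c hab w ih =>
    have h1 := Z.jump a b hab
    rw [SimpleGraph.Walk.length_cons]
    push_cast
    have e1 : (Z.Φ a).1 - (Z.Φ c).1 = ((Z.Φ a).1 - (Z.Φ b).1) + ((Z.Φ b).1 - (Z.Φ c).1) := by ring
    have e2 : (Z.Φ a).2 - (Z.Φ c).2 = ((Z.Φ a).2 - (Z.Φ b).2) + ((Z.Φ b).2 - (Z.Φ c).2) := by ring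
    have a1 := abs_add_le ((Z.Φ a).1 - (Z.Φ b).1) ((Z.Φ b).1 - (Z.Φ c).1)
    have a2 := abs_add_le ((Z.Φ a).2 - (Z.Φ b).2) ((Z.Φ b).2 - (Z.Φ c).2)
    rw [e1, e2]
    constructor <;> nlinarith [h1.1, h1.2, ih.1, ih.2]

/-- the box of radius `r` -/
def bx (r : ℤ) : Set (ℤ × ℤ) := {v | |v.1| ≤ r ∧ |v.2| ≤ r}


theorem bx_mono {r s : ℤ} (h : r ≤ s) : bx r ⊆ bx s := fun _ hv => ⟨hv.1.trans h, hv.2.trans h⟩




/-- jump bound: a point of the ball of radius `n` around `x` -/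
theorem Phi_th (Z : Z2Data G) {n : ℕ} {x y : V} (h : y ∈ th hloc n {x}) :
    Z.Φ y - Z.Φ x ∈ bx (Z.C * n) := by
  obtain ⟨a, ha, w, hw⟩ := (mem_th hloc).1 h
  rw [Finset.mem_singleton] at ha
  subst ha
  have h1 := jump_walk Z w
  have h2 : (Z.C : ℤ) * w.length ≤ Z.C * n := by
    have : (w.length : ℤ) ≤ n := by exact_mod_cast hw
    exact mul_le_mul_of_nonneg_left this (by positivity)
  refine ⟨?_, ?_⟩
  · show |(Z.Φ y).1 - (Z.Φ a).1| ≤ _
    rw [abs_sub_comm]; exact h1.1.trans h2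
  · show |(Z.Φ y).2 - (Z.Φ a).2| ≤ _
    rw [abs_sub_comm]; exact h1.2.trans h2

theorem th_self (n : ℕ) (x : V) : x ∈ th hloc n {x} := subset_th hloc n _ (Finset.mem_singleton_self x)

theorem th_symm {n : ℕ} {x y : V} (h : y ∈ th hloc n {x}) : x ∈ th hloc n {y} :=
  (mem_th_singleton_comm hloc).1 h

theorem th_trans {n m : ℕ} {x y z : V} (h : y ∈ th hloc n {x}) (h' : z ∈ th hloc m {y}) :
    z ∈ th hloc (n + m) {x} := by
  obtain ⟨a, ha, w, hw⟩ := (mem_th hloc).1 h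
  obtain ⟨b, hb, w', hw'⟩ := (mem_th hloc).1 h'
  rw [Finset.mem_singleton] at ha hb
  subst ha hb
  exact (mem_th hloc).2 ⟨a, Finset.mem_singleton_self _, w.append w', by
    rw [SimpleGraph.Walk.length_append]; omega⟩

theorem th_adj {n : ℕ} {x y z : V} (h : y ∈ th hloc n {x}) (h' : G.Adj y z) :
    z ∈ th hloc (n + 1) {x} := by
  obtain ⟨a, ha, w, hw⟩ := (mem_th hloc).1 h
  rw [Finset.mem_singleton] at ha
  subst ha
  exact (mem_th hloc).2 ⟨a, Finset.mem_singleton_self _, w.concat h', by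
    rw [SimpleGraph.Walk.length_concat]; omega⟩

theorem th_act (φ : G ≃g G) {n : ℕ} {x y : V} : φ y ∈ th hloc n {φ x} ↔ y ∈ th hloc n {x} :=
  th_aut hloc φ n x y

/-- the covering radius -/
theorem exists_cover (hconn : G.Connected) (Z : Z2Data G) (o : V) :
    ∃ k0 : ℕ, ∀ k, k0 ≤ k → ∀ v, ∃ f ∈ Orb Z o, v ∈ th hloc k {f} := by
  have hw : ∀ f : V, ∃ w : G.Walk o f, True := fun f => ⟨(hconn.preconnected o f).some, trivial⟩
  choose w _ using hw
  refine ⟨Z.F.sup (fun f => (w f).length), fun k hk v => ?_⟩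
  obtain ⟨h, hh⟩ := Z.cov v
  refine ⟨((h⁻¹ : Z.H) : G ≃g G) o, ⟨h⁻¹, rfl⟩, ?_⟩
  have h1 : (h : G ≃g G) v ∈ th hloc k {o} :=
    (mem_th hloc).2 ⟨o, Finset.mem_singleton_self o, w _,
      (Finset.le_sup (f := fun f => (w f).length) hh).trans hk⟩
  have h2 := (th_act hloc ((h⁻¹ : Z.H) : G ≃g G)).2 h1
  rwa [act_inv_act] at h2

theorem exists_card_th (Z : Z2Data G) : ∃ D : ℕ, ∀ (n : ℕ) (x : V),
    (th hloc n {x}).card ≤ (D + 1) ^ n := by
  obtain ⟨D, hD⟩ := exists_degree_bound hloc (quasiTransitive Z)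
  refine ⟨D, fun n x => ?_⟩
  have := card_th_le hloc hD n {x}
  rwa [Finset.card_singleton, mul_one] at this

/-! ### edges touching a finite set -/

/-- edges of `G` touching `A` -/
noncomputable def tch (A : Finset V) : Finset (Sym2 V) :=
  A.biUnion (fun x => (nb hloc x).image (fun y => s(x, y)))

theorem mem_tch {A : Finset V} {e : Sym2 V} :
    e ∈ tch hloc A ↔ e ∈ G.edgeSet ∧ ∃ x ∈ A, x ∈ e := by
  unfold tch
  rw [Finset.mem_biUnion]
  constructor
  · rintro ⟨x, hx, hy⟩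
    obtain ⟨z, hz, rfl⟩ := Finset.mem_image.1 hy
    rw [Sharp.mem_nb] at hz
    exact ⟨hz, x, hx, Sym2.mem_mk_left x z⟩
  · rintro ⟨he, x, hx, hxe⟩
    obtain ⟨y, rfl⟩ := Sym2.mem_iff_exists.1 hxe
    refine ⟨x, hx, Finset.mem_image.2 ⟨y, ?_, rfl⟩⟩
    rw [Sharp.mem_nb]
    exact he

theorem mem_tch_mk {A : Finset V} {x y : V} :
    s(x, y) ∈ tch hloc A ↔ G.Adj x y ∧ (x ∈ A ∨ y ∈ A) := by
  rw [mem_tch, SimpleGraph.mem_edgeSet]
  constructor
  · rintro ⟨h, z, hz, hz'⟩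
    rcases Sym2.mem_iff.1 hz' with rfl | rfl
    · exact ⟨h, Or.inl hz⟩
    · exact ⟨h, Or.inr hz⟩
  · rintro ⟨h, hx | hy⟩
    · exact ⟨h, x, hx, Sym2.mem_mk_left x y⟩
    · exact ⟨h, y, hy, Sym2.mem_mk_right x y⟩



theorem card_tch_le {D : ℕ} (hD : ∀ v, (nb hloc v).card ≤ D) (A : Finset V) :
    (tch hloc A).card ≤ A.card * D := by
  unfold tch
  exact Finset.card_biUnion_le_card_mul A _ D
    (fun v _ => (Finset.card_image_le).trans (hD v))

/-- the edges of the block `B(f)` -/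
noncomputable def blk (k : ℕ) (f : V) : Finset (Sym2 V) := tch hloc (th hloc k {f})

theorem mem_blk_mk {k : ℕ} {f x y : V} :
    s(x, y) ∈ blk hloc k f ↔ G.Adj x y ∧ (x ∈ th hloc k {f} ∨ y ∈ th hloc k {f}) :=
  mem_tch_mk hloc

theorem mem_blk {k : ℕ} {f : V} {e : Sym2 V} :
    e ∈ blk hloc k f ↔ e ∈ G.edgeSet ∧ ∃ x ∈ th hloc k {f}, x ∈ e := mem_tch hloc

/-- every endpoint of an edge of the block `f` is in `B_{k+1}(f)` -/
theorem mem_nb_of_mem_blk {k : ℕ} {f : V} {e : Sym2 V} (he : e ∈ blk hloc k f) {x : V}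
    (hx : x ∈ e) : x ∈ th hloc (k + 1) {f} := by
  obtain ⟨h1, y, hy, hye⟩ := (mem_blk hloc).1 he
  by_cases hxy : x = y
  · rw [hxy]; exact th_mono_n hloc (Nat.le_succ k) _ hy
  · have : e = s(x, y) := ((Sym2.mem_and_mem_iff hxy).1 ⟨hx, hye⟩)
    rw [this, SimpleGraph.mem_edgeSet] at h1
    exact th_adj hloc hy h1.symm

theorem exists_card_blk (Z : Z2Data G) (k : ℕ) : ∃ L : ℕ, ∀ f, (blk hloc k f).card ≤ L := by
  obtain ⟨D, hD⟩ := exists_degree_bound hloc (quasiTransitive Z)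
  obtain ⟨D', hD'⟩ := exists_card_th hloc Z
  refine ⟨(D' + 1) ^ k * D, fun f => ?_⟩
  exact (card_tch_le hloc hD _).trans (Nat.mul_le_mul_right _ (hD' k f))

/-- if two blocks share an edge then the centres are close -/
theorem near_of_not_disjoint {k : ℕ} {f f' : V} (h : ¬ Disjoint (blk hloc k f) (blk hloc k f')) :
    f' ∈ th hloc (2 * k + 1) {f} := by
  rw [Finset.not_disjoint_iff] at h
  obtain ⟨e, he, he'⟩ := h
  obtain ⟨_, x, hx, hxe⟩ := (mem_blk hloc).1 he
  have h2 := mem_nb_of_mem_blk hloc he' hxe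
  have h3 := th_trans hloc hx (th_symm hloc h2)
  have h4 : k + (k + 1) = 2 * k + 1 := by ring
  rwa [h4] at h3

/-- bounded overlap of the blocks -/
theorem exists_overlap (Z : Z2Data G) (k : ℕ) : ∃ K : ℕ, 1 ≤ K ∧ ∀ (Y : Finset V) (f : V),
    (Y.filter (fun f' => f = f' ∨ ¬ Disjoint (blk hloc k f) (blk hloc k f'))).card ≤ K := by
  obtain ⟨D, hD⟩ := exists_card_th hloc Z
  refine ⟨(D + 1) ^ (2 * k + 1), Nat.one_le_pow _ _ (Nat.succ_pos D), fun Y f => ?_⟩
  refine le_trans (Finset.card_le_card ?_) (hD (2 * k + 1) f)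
  intro f' hf'
  rw [Finset.mem_filter] at hf'
  rcases hf'.2 with h | h
  · rw [← h]; exact th_self hloc _ _
  · exact near_of_not_disjoint hloc h

/-- the ball is connected by the edges touching it -/
theorem reach_center {k : ℕ} {f y : V} (hy : y ∈ th hloc (k + 1) {f}) {S : Set (Sym2 V)}
    (hS : (↑(blk hloc k f) : Set (Sym2 V)) ⊆ S) : (openSubgraph G S).Reachable f y := by
  have key : ∀ n, n ≤ k + 1 → ∀ y, y ∈ th hloc n {f} → (openSubgraph G S).Reachable f y := by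
    intro n
    induction n with
    | zero =>
      intro _ y hy
      rw [th_zero, Finset.mem_singleton] at hy
      rw [hy]
    | succ n ih =>
      intro hn y hy
      rw [th_succ, mem_nbh] at hy
      rcases hy with hy | ⟨z, hz, hzy⟩
      · exact ih (by omega) y hy
      · refine (ih (by omega) z hz).trans (SimpleGraph.Adj.reachable ?_)
        rw [Inf.openSubgraph_adj]
        refine ⟨hS (Finset.mem_coe.2 ((mem_blk_mk hloc).2 ⟨hzy, Or.inl ?_⟩)), hzy⟩
        exact th_mono_n hloc (by omega) _ hz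
  exact key (k + 1) le_rfl y hy

/-- (h1): `nb b` is joined to `vtx b` by the edges of `blk b` -/
theorem reach_blk {k : ℕ} {f x y : V} (hx : x ∈ th hloc (k + 1) {f}) (hy : y ∈ th hloc (k + 1) {f})
    {S : Set (Sym2 V)} (hS : (↑(blk hloc k f) : Set (Sym2 V)) ⊆ S) :
    (openSubgraph G S).Reachable x y :=
  (reach_center hloc hx hS).symm.trans (reach_center hloc hy hS)

/-! ### domains -/



















/-! ### finiteness -/





end Crest.Agent.R147.Lo
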