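import Crest.Agent.R147.KN.TStar

-- ▼ part R147/KN/PKN
section

/-!
# Adaptive Kozma–Nitzan inequality as a superharmonic potential, and the product inequality PKN
-/

set_option autoImplicit false
set_option linter.unusedSectionVars false

open Finset Filter Topology

namespace Crest.Agent.R147.KN

namespace HG

variable {V E : Type*} [DecidableEq V] [DecidableEq E] [Fintype V] (G : HG V E)

theorem run_le_one {Ω : Finset E} {Z : Finset V} {q : ℕ → Finset V → Option V}
    {Φ₀ : Finset V → ℝ} {Φ₁ : Finset V → Finset V → ℝ} (h0 : ∀ C, Φ₀ C ≤ 1)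
    (h1 : ∀ C D, Φ₁ C D ≤ 1) (n : ℕ) (C : Finset V) : G.run Ω Z q Φ₀ Φ₁ n C ≤ 1 := by
  induction n generalizing C with
  | zero => exact h0 C
  | succ n ih =>
    simp only [run]
    cases q n C with
    | none => exact h0 C
    | some x =>
      refine G.ex_le_of_le fun S _ => ?_
      split_ifs
      · exact ih _
      · exact h1 _ _

/-- **adaptive Kozma–Nitzan**: an adversary reveals clusters one by one, he wins if a revealed
cluster meets `B` before `b` is revealed (and is not revealed with it). -/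
theorem adaptive_KN (Ω : Finset E) (B : Finset V) (b : V) {ε : ℝ} (hε0 : 0 ≤ ε)
    (hε : ∀ y ∈ B, G.ex Ω (fun S => if b ∈ G.cl S {y} then 0 else 1) ≤ ε)
    (q : ℕ → Finset V → Option V) (n : ℕ) :
    G.run Ω B q (fun _ => 0) (fun C D => if b ∈ C ∪ D then 0 else 1) n ∅ ≤ ε := by
  obtain ⟨ℓ, hℓ0, hℓu, hℓ1⟩ := G.Tstar Ω B q n B ∅ (Finset.disjoint_empty_right _)
    (Finset.union_empty B).symm
  have humono : Monotone (fun R : Finset V => if b ∈ R then (1 : ℝ) else 0) := by
    intro R R' h
    simp only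
    by_cases h1 : b ∈ R
    · rw [if_pos h1, if_pos (h h1)]
    · rw [if_neg h1]; split_ifs <;> norm_num
  have h1 := hℓu _ humono
  have h2 := G.run_sub (Ω := Ω) (Z := B) (q := q) (Φ₀ := fun _ => 0)
        (Φ₁ := fun _ D => if Disjoint D ∅ then 1 else 0) (Φ₀' := fun _ => 0)
        (Φ₁' := fun C D => if Disjoint D ∅ then (if b ∈ C ∪ D then (1 : ℝ) else 0) else 0) 1 n ∅
  have h3 : G.run Ω B q (fun _ => (0 : ℝ) - 1 * 0)
        (fun C D => (if Disjoint D ∅ then 1 else 0)
          - 1 * (if Disjoint D ∅ then (if b ∈ C ∪ D then (1 : ℝ) else 0) else 0)) n ∅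
      = G.run Ω B q (fun _ => 0) (fun C D => if b ∈ C ∪ D then 0 else 1) n ∅ := by
    refine G.run_congr (fun _ _ => by ring) (fun C D _ _ => ?_) n ∅
      (Finset.disjoint_empty_left _)
    rw [if_pos (Finset.disjoint_empty_right _), if_pos (Finset.disjoint_empty_right _)]
    split_ifs <;> ring
  have h4 : G.run Ω B q (fun _ => 0) (fun _ D => if Disjoint D ∅ then 1 else 0) n ∅ ≤ 1 :=
    G.run_le_one (fun _ => zero_le_one) (fun _ D => by split_ifs <;> norm_num) n ∅
  have h5 : ∀ i, G.cE Ω ∅ i (fun _ => 1) = 1 := by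
    intro i
    unfold cE
    simp only [Finset.disjoint_empty_right, if_true]
    rw [G.ex_const]
  have h6 : ∀ i ∈ B, 1 - ε ≤ G.cE Ω ∅ i (fun R => if b ∈ R then (1 : ℝ) else 0) := by
    intro i hi
    have h7 := hε i hi
    have h8 : G.cE Ω ∅ i (fun R => if b ∈ R then (1 : ℝ) else 0)
        = 1 - G.ex Ω (fun S => if b ∈ G.cl S {i} then (0 : ℝ) else 1) := by
      have h11 := G.ex_sub Ω (fun _ => (1 : ℝ)) (fun S => if b ∈ G.cl S {i} then (0 : ℝ) else 1)
      rw [G.ex_const] at h11
      rw [← h11]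
      unfold cE
      refine G.ex_congr fun S _ => ?_
      simp only [Finset.disjoint_empty_right, if_true]
      split_ifs <;> ring
    linarith
  have h9 : (1 - ε) * ∑ i ∈ B, ℓ i
      ≤ ∑ i ∈ B, ℓ i * G.cE Ω ∅ i (fun R => if b ∈ R then (1 : ℝ) else 0) := by
    rw [Finset.mul_sum]
    refine Finset.sum_le_sum fun i hi => ?_
    have := mul_le_mul_of_nonneg_left (h6 i hi) (hℓ0 i)
    linarith
  have h10 : ∑ i ∈ B, ℓ i * G.cE Ω ∅ i (fun _ => 1) = ∑ i ∈ B, ℓ i := by
    refine Finset.sum_congr rfl fun i _ => ?_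
    rw [h5, mul_one]
  rw [h10] at hℓ1
  rw [← hℓ1] at h4 h2
  rw [h3] at h2
  rw [h2]
  nlinarith

/-- dynamic programming value of the game -/
noncomputable def val (Ω : Finset E) (B : Finset V) (b : V) : ℕ → Finset V → ℝ
  | 0, _ => 0
  | n + 1, C => Finset.univ.sup' ⟨(none : Option V), Finset.mem_univ _⟩ (fun o =>
      match o with
      | none => 0
      | some x => G.ex (G.off Ω C) (fun S =>
          if Disjoint (G.cl S {x}) B then val Ω B b n (C ∪ G.cl S {x})
          else if b ∈ C ∪ G.cl S {x} then 0 else 1))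

theorem val_succ_ge (Ω : Finset E) (B : Finset V) (b : V) (n : ℕ) (C : Finset V) (x : V) :
    G.ex (G.off Ω C) (fun S =>
          if Disjoint (G.cl S {x}) B then G.val Ω B b n (C ∪ G.cl S {x})
          else if b ∈ C ∪ G.cl S {x} then 0 else 1) ≤ G.val Ω B b (n + 1) C := by
  simp only [val]
  exact Finset.le_sup' (f := fun o : Option V =>
      match o with
      | none => (0 : ℝ)
      | some x => G.ex (G.off Ω C) (fun S =>
          if Disjoint (G.cl S {x}) B then G.val Ω B b n (C ∪ G.cl S {x})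
          else if b ∈ C ∪ G.cl S {x} then 0 else 1)) (Finset.mem_univ (some x))

theorem val_succ_nonneg (Ω : Finset E) (B : Finset V) (b : V) (n : ℕ) (C : Finset V) :
    0 ≤ G.val Ω B b (n + 1) C := by
  simp only [val]
  exact Finset.le_sup' (f := fun o : Option V =>
      match o with
      | none => (0 : ℝ)
      | some x => G.ex (G.off Ω C) (fun S =>
          if Disjoint (G.cl S {x}) B then G.val Ω B b n (C ∪ G.cl S {x})
          else if b ∈ C ∪ G.cl S {x} then 0 else 1)) (Finset.mem_univ none)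

theorem val_succ_le (Ω : Finset E) (B : Finset V) (b : V) (n : ℕ) (C : Finset V) {M : ℝ}
    (h0 : 0 ≤ M) (h : ∀ x, G.ex (G.off Ω C) (fun S =>
          if Disjoint (G.cl S {x}) B then G.val Ω B b n (C ∪ G.cl S {x})
          else if b ∈ C ∪ G.cl S {x} then 0 else 1) ≤ M) :
    G.val Ω B b (n + 1) C ≤ M := by
  simp only [val]
  refine Finset.sup'_le _ _ fun o _ => ?_
  cases o with
  | none => exact h0
  | some x => exact h x

theorem exists_strategy (Ω : Finset E) (B : Finset V) (b : V) :
    ∃ q : ℕ → Finset V → Option V, ∀ n C,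
      G.val Ω B b n C = G.run Ω B q (fun _ => 0) (fun C D => if b ∈ C ∪ D then 0 else 1) n C := by
  have h : ∀ n C, ∃ o : Option V, G.val Ω B b (n + 1) C = (match o with
      | none => (0 : ℝ)
      | some x => G.ex (G.off Ω C) (fun S =>
          if Disjoint (G.cl S {x}) B then G.val Ω B b n (C ∪ G.cl S {x})
          else if b ∈ C ∪ G.cl S {x} then 0 else 1)) := by
    intro n C
    obtain ⟨o, _, ho⟩ := Finset.exists_mem_eq_sup' (s := (Finset.univ : Finset (Option V)))
      ⟨(none : Option V), Finset.mem_univ _⟩ (fun o =>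
      match o with
      | none => (0 : ℝ)
      | some x => G.ex (G.off Ω C) (fun S =>
          if Disjoint (G.cl S {x}) B then G.val Ω B b n (C ∪ G.cl S {x})
          else if b ∈ C ∪ G.cl S {x} then 0 else 1))
    exact ⟨o, ho⟩
  choose q hq using h
  refine ⟨q, fun n => ?_⟩
  induction n with
  | zero => intro C; rfl
  | succ n ih =>
    intro C
    rw [hq n C]
    simp only [run]
    cases q n C with
    | none => rfl
    | some x =>
      simp only
      refine G.ex_congr fun S _ => ?_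
      split_ifs
      · exact ih _
      · rfl
      · rfl

theorem val_nonneg (Ω : Finset E) (B : Finset V) (b : V) (n : ℕ) (C : Finset V) :
    0 ≤ G.val Ω B b n C := by
  cases n with
  | zero => exact le_refl _
  | succ n => exact G.val_succ_nonneg Ω B b n C

theorem val_mono (Ω : Finset E) (B : Finset V) (b : V) (n : ℕ) :
    ∀ C, G.val Ω B b n C ≤ G.val Ω B b (n + 1) C := by
  induction n with
  | zero => intro C; exact G.val_nonneg Ω B b 1 C
  | succ n ih =>
    intro C
    refine G.val_succ_le Ω B b n C (G.val_nonneg _ _ _ _ _) fun x => ?_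
    refine le_trans ?_ (G.val_succ_ge Ω B b (n + 1) C x)
    refine G.ex_mono fun S _ => ?_
    split_ifs
    · exact ih _
    · exact le_refl _
    · exact le_refl _

theorem val_le_one (Ω : Finset E) (B : Finset V) (b : V) (n : ℕ) (C : Finset V) :
    G.val Ω B b n C ≤ 1 := by
  obtain ⟨q, hq⟩ := G.exists_strategy Ω B b
  rw [hq]
  exact G.run_le_one (fun _ => zero_le_one) (fun _ _ => by split_ifs <;> norm_num) n C

theorem val_zero_of_mem (Ω : Finset E) (B : Finset V) {b : V} (n : ℕ) :
    ∀ C, b ∈ C → G.val Ω B b n C = 0 := by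
  induction n with
  | zero => intro C _; rfl
  | succ n ih =>
    intro C hb
    refine le_antisymm (G.val_succ_le Ω B b n C (le_refl _) fun x => ?_)
      (G.val_nonneg _ _ _ _ _)
    refine G.ex_le_of_le fun S _ => ?_
    have hb' : b ∈ C ∪ G.cl S {x} := Finset.mem_union_left _ hb
    rw [ih _ hb', if_pos hb']
    simp

/-- **superharmonic potential** of the adaptive Kozma–Nitzan game -/
theorem exists_potential (Ω : Finset E) (B : Finset V) (b : V) {ε : ℝ} (hε0 : 0 ≤ ε)
    (hε : ∀ y ∈ B, G.ex Ω (fun S => if b ∈ G.cl S {y} then 0 else 1) ≤ ε) :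
    ∃ W : Finset V → ℝ, (∀ C, 0 ≤ W C) ∧ (∀ C, W C ≤ 1) ∧ W ∅ ≤ ε ∧
      (∀ C, ¬ Disjoint C B → b ∉ C → W C = 1) ∧ (∀ C, b ∈ C → W C = 0) ∧
      ∀ C x, G.ex (G.off Ω C) (fun S => W (C ∪ G.cl S {x})) ≤ W C := by
  have hlim : ∀ C, Tendsto (fun n => G.val Ω B b n C) atTop (𝓝 (⨆ n, G.val Ω B b n C)) := by
    intro C
    refine tendsto_atTop_ciSup (monotone_nat_of_le_succ fun n => G.val_mono Ω B b n C) ?_
    exact ⟨1, by rintro _ ⟨n, rfl⟩; exact G.val_le_one Ω B b n C⟩
  set v : Finset V → ℝ := fun C => ⨆ n, G.val Ω B b n C with hv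
  have hvle : ∀ C n, G.val Ω B b n C ≤ v C := by
    intro C n
    exact le_ciSup (f := fun n => G.val Ω B b n C)
      ⟨1, by rintro _ ⟨n, rfl⟩; exact G.val_le_one Ω B b n C⟩ n
  have hv0 : ∀ C, 0 ≤ v C := fun C => (G.val_nonneg Ω B b 0 C).trans (hvle C 0)
  have hv1 : ∀ C, v C ≤ 1 := fun C => ciSup_le fun n => G.val_le_one Ω B b n C
  have hvb : ∀ C, b ∈ C → v C = 0 := by
    intro C hb
    simp only [hv]
    simp only [G.val_zero_of_mem Ω B _ C hb]
    exact ciSup_const
  refine ⟨fun C => if Disjoint C B then v C else if b ∈ C then 0 else 1, ?_, ?_, ?_, ?_, ?_, ?_⟩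
  · intro C; simp only; split_ifs
    · exact hv0 C
    · exact le_refl _
    · exact zero_le_one
  · intro C; simp only; split_ifs
    · exact hv1 C
    · exact zero_le_one
    · exact le_refl _
  · simp only [Finset.disjoint_empty_left, if_true]
    refine ciSup_le fun n => ?_
    obtain ⟨q, hq⟩ := G.exists_strategy Ω B b
    rw [hq]
    exact G.adaptive_KN Ω B b hε0 hε q n
  · intro C h1 h2
    simp only [if_neg h1, if_neg h2]
  · intro C hb
    simp only [if_pos hb]
    split_ifs
    · exact hvb C hb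
    · rfl
  · intro C x
    by_cases hC : Disjoint C B
    · simp only [if_pos hC]
      have hlim2 : Tendsto (fun n => G.ex (G.off Ω C) (fun S =>
          if Disjoint (G.cl S {x}) B then G.val Ω B b n (C ∪ G.cl S {x})
          else if b ∈ C ∪ G.cl S {x} then 0 else 1)) atTop
          (𝓝 (G.ex (G.off Ω C) (fun S => if Disjoint (C ∪ G.cl S {x}) B then
            v (C ∪ G.cl S {x}) else if b ∈ C ∪ G.cl S {x} then 0 else 1))) := by
        unfold ex
        refine tendsto_finsetSum _ fun S _ => ?_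
        refine Tendsto.const_mul _ ?_
        by_cases hd : Disjoint (G.cl S {x}) B
        · have hd' : Disjoint (C ∪ G.cl S {x}) B := Finset.disjoint_union_left.2 ⟨hC, hd⟩
          simp only [if_pos hd, if_pos hd']
          exact hlim _
        · have hd' : ¬ Disjoint (C ∪ G.cl S {x}) B := fun h =>
            hd (Finset.disjoint_union_left.1 h).2
          simp only [if_neg hd, if_neg hd']
          exact tendsto_const_nhds
      refine le_of_tendsto' hlim2 fun n => ?_
      exact (G.val_succ_ge Ω B b n C x).trans (hvle C (n + 1))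
    · simp only [if_neg hC]
      refine G.ex_le_of_le fun S _ => ?_
      have hd' : ¬ Disjoint (C ∪ G.cl S {x}) B := fun h =>
            hC (Finset.disjoint_union_left.1 h).1
      rw [if_neg hd']
      by_cases hb : b ∈ C
      · rw [if_pos (Finset.mem_union_left _ hb), if_pos hb]
      · rw [if_neg hb]; split_ifs <;> norm_num

/-! ### product inequality -/

theorem cl_reveal {S₀ S₁ S₂ : Finset E} {K : Finset V} {x : V} (hx : x ∈ K) :
    G.cl (S₀ ∪ (S₁ ∪ S₂)) K
      = G.cl (S₀ ∪ (G.off S₁ (G.cl S₁ {x}) ∪ S₂)) (K ∪ G.cl S₁ {x}) := by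
  set D := G.cl S₁ {x} with hD
  apply Finset.Subset.antisymm
  · refine G.cl_subset (Finset.subset_union_left.trans (G.subset_cl _ _)) ?_
    intro e he
    have hsat := G.sat_cl (S₀ ∪ (G.off S₁ D ∪ S₂)) (K ∪ D)
    rcases Finset.mem_union.1 he with h | h
    · exact hsat e (Finset.mem_union_left _ h)
    · rcases Finset.mem_union.1 h with h | h
      · by_cases hd : Disjoint (G.inc e) D
        · exact hsat e (Finset.mem_union_right _ (Finset.mem_union_left _
            ((G.mem_off).2 ⟨h, hd⟩)))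
        · left
          rcases G.sat_cl S₁ {x} e h with h1 | h1
          · exact h1.trans (Finset.subset_union_right.trans (G.subset_cl _ _))
          · exact absurd h1 hd
      · exact hsat e (Finset.mem_union_right _ (Finset.mem_union_right _ h))
  · refine G.cl_subset ?_ ?_
    · apply Finset.union_subset (G.subset_cl _ _)
      refine G.cl_subset ?_ ?_
      · rw [Finset.singleton_subset_iff]
        exact G.subset_cl _ _ hx
      · exact (G.sat_cl _ K).mono
          (Finset.subset_union_left.trans Finset.subset_union_right)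
    · refine (G.sat_cl _ K).mono ?_
      exact Finset.union_subset_union (Finset.Subset.refl _)
        (Finset.union_subset_union (G.off_subset _ _) (Finset.Subset.refl _))

/-- **product of superharmonic potentials** in disjoint regions bounds the joint exploration of
the cluster of `K` (any configuration `S₀` outside the regions). -/
theorem product_bound {ι : Type*} [DecidableEq ι] (J : Finset ι) (Reg : ι → Finset E)
    (hdisj : ∀ i ∈ J, ∀ j ∈ J, i ≠ j → Disjoint (Reg i) (Reg j)) (S₀ : Finset E)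
    (W : ι → Finset V → ℝ) (hW0 : ∀ j ∈ J, ∀ C, 0 ≤ W j C)
    (hWs : ∀ j ∈ J, ∀ C x, G.ex (G.off (Reg j) C) (fun S => W j (C ∪ G.cl S {x})) ≤ W j C)
    (f : Finset V → ℝ) (hf : ∀ F, f F ≤ ∏ j ∈ J, W j F) (m : ℕ) :
    ∀ (C : ι → Finset V) (K : Finset V), (∀ j ∈ J, C j ⊆ K) →
      ∑ j ∈ J, ((C j)ᶜ).card + (Kᶜ).card = m →
      G.ex (J.biUnion fun j => G.off (Reg j) (C j)) (fun S => f (G.cl (S₀ ∪ S) K))
        ≤ ∏ j ∈ J, W j (C j) := by
  induction m using Nat.strong_induction_on with
  | _ m ih =>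
    intro C K hCK hm
    by_cases hcase : ∃ j ∈ J, ∃ x ∈ K, x ∉ C j
    · obtain ⟨j, hj, x, hxK, hxC⟩ := hcase
      set rest := (J.erase j).biUnion fun i => G.off (Reg i) (C i) with hrest
      have hdr : ∀ T : Finset V, Disjoint (G.off (Reg j) T) rest := by
        intro T
        rw [hrest, Finset.disjoint_biUnion_right]
        intro i hi
        rw [Finset.mem_erase] at hi
        exact Finset.disjoint_of_subset_left (G.off_subset _ _)
          (Finset.disjoint_of_subset_right (G.off_subset _ _) (hdisj j hj i hi.2 hi.1.symm))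
      have hsplit : (J.biUnion fun i => G.off (Reg i) (C i)) = G.off (Reg j) (C j) ∪ rest := by
        rw [hrest]
        conv_lhs => rw [← Finset.insert_erase hj]
        rw [Finset.biUnion_insert]
      rw [hsplit, G.ex_union (hdr _)]
      -- rewrite through the revealed cluster
      have h1 : G.ex (G.off (Reg j) (C j)) (fun S₁ => G.ex rest
            (fun S₂ => f (G.cl (S₀ ∪ (S₁ ∪ S₂)) K)))
          = G.ex (G.off (Reg j) (C j)) (fun S₁ => (fun D S' => G.ex rest
            (fun S₂ => f (G.cl (S₀ ∪ (S' ∪ S₂)) (K ∪ D)))) (G.cl S₁ {x})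
              (G.off S₁ (G.cl S₁ {x}))) := by
        refine G.ex_congr fun S₁ _ => ?_
        refine G.ex_congr fun S₂ _ => ?_
        rw [G.cl_reveal hxK]
      rw [h1, G.resample (G.off (Reg j) (C j)) {x} (fun D S' => G.ex rest
            (fun S₂ => f (G.cl (S₀ ∪ (S' ∪ S₂)) (K ∪ D))))]
      -- induction hypothesis for each revealed cluster
      have h2 : ∀ S₁, S₁ ⊆ G.off (Reg j) (C j) →
          G.ex (G.off (G.off (Reg j) (C j)) (G.cl S₁ {x})) (fun S' => G.ex rest
            (fun S₂ => f (G.cl (S₀ ∪ (S' ∪ S₂)) (K ∪ G.cl S₁ {x}))))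
          ≤ W j (C j ∪ G.cl S₁ {x}) * ∏ i ∈ J.erase j, W i (C i) := by
        intro S₁ _
        set D := G.cl S₁ {x} with hD
        have hxD : x ∈ D := G.subset_cl S₁ {x} (Finset.mem_singleton_self x)
        set C' := Function.update C j (C j ∪ D) with hC'
        have hC'j : C' j = C j ∪ D := Function.update_self _ _ _
        have hC'i : ∀ i ∈ J.erase j, C' i = C i := fun i hi =>
          Function.update_of_ne (Finset.ne_of_mem_erase hi) _ _
        have hsplit' : (J.biUnion fun i => G.off (Reg i) (C' i))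
            = G.off (Reg j) (C j ∪ D) ∪ rest := by
          rw [hrest]
          conv_lhs => rw [← Finset.insert_erase hj]
          rw [Finset.biUnion_insert, hC'j]
          congr 1
          refine Finset.biUnion_congr rfl fun i hi => ?_
          rw [hC'i i hi]
        have hsub' : ∀ i ∈ J, C' i ⊆ K ∪ D := by
          intro i hi
          by_cases hij : i = j
          · subst hij
            rw [hC'j]
            exact Finset.union_subset_union (hCK i hi) (Finset.Subset.refl _)
          · rw [hC'i i (Finset.mem_erase.2 ⟨hij, hi⟩)]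
            exact (hCK i hi).trans Finset.subset_union_left
        have hlt : ∑ i ∈ J, ((C' i)ᶜ).card + ((K ∪ D)ᶜ).card < m := by
          have e1 : ∑ i ∈ J, ((C' i)ᶜ).card < ∑ i ∈ J, ((C i)ᶜ).card := by
            refine Finset.sum_lt_sum (fun i hi => ?_) ⟨j, hj, ?_⟩
            · by_cases hij : i = j
              · subst hij
                rw [hC'j]
                exact Finset.card_le_card (Finset.compl_subset_compl.2 Finset.subset_union_left)
              · rw [hC'i i (Finset.mem_erase.2 ⟨hij, hi⟩)]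
            · rw [hC'j]
              refine Finset.card_lt_card ?_
              rw [Finset.ssubset_iff_of_subset
                (Finset.compl_subset_compl.2 Finset.subset_union_left)]
              exact ⟨x, by simpa using hxC, by simp [hxD]⟩
          have e2 : ((K ∪ D)ᶜ).card ≤ (Kᶜ).card :=
            Finset.card_le_card (Finset.compl_subset_compl.2 Finset.subset_union_left)
          omega
        have h3 := ih _ hlt C' (K ∪ D) hsub' rfl
        rw [hsplit', G.ex_union (hdr _)] at h3
        rw [G.off_off]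
        refine h3.trans (le_of_eq ?_)
        rw [← Finset.mul_prod_erase J (fun i => W i (C' i)) hj, hC'j]
        congr 1
        exact Finset.prod_congr rfl fun i hi => by rw [hC'i i hi]
      refine (G.ex_mono h2).trans ?_
      rw [G.ex_mul_right, ← Finset.mul_prod_erase J (fun i => W i (C i)) hj]
      refine mul_le_mul_of_nonneg_right (hWs j hj (C j) x) ?_
      exact Finset.prod_nonneg fun i hi => hW0 i (Finset.mem_of_mem_erase hi) _
    · push Not at hcase
      have hCeq : ∀ j ∈ J, C j = K := fun j hj =>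
        Finset.Subset.antisymm (hCK j hj) (fun x hx => hcase j hj x hx)
      by_cases hK : G.cl S₀ K = K
      · have hval : ∀ S, S ⊆ (J.biUnion fun j => G.off (Reg j) (C j)) →
            G.cl (S₀ ∪ S) K = K := by
          intro S hS
          refine G.cl_eq_of_sat ?_
          intro e he
          rcases Finset.mem_union.1 he with h | h
          · have := G.sat_cl S₀ K e h
            rwa [hK] at this
          · have h1 := hS h
            rw [Finset.mem_biUnion] at h1
            obtain ⟨j, hj, h2⟩ := h1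
            rw [hCeq j hj] at h2
            exact Or.inr ((G.mem_off).1 h2).2
        refine G.ex_le_of_le fun S hS => ?_
        rw [hval S hS]
        refine (hf K).trans (le_of_eq ?_)
        exact Finset.prod_congr rfl fun j hj => by rw [hCeq j hj]
      · have hsub : K ⊆ G.cl S₀ K := G.subset_cl S₀ K
        have hlt : ∑ i ∈ J, ((C i)ᶜ).card + ((G.cl S₀ K)ᶜ).card < m := by
          have : ((G.cl S₀ K)ᶜ).card < (Kᶜ).card := by
            refine Finset.card_lt_card ?_
            rw [Finset.compl_ssubset_compl]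
            exact Finset.ssubset_iff_subset_ne.2 ⟨hsub, fun h => hK h.symm⟩
          omega
        have h3 := ih _ hlt C (G.cl S₀ K) (fun j hj => (hCK j hj).trans hsub) rfl
        refine le_trans (le_of_eq ?_) h3
        refine G.ex_congr fun S _ => ?_
        congr 1
        apply Finset.Subset.antisymm
        · exact G.cl_mono (Finset.Subset.refl _) hsub
        · refine G.cl_subset ?_ (G.sat_cl _ _)
          exact G.cl_mono Finset.subset_union_left (Finset.Subset.refl _)

/-- **PKN** with a fixed outside configuration `S₀`. -/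
theorem PKN_cond {ι : Type*} [DecidableEq ι] (J : Finset ι) (Reg : ι → Finset E)
    (hdisj : ∀ i ∈ J, ∀ j ∈ J, i ≠ j → Disjoint (Reg i) (Reg j)) (S₀ : Finset E)
    (B : ι → Finset V) (b : ι → V) (ε : ι → ℝ) (hε0 : ∀ j ∈ J, 0 ≤ ε j)
    (hε : ∀ j ∈ J, ∀ y ∈ B j,
      G.ex (Reg j) (fun S => if b j ∈ G.cl S {y} then 0 else 1) ≤ ε j) (A : Finset V) :
    G.ex (J.biUnion Reg) (fun S =>
        if ∀ j ∈ J, ¬ Disjoint (G.cl (S₀ ∪ S) A) (B j) ∧ b j ∉ G.cl (S₀ ∪ S) A then 1 else 0)
      ≤ ∏ j ∈ J, ε j := by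
  classical
  have hex : ∀ j : ι, ∃ W : Finset V → ℝ, j ∈ J → ((∀ C, 0 ≤ W C) ∧ (∀ C, W C ≤ 1) ∧ W ∅ ≤ ε j ∧
      (∀ C, ¬ Disjoint C (B j) → b j ∉ C → W C = 1) ∧ (∀ C, b j ∈ C → W C = 0) ∧
      ∀ C x, G.ex (G.off (Reg j) C) (fun S => W (C ∪ G.cl S {x})) ≤ W C) := by
    intro j
    by_cases hj : j ∈ J
    · obtain ⟨W, hW⟩ := G.exists_potential (Reg j) (B j) (b j) (hε0 j hj) (hε j hj)
      exact ⟨W, fun _ => hW⟩
    · exact ⟨fun _ => 0, fun h => absurd h hj⟩
  choose W hW using hex
  have h1 := G.product_bound J Reg hdisj S₀ W (fun j hj C => (hW j hj).1 C)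
    (fun j hj => (hW j hj).2.2.2.2.2)
    (fun F => if ∀ j ∈ J, ¬ Disjoint F (B j) ∧ b j ∉ F then 1 else 0) ?_ _
    (fun _ => ∅) A (fun _ _ => Finset.empty_subset _) rfl
  · simp only [off_empty] at h1
    refine h1.trans ?_
    exact Finset.prod_le_prod (fun j hj => (hW j hj).1 ∅) (fun j hj => (hW j hj).2.2.1)
  · intro F
    split_ifs with h
    · refine le_of_eq ?_
      symm
      exact Finset.prod_eq_one fun j hj => (hW j hj).2.2.2.1 F (h j hj).1 (h j hj).2
    · exact Finset.prod_nonneg fun j hj => (hW j hj).1 F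

/-- **PKN** (product Kozma–Nitzan). -/
theorem PKN {ι : Type*} [DecidableEq ι] (Ω : Finset E) (J : Finset ι) (Reg : ι → Finset E)
    (hReg : ∀ j ∈ J, Reg j ⊆ Ω)
    (hdisj : ∀ i ∈ J, ∀ j ∈ J, i ≠ j → Disjoint (Reg i) (Reg j))
    (B : ι → Finset V) (b : ι → V) (ε : ι → ℝ) (hε0 : ∀ j ∈ J, 0 ≤ ε j)
    (hε : ∀ j ∈ J, ∀ y ∈ B j,
      G.ex (Reg j) (fun S => if b j ∈ G.cl S {y} then 0 else 1) ≤ ε j) (A : Finset V) :
    G.ex Ω (fun S =>
        if ∀ j ∈ J, ¬ Disjoint (G.cl S A) (B j) ∧ b j ∉ G.cl S A then 1 else 0)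
      ≤ ∏ j ∈ J, ε j := by
  set U := J.biUnion Reg with hU
  have hUΩ : U ⊆ Ω := by
    rw [hU]; exact Finset.biUnion_subset.2 hReg
  have hΩ : Ω = (Ω \ U) ∪ U := by rw [Finset.sdiff_union_of_subset hUΩ]
  rw [hΩ, G.ex_union Finset.sdiff_disjoint]
  refine G.ex_le_of_le fun S₀ _ => ?_
  exact G.PKN_cond J Reg hdisj S₀ B b ε hε0 hε A

end HG

end Crest.Agent.R147.KN
private theorem rz_ca4327ca90 : type_of% @_root_.Crest.Agent.R147.KN.HG.val.eq_def := @_root_.Crest.Agent.R147.KN.HG.val.eq_def -- L95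
private theorem rz_8c4b950299 : type_of% @_root_.Crest.Agent.R147.KN.HG.val.eq_1 := @_root_.Crest.Agent.R147.KN.HG.val.eq_1 -- L95
end

-- ▼ part R147/Sc113Q
section

/-!
# Product Kozma–Nitzan inequality for general monotone targets

Same as `KN/PKN.lean`, with the target vertex `b` replaced by a monotone predicate `Q` of the
cluster.
-/

set_option autoImplicit false
set_option linter.unusedSectionVars false

open Finset Filter Topology

namespace Crest.Agent.R147.Sc

open Crest.Agent.R147.KN Crest.Agent.R147.KN.HG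

variable {V E : Type*} [DecidableEq V] [DecidableEq E] [Fintype V] (G : HG V E)

/-- indicator of the failure of the target -/
noncomputable def bad (Q : Finset V → Prop) (C : Finset V) : ℝ :=
  open Classical in if Q C then 0 else 1

theorem bad_nonneg (Q : Finset V → Prop) (C : Finset V) : 0 ≤ bad Q C := by
  unfold bad; split_ifs <;> norm_num

theorem bad_le_one (Q : Finset V → Prop) (C : Finset V) : bad Q C ≤ 1 := by
  unfold bad; split_ifs <;> norm_num

theorem bad_of {Q : Finset V → Prop} {C : Finset V} (h : Q C) : bad Q C = 0 := by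
  unfold bad; rw [if_pos h]

theorem bad_of_not {Q : Finset V → Prop} {C : Finset V} (h : ¬ Q C) : bad Q C = 1 := by
  unfold bad; rw [if_neg h]

theorem bad_anti {Q : Finset V → Prop} (hQ : ∀ F F', F ⊆ F' → Q F → Q F') {C C' : Finset V}
    (h : C ⊆ C') : bad Q C' ≤ bad Q C := by
  by_cases h1 : Q C
  · rw [bad_of h1, bad_of (hQ _ _ h h1)]
  · rw [bad_of_not h1]; exact bad_le_one _ _

/-- **adaptive Kozma–Nitzan** for a monotone target -/
theorem adaptive_KNQ (Ω : Finset E) (B : Finset V) (Q : Finset V → Prop)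
    (hQ : ∀ F F', F ⊆ F' → Q F → Q F') {ε : ℝ} (hε0 : 0 ≤ ε)
    (hε : ∀ y ∈ B, G.ex Ω (fun S => bad Q (G.cl S {y})) ≤ ε)
    (q : ℕ → Finset V → Option V) (n : ℕ) :
    G.run Ω B q (fun _ => 0) (fun C D => bad Q (C ∪ D)) n ∅ ≤ ε := by
  obtain ⟨ℓ, hℓ0, hℓu, hℓ1⟩ := G.Tstar Ω B q n B ∅ (Finset.disjoint_empty_right _)
    (Finset.union_empty B).symm
  have humono : Monotone (fun R : Finset V => 1 - bad Q R) := by
    intro R R' h
    have := bad_anti hQ h
    simp only
    linarith
  have h1 := hℓu _ humono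
  have h2 := G.run_sub (Ω := Ω) (Z := B) (q := q) (Φ₀ := fun _ => 0)
        (Φ₁ := fun _ D => if Disjoint D ∅ then 1 else 0) (Φ₀' := fun _ => 0)
        (Φ₁' := fun C D => if Disjoint D ∅ then (1 - bad Q (C ∪ D)) else 0) 1 n ∅
  have h3 : G.run Ω B q (fun _ => (0 : ℝ) - 1 * 0)
        (fun C D => (if Disjoint D ∅ then 1 else 0)
          - 1 * (if Disjoint D ∅ then (1 - bad Q (C ∪ D)) else 0)) n ∅
      = G.run Ω B q (fun _ => 0) (fun C D => bad Q (C ∪ D)) n ∅ := by
    refine G.run_congr (fun _ _ => by ring) (fun C D _ _ => ?_) n ∅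
      (Finset.disjoint_empty_left _)
    rw [if_pos (Finset.disjoint_empty_right _), if_pos (Finset.disjoint_empty_right _)]
    ring
  have h4 : G.run Ω B q (fun _ => 0) (fun _ D => if Disjoint D ∅ then 1 else 0) n ∅ ≤ 1 :=
    G.run_le_one (fun _ => zero_le_one) (fun _ D => by split_ifs <;> norm_num) n ∅
  have h5 : ∀ i, G.cE Ω ∅ i (fun _ => 1) = 1 := by
    intro i
    unfold HG.cE
    simp only [Finset.disjoint_empty_right, if_true]
    rw [G.ex_const]
  have h6 : ∀ i ∈ B, 1 - ε ≤ G.cE Ω ∅ i (fun R => 1 - bad Q R) := by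
    intro i hi
    have h7 := hε i hi
    have h8 : G.cE Ω ∅ i (fun R => 1 - bad Q R)
        = 1 - G.ex Ω (fun S => bad Q (G.cl S {i})) := by
      have h11 := G.ex_sub Ω (fun _ => (1 : ℝ)) (fun S => bad Q (G.cl S {i}))
      rw [G.ex_const] at h11
      rw [← h11]
      unfold HG.cE
      refine G.ex_congr fun S _ => ?_
      simp only [Finset.disjoint_empty_right, if_true]
    linarith
  have h9 : (1 - ε) * ∑ i ∈ B, ℓ i
      ≤ ∑ i ∈ B, ℓ i * G.cE Ω ∅ i (fun R => 1 - bad Q R) := by
    rw [Finset.mul_sum]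
    refine Finset.sum_le_sum fun i hi => ?_
    have := mul_le_mul_of_nonneg_left (h6 i hi) (hℓ0 i)
    linarith
  have h10 : ∑ i ∈ B, ℓ i * G.cE Ω ∅ i (fun _ => 1) = ∑ i ∈ B, ℓ i := by
    refine Finset.sum_congr rfl fun i _ => ?_
    rw [h5, mul_one]
  rw [h10] at hℓ1
  rw [← hℓ1] at h4 h2
  rw [h3] at h2
  rw [h2]
  nlinarith

/-- dynamic programming value of the game -/
noncomputable def valQ (Ω : Finset E) (B : Finset V) (Q : Finset V → Prop) :
    ℕ → Finset V → ℝ
  | 0, _ => 0
  | n + 1, C => Finset.univ.sup' ⟨(none : Option V), Finset.mem_univ _⟩ (fun o =>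
      match o with
      | none => 0
      | some x => G.ex (G.off Ω C) (fun S =>
          if Disjoint (G.cl S {x}) B then valQ Ω B Q n (C ∪ G.cl S {x})
          else bad Q (C ∪ G.cl S {x})))

theorem valQ_succ_ge (Ω : Finset E) (B : Finset V) (Q : Finset V → Prop) (n : ℕ)
    (C : Finset V) (x : V) :
    G.ex (G.off Ω C) (fun S =>
          if Disjoint (G.cl S {x}) B then valQ G Ω B Q n (C ∪ G.cl S {x})
          else bad Q (C ∪ G.cl S {x})) ≤ valQ G Ω B Q (n + 1) C := by
  simp only [valQ]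
  exact Finset.le_sup' (f := fun o : Option V =>
      match o with
      | none => (0 : ℝ)
      | some x => G.ex (G.off Ω C) (fun S =>
          if Disjoint (G.cl S {x}) B then valQ G Ω B Q n (C ∪ G.cl S {x})
          else bad Q (C ∪ G.cl S {x}))) (Finset.mem_univ (some x))

theorem valQ_succ_nonneg (Ω : Finset E) (B : Finset V) (Q : Finset V → Prop) (n : ℕ)
    (C : Finset V) : 0 ≤ valQ G Ω B Q (n + 1) C := by
  simp only [valQ]
  exact Finset.le_sup' (f := fun o : Option V =>
      match o with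
      | none => (0 : ℝ)
      | some x => G.ex (G.off Ω C) (fun S =>
          if Disjoint (G.cl S {x}) B then valQ G Ω B Q n (C ∪ G.cl S {x})
          else bad Q (C ∪ G.cl S {x}))) (Finset.mem_univ none)

theorem valQ_succ_le (Ω : Finset E) (B : Finset V) (Q : Finset V → Prop) (n : ℕ)
    (C : Finset V) {M : ℝ}
    (h0 : 0 ≤ M) (h : ∀ x, G.ex (G.off Ω C) (fun S =>
          if Disjoint (G.cl S {x}) B then valQ G Ω B Q n (C ∪ G.cl S {x})
          else bad Q (C ∪ G.cl S {x})) ≤ M) :
    valQ G Ω B Q (n + 1) C ≤ M := by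
  simp only [valQ]
  refine Finset.sup'_le _ _ fun o _ => ?_
  cases o with
  | none => exact h0
  | some x => exact h x

theorem exists_strategyQ (Ω : Finset E) (B : Finset V) (Q : Finset V → Prop) :
    ∃ q : ℕ → Finset V → Option V, ∀ n C,
      valQ G Ω B Q n C = G.run Ω B q (fun _ => 0) (fun C D => bad Q (C ∪ D)) n C := by
  have h : ∀ n C, ∃ o : Option V, valQ G Ω B Q (n + 1) C = (match o with
      | none => (0 : ℝ)
      | some x => G.ex (G.off Ω C) (fun S =>
          if Disjoint (G.cl S {x}) B then valQ G Ω B Q n (C ∪ G.cl S {x})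
          else bad Q (C ∪ G.cl S {x}))) := by
    intro n C
    obtain ⟨o, _, ho⟩ := Finset.exists_mem_eq_sup' (s := (Finset.univ : Finset (Option V)))
      ⟨(none : Option V), Finset.mem_univ _⟩ (fun o =>
      match o with
      | none => (0 : ℝ)
      | some x => G.ex (G.off Ω C) (fun S =>
          if Disjoint (G.cl S {x}) B then valQ G Ω B Q n (C ∪ G.cl S {x})
          else bad Q (C ∪ G.cl S {x})))
    exact ⟨o, ho⟩
  choose q hq using h
  refine ⟨q, fun n => ?_⟩
  induction n with
  | zero => intro C; rfl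
  | succ n ih =>
    intro C
    rw [hq n C]
    simp only [HG.run]
    cases q n C with
    | none => rfl
    | some x =>
      simp only
      refine G.ex_congr fun S _ => ?_
      split_ifs
      · exact ih _
      · rfl

theorem valQ_nonneg (Ω : Finset E) (B : Finset V) (Q : Finset V → Prop) (n : ℕ)
    (C : Finset V) : 0 ≤ valQ G Ω B Q n C := by
  cases n with
  | zero => exact le_refl _
  | succ n => exact valQ_succ_nonneg G Ω B Q n C

theorem valQ_mono (Ω : Finset E) (B : Finset V) (Q : Finset V → Prop) (n : ℕ) :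
    ∀ C, valQ G Ω B Q n C ≤ valQ G Ω B Q (n + 1) C := by
  induction n with
  | zero => intro C; exact valQ_nonneg G Ω B Q 1 C
  | succ n ih =>
    intro C
    refine valQ_succ_le G Ω B Q n C (valQ_nonneg G _ _ _ _ _) fun x => ?_
    refine le_trans ?_ (valQ_succ_ge G Ω B Q (n + 1) C x)
    refine G.ex_mono fun S _ => ?_
    split_ifs
    · exact ih _
    · exact le_refl _

theorem valQ_le_one (Ω : Finset E) (B : Finset V) (Q : Finset V → Prop) (n : ℕ)
    (C : Finset V) : valQ G Ω B Q n C ≤ 1 := by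
  obtain ⟨q, hq⟩ := exists_strategyQ G Ω B Q
  rw [hq]
  exact G.run_le_one (fun _ => zero_le_one) (fun _ _ => bad_le_one _ _) n C

/-- **superharmonic potential** of the adaptive Kozma–Nitzan game with a monotone target -/
theorem exists_potentialQ (Ω : Finset E) (B : Finset V) (Q : Finset V → Prop)
    (hQ : ∀ F F', F ⊆ F' → Q F → Q F') {ε : ℝ} (hε0 : 0 ≤ ε)
    (hε : ∀ y ∈ B, G.ex Ω (fun S => bad Q (G.cl S {y})) ≤ ε) :
    ∃ W : Finset V → ℝ, (∀ C, 0 ≤ W C) ∧ (∀ C, W C ≤ 1) ∧ W ∅ ≤ ε ∧
      (∀ C, ¬ Disjoint C B → ¬ Q C → W C = 1) ∧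
      ∀ C x, G.ex (G.off Ω C) (fun S => W (C ∪ G.cl S {x})) ≤ W C := by
  have hlim : ∀ C, Tendsto (fun n => valQ G Ω B Q n C) atTop (𝓝 (⨆ n, valQ G Ω B Q n C)) := by
    intro C
    refine tendsto_atTop_ciSup (monotone_nat_of_le_succ fun n => valQ_mono G Ω B Q n C) ?_
    exact ⟨1, by rintro _ ⟨n, rfl⟩; exact valQ_le_one G Ω B Q n C⟩
  set v : Finset V → ℝ := fun C => ⨆ n, valQ G Ω B Q n C with hv
  have hvle : ∀ C n, valQ G Ω B Q n C ≤ v C := by
    intro C n
    exact le_ciSup (f := fun n => valQ G Ω B Q n C)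
      ⟨1, by rintro _ ⟨n, rfl⟩; exact valQ_le_one G Ω B Q n C⟩ n
  have hv0 : ∀ C, 0 ≤ v C := fun C => (valQ_nonneg G Ω B Q 0 C).trans (hvle C 0)
  have hv1 : ∀ C, v C ≤ 1 := fun C => ciSup_le fun n => valQ_le_one G Ω B Q n C
  refine ⟨fun C => if Disjoint C B then v C else bad Q C, ?_, ?_, ?_, ?_, ?_⟩
  · intro C; simp only; split_ifs
    · exact hv0 C
    · exact bad_nonneg _ _
  · intro C; simp only; split_ifs
    · exact hv1 C
    · exact bad_le_one _ _
  · simp only [Finset.disjoint_empty_left, if_true]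
    refine ciSup_le fun n => ?_
    obtain ⟨q, hq⟩ := exists_strategyQ G Ω B Q
    rw [hq]
    exact adaptive_KNQ G Ω B Q hQ hε0 hε q n
  · intro C h1 h2
    simp only [if_neg h1, bad_of_not h2]
  · intro C x
    by_cases hC : Disjoint C B
    · simp only [if_pos hC]
      have hlim2 : Tendsto (fun n => G.ex (G.off Ω C) (fun S =>
          if Disjoint (G.cl S {x}) B then valQ G Ω B Q n (C ∪ G.cl S {x})
          else bad Q (C ∪ G.cl S {x}))) atTop
          (𝓝 (G.ex (G.off Ω C) (fun S => if Disjoint (C ∪ G.cl S {x}) B then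
            v (C ∪ G.cl S {x}) else bad Q (C ∪ G.cl S {x})))) := by
        unfold HG.ex
        refine tendsto_finsetSum _ fun S _ => ?_
        refine Tendsto.const_mul _ ?_
        by_cases hd : Disjoint (G.cl S {x}) B
        · have hd' : Disjoint (C ∪ G.cl S {x}) B := Finset.disjoint_union_left.2 ⟨hC, hd⟩
          simp only [if_pos hd, if_pos hd']
          exact hlim _
        · have hd' : ¬ Disjoint (C ∪ G.cl S {x}) B := fun h =>
            hd (Finset.disjoint_union_left.1 h).2
          simp only [if_neg hd, if_neg hd']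
          exact tendsto_const_nhds
      refine le_of_tendsto' hlim2 fun n => ?_
      exact (valQ_succ_ge G Ω B Q n C x).trans (hvle C (n + 1))
    · simp only [if_neg hC]
      refine G.ex_le_of_le fun S _ => ?_
      have hd' : ¬ Disjoint (C ∪ G.cl S {x}) B := fun h =>
            hC (Finset.disjoint_union_left.1 h).1
      rw [if_neg hd']
      exact bad_anti hQ Finset.subset_union_left

/-- **PKN with monotone targets** and a fixed outside configuration `S₀`. -/
theorem PKNQ_cond {ι : Type*} [DecidableEq ι] (J : Finset ι) (Reg : ι → Finset E)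
    (hdisj : ∀ i ∈ J, ∀ j ∈ J, i ≠ j → Disjoint (Reg i) (Reg j)) (S₀ : Finset E)
    (B : ι → Finset V) (Q : ι → Finset V → Prop)
    (hQ : ∀ j ∈ J, ∀ F F', F ⊆ F' → Q j F → Q j F') (ε : ι → ℝ) (hε0 : ∀ j ∈ J, 0 ≤ ε j)
    (hε : ∀ j ∈ J, ∀ y ∈ B j, G.ex (Reg j) (fun S => bad (Q j) (G.cl S {y})) ≤ ε j)
    (A : Finset V) (f : Finset V → ℝ)
    (hf0 : ∀ F, f F ≤ 1)
    (hf : ∀ F, (∃ j ∈ J, Disjoint F (B j) ∨ Q j F) → f F ≤ 0) :
    G.ex (J.biUnion Reg) (fun S => f (G.cl (S₀ ∪ S) A)) ≤ ∏ j ∈ J, ε j := by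
  classical
  have hex : ∀ j : ι, ∃ W : Finset V → ℝ, j ∈ J → ((∀ C, 0 ≤ W C) ∧ (∀ C, W C ≤ 1) ∧ W ∅ ≤ ε j ∧
      (∀ C, ¬ Disjoint C (B j) → ¬ Q j C → W C = 1) ∧
      ∀ C x, G.ex (G.off (Reg j) C) (fun S => W (C ∪ G.cl S {x})) ≤ W C) := by
    intro j
    by_cases hj : j ∈ J
    · obtain ⟨W, hW⟩ := exists_potentialQ G (Reg j) (B j) (Q j) (hQ j hj) (hε0 j hj) (hε j hj)
      exact ⟨W, fun _ => hW⟩
    · exact ⟨fun _ => 0, fun h => absurd h hj⟩
  choose W hW using hex
  have h1 := G.product_bound J Reg hdisj S₀ W (fun j hj C => (hW j hj).1 C)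
    (fun j hj => (hW j hj).2.2.2.2) f ?_ _
    (fun _ => ∅) A (fun _ _ => Finset.empty_subset _) rfl
  · simp only [HG.off_empty] at h1
    refine h1.trans ?_
    exact Finset.prod_le_prod (fun j hj => (hW j hj).1 ∅) (fun j hj => (hW j hj).2.2.1)
  · intro F
    by_cases h : ∃ j ∈ J, Disjoint F (B j) ∨ Q j F
    · exact (hf F h).trans (Finset.prod_nonneg fun j hj => (hW j hj).1 F)
    · push Not at h
      refine (hf0 F).trans (le_of_eq ?_)
      symm
      exact Finset.prod_eq_one fun j hj => (hW j hj).2.2.2.1 F (h j hj).1 (h j hj).2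

end Crest.Agent.R147.Sc
private theorem rz_d1e374c27b : type_of% @_root_.Crest.Agent.R147.Sc.valQ.eq_def := @_root_.Crest.Agent.R147.Sc.valQ.eq_def -- L103
private theorem rz_5467aab357 : type_of% @_root_.Crest.Agent.R147.Sc.valQ.eq_1 := @_root_.Crest.Agent.R147.Sc.valQ.eq_1 -- L103
end

-- ▼ part R147/Sc113One
section

/-!
# Screens: one-level estimates

`frz G H` : the hypergraph in which the (open, frozen) hyperedges `H` have been contracted.
`type1` : the product Kozma–Nitzan estimate with frozen edges.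
`type2` : a large set of touched blocks contains a good block.
-/

set_option autoImplicit false
set_option linter.unusedSectionVars false

open Finset

namespace Crest.Agent.R147.Sc

open Crest.Agent.R147.KN Crest.Agent.R147.KN.HG

variable {V E : Type*} [DecidableEq V] [DecidableEq E] [Fintype V] (G : HG V E)

/-! ### freezing -/

/-- contract the frozen open hyperedges `H` -/
noncomputable def frz (H : Finset E) : HG V E where
  inc e := G.cl H (G.inc e)
  p := G.p
  p_nonneg := G.p_nonneg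
  p_lt := G.p_lt

theorem frz_ex (H A : Finset E) (f : Finset E → ℝ) : (frz G H).ex A f = G.ex A f := rfl

theorem frz_cl_of_subset {H S : Finset E} (hHS : H ⊆ S) (D : Finset V) :
    (frz G H).cl S D = G.cl S D := by
  apply Finset.Subset.antisymm
  · refine (frz G H).cl_subset (G.subset_cl S D) ?_
    intro e he
    have hsat : G.Sat H (G.cl S D) := (G.sat_cl S D).mono hHS
    rcases G.sat_cl S D e he with h | h
    · exact Or.inl (G.cl_subset h hsat)
    · exact Or.inr (G.disj_cl_of_sat hsat h)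
  · refine G.cl_subset ((frz G H).subset_cl S D) ?_
    intro e he
    rcases (frz G H).sat_cl S D e he with h | h
    · exact Or.inl ((G.subset_cl H (G.inc e)).trans h)
    · exact Or.inr (Finset.disjoint_of_subset_left (G.subset_cl H (G.inc e)) h)

theorem cl_frz_cl (H S : Finset E) (D : Finset V) :
    G.cl H ((frz G H).cl S D) = G.cl (S ∪ H) D := by
  apply Finset.Subset.antisymm
  · refine G.cl_subset ?_ ((G.sat_cl (S ∪ H) D).mono Finset.subset_union_right)
    rw [← frz_cl_of_subset G (H := H) (S := S ∪ H) Finset.subset_union_right D]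
    exact (frz G H).cl_mono Finset.subset_union_left (Finset.Subset.refl _)
  · refine G.cl_subset (((frz G H).subset_cl S D).trans (G.subset_cl H _)) ?_
    intro e he
    rcases Finset.mem_union.1 he with h | h
    · rcases (frz G H).sat_cl S D e h with h1 | h1
      · exact Or.inl (((G.subset_cl H (G.inc e)).trans h1).trans (G.subset_cl H _))
      · right
        have h2 : Disjoint (G.cl H ((frz G H).cl S D)) (G.cl H (G.inc e)) :=
          G.disj_cl_of_sat (G.sat_cl H (G.inc e)) h1.symm
        exact (Finset.disjoint_of_subset_right (G.subset_cl H (G.inc e)) h2).symm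
    · exact G.sat_cl H _ e h

/-- **type 1 estimate**: product Kozma–Nitzan with frozen open hyperedges `H ⊆ S₀`. -/
theorem type1 {ι : Type*} [DecidableEq ι] (J : Finset ι) (Reg : ι → Finset E)
    (hdisj : ∀ i ∈ J, ∀ j ∈ J, i ≠ j → Disjoint (Reg i) (Reg j)) (S₀ H : Finset E)
    (hH : H ⊆ S₀) (B : ι → Finset V) (Q : ι → Finset V → Prop)
    (hQ : ∀ j ∈ J, ∀ F F', F ⊆ F' → Q j F → Q j F') (ε : ι → ℝ) (hε0 : ∀ j ∈ J, 0 ≤ ε j)
    (hε : ∀ j ∈ J, ∀ y ∈ B j, G.ex (Reg j) (fun S => bad (Q j) (G.cl (S ∪ H) {y})) ≤ ε j)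
    (A : Finset V) (f : Finset V → ℝ)
    (hf0 : ∀ F, f F ≤ 1)
    (hf : ∀ F, (∃ j ∈ J, Disjoint F (B j) ∨ Q j F) → f F ≤ 0) :
    G.ex (J.biUnion Reg) (fun S => f (G.cl (S₀ ∪ S) A)) ≤ ∏ j ∈ J, ε j := by
  classical
  have h := PKNQ_cond (frz G H) J Reg hdisj S₀ B (fun j F => Q j (G.cl H F))
    (fun j hj F F' hF h1 => hQ j hj _ _ (G.cl_mono (Finset.Subset.refl _) hF) h1) ε hε0 ?_ A
    (fun F => if G.cl H F = F then f F else (if ∃ j ∈ J, Disjoint F (B j) ∨ Q j (G.cl H F)
      then 0 else 1)) ?_ ?_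
  · refine le_trans (le_of_eq ?_) h
    rw [frz_ex]
    refine G.ex_congr fun S _ => ?_
    have h1 : (frz G H).cl (S₀ ∪ S) A = G.cl (S₀ ∪ S) A :=
      frz_cl_of_subset G (hH.trans Finset.subset_union_left) A
    have h2 : G.cl H (G.cl (S₀ ∪ S) A) = G.cl (S₀ ∪ S) A :=
      G.cl_eq_of_sat ((G.sat_cl (S₀ ∪ S) A).mono (hH.trans Finset.subset_union_left))
    simp only [h1]
    rw [if_pos h2]
  · intro j hj y hy
    rw [frz_ex]
    refine le_trans (le_of_eq ?_) (hε j hj y hy)
    refine G.ex_congr fun S _ => ?_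
    have : bad (fun F => Q j (G.cl H F)) ((frz G H).cl S {y})
        = bad (Q j) (G.cl H ((frz G H).cl S {y})) := rfl
    rw [this, cl_frz_cl]
  · intro F
    split_ifs
    · exact hf0 F
    · norm_num
    · norm_num
  · intro F hF
    by_cases h1 : G.cl H F = F
    · rw [if_pos h1]
      refine hf F ?_
      obtain ⟨j, hj, h2⟩ := hF
      refine ⟨j, hj, ?_⟩
      rw [h1] at h2
      exact h2
    · rw [if_neg h1, if_pos hF]

/-! ### general facts on expectations -/

theorem ex_le_ex_of_le {A : Finset E} {f g : Finset E → ℝ} {c : ℝ}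
    (h : G.ex A g ≤ c) (h' : ∀ S, S ⊆ A → f S ≤ g S) : G.ex A f ≤ c :=
  (G.ex_mono h').trans h

/-- conditional step: `u` does not look at `F`, and `X` has conditional expectation `≤ c`. -/
theorem ex_step {Ω F : Finset E} (hF : F ⊆ Ω) {u X : Finset E → ℝ} {c : ℝ}
    (hu0 : ∀ S, 0 ≤ u S) (hu : ∀ S T, T ⊆ F → Disjoint S F → u (S ∪ T) = u S)
    (hX : ∀ S₀, Disjoint S₀ F → G.ex F (fun S => X (S₀ ∪ S)) ≤ c) :
    G.ex Ω (fun S => u S * X S) ≤ c * G.ex Ω u := by
  have hΩ : Ω = (Ω \ F) ∪ F := by rw [Finset.sdiff_union_of_subset hF]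
  have hd : Disjoint (Ω \ F) F := Finset.sdiff_disjoint
  rw [hΩ, G.ex_union hd, G.ex_union hd, ← G.ex_mul_left]
  refine G.ex_mono fun S hS => ?_
  have hSF : Disjoint S F := Finset.disjoint_of_subset_left hS hd
  have h1 : G.ex F (fun T => u (S ∪ T) * X (S ∪ T)) = u S * G.ex F (fun T => X (S ∪ T)) := by
    rw [← G.ex_mul_left]
    exact G.ex_congr fun T hT => by rw [hu S T hT hSF]
  have h2 : G.ex F (fun T => u (S ∪ T)) = u S := by
    rw [← G.ex_const F (u S)]
    exact G.ex_congr fun T hT => hu S T hT hSF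
  rw [h1, h2, mul_comm c]
  exact mul_le_mul_of_nonneg_left (hX S hSF) (hu0 S)

/-- product of nonnegative functions of disjoint regions -/
theorem ex_prod_le {ι : Type*} [DecidableEq ι] (J : Finset ι) (R : ι → Finset E)
    (hdisj : ∀ i ∈ J, ∀ j ∈ J, i ≠ j → Disjoint (R i) (R j)) (g : ι → Finset E → ℝ)
    (hg0 : ∀ j ∈ J, ∀ S, 0 ≤ g j S) (hg : ∀ j ∈ J, ∀ S, g j S = g j (S ∩ R j))
    (c : ι → ℝ) (hc : ∀ j ∈ J, G.ex (R j) (g j) ≤ c j) :
    G.ex (J.biUnion R) (fun S => ∏ j ∈ J, g j S) ≤ ∏ j ∈ J, c j := by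
  induction J using Finset.induction_on with
  | empty => simp
  | insert j J hj ih =>
    have hJ : ∀ i ∈ J, i ∈ insert j J := fun i hi => Finset.mem_insert_of_mem hi
    have hjJ : j ∈ insert j J := Finset.mem_insert_self _ _
    have ih' := ih (fun i hi k hk h => hdisj i (hJ i hi) k (hJ k hk) h)
      (fun i hi => hg0 i (hJ i hi)) (fun i hi => hg i (hJ i hi)) (fun i hi => hc i (hJ i hi))
    have hd : Disjoint (R j) (J.biUnion R) := by
      rw [Finset.disjoint_biUnion_right]
      intro i hi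
      exact hdisj j hjJ i (hJ i hi) (fun h => hj (h ▸ hi))
    have hc0 : 0 ≤ c j := (G.ex_nonneg fun S _ => hg0 j hjJ S).trans (hc j hjJ)
    rw [Finset.biUnion_insert, G.ex_union hd, Finset.prod_insert hj]
    have h1 : G.ex (R j) (fun S => G.ex (J.biUnion R) (fun T => ∏ i ∈ insert j J, g i (S ∪ T)))
        = G.ex (R j) (g j) * G.ex (J.biUnion R) (fun T => ∏ i ∈ J, g i T) := by
      rw [← G.ex_mul_right]
      refine G.ex_congr fun S hS => ?_
      rw [← G.ex_mul_left]
      refine G.ex_congr fun T hT => ?_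
      rw [Finset.prod_insert hj]
      congr 1
      · rw [hg j hjJ (S ∪ T), hg j hjJ S]
        congr 1
        rw [Finset.union_inter_distrib_right]
        have : T ∩ R j = ∅ := by
          rw [← Finset.disjoint_iff_inter_eq_empty]
          exact (Finset.disjoint_of_subset_right hT hd).symm
        rw [this, Finset.union_empty]
      · refine Finset.prod_congr rfl fun i hi => ?_
        rw [hg i (hJ i hi) (S ∪ T), hg i (hJ i hi) T]
        congr 1
        rw [Finset.union_inter_distrib_right]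
        have : S ∩ R i = ∅ := by
          rw [← Finset.disjoint_iff_inter_eq_empty]
          exact Finset.disjoint_of_subset_left hS
            (hdisj j hjJ i (hJ i hi) (fun h => hj (h ▸ hi)))
        rw [this, Finset.empty_union]
    rw [h1]
    exact mul_le_mul (hc j hjJ) ih' (G.ex_nonneg fun S _ => Finset.prod_nonneg
      fun i hi => hg0 i (hJ i hi) S) hc0

/-- probability that all hyperedges of `A` are open -/
noncomputable def pr (A : Finset E) : ℝ := ∏ e ∈ A, G.p e

theorem pr_nonneg (A : Finset E) : 0 ≤ pr G A := Finset.prod_nonneg fun e _ => G.p_nonneg e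


/-- `E[1{A ⊆ S} f(S)]` over `A` -/
theorem ex_ind_full (A : Finset E) (f : Finset E → ℝ) :
    G.ex A (fun S => if A ⊆ S then f S else 0) = pr G A * f A := by
  unfold HG.ex
  rw [Finset.sum_eq_single A]
  · beta_reduce
    rw [if_pos (Finset.Subset.refl _)]
    unfold HG.wt pr
    simp
  · intro S hS hne
    have hS' : S ⊆ A := Finset.mem_powerset.1 hS
    beta_reduce
    rw [if_neg (fun h => hne (Finset.Subset.antisymm hS' h)), mul_zero]
  · intro h
    exact absurd (Finset.mem_powerset_self A) h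

/-- conditioning on the block `b` being open, decreasing `f` -/
theorem ex_ind_le {L b : Finset E} (hb : b ⊆ L) {f : Finset E → ℝ}
    (hf : ∀ S T, S ⊆ T → f T ≤ f S) :
    G.ex L (fun S => if b ⊆ S then f S else 0) ≤ pr G b * G.ex L f := by
  have hL : L = b ∪ (L \ b) := by rw [Finset.union_sdiff_of_subset hb]
  have hd : Disjoint b (L \ b) := Finset.disjoint_sdiff
  have hL' : L = (L \ b) ∪ b := by rw [Finset.sdiff_union_of_subset hb]
  rw [hL', G.ex_union hd.symm, G.ex_union hd.symm, ← G.ex_mul_left]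
  refine G.ex_mono fun S hS => ?_
  have h1 : G.ex b (fun T => if b ⊆ S ∪ T then f (S ∪ T) else 0)
      = G.ex b (fun T => if b ⊆ T then (fun T => f (S ∪ T)) T else 0) := by
    refine G.ex_congr fun T _ => ?_
    have : b ⊆ S ∪ T ↔ b ⊆ T := by
      constructor
      · intro h x hx
        rcases Finset.mem_union.1 (h hx) with h1 | h1
        · exact absurd hx (Finset.mem_sdiff.1 (hS h1)).2
        · exact h1
      · intro h
        exact h.trans Finset.subset_union_right
    simp only [this]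
  rw [h1, ex_ind_full]
  refine mul_le_mul_of_nonneg_left ?_ (pr_nonneg G b)
  refine G.le_ex_of_le fun T hT => ?_
  exact hf _ _ (Finset.union_subset_union (Finset.Subset.refl _) hT)

theorem ex_ind_eq {L b : Finset E} (hb : b ⊆ L) :
    G.ex L (fun S => if b ⊆ S then (1 : ℝ) else 0) = pr G b := by
  have h := G.ex_sub_config hb (fun S => if b ⊆ S then (1 : ℝ) else 0)
  have h1 : (fun S : Finset E => if b ⊆ S ∩ b then (1 : ℝ) else 0)
      = (fun S => if b ⊆ S then (1 : ℝ) else 0) := by
    funext S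
    have : b ⊆ S ∩ b ↔ b ⊆ S := by
      rw [Finset.subset_inter_iff]
      exact ⟨fun h => h.1, fun h => ⟨h, Finset.Subset.refl _⟩⟩
    simp only [this]
  rw [h1] at h
  rw [h]
  have := ex_ind_full G b (fun _ => 1)
  rw [this, mul_one]

end Crest.Agent.R147.Sc
end

-- ▼ part R147/Sc113Two
section

/-!
# Screens: a large set of touched blocks contains a good block (type 2 estimate)
-/

set_option autoImplicit false
set_option linter.unusedSectionVars false

open Finset

namespace Crest.Agent.R147.Sc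

open Crest.Agent.R147.KN Crest.Agent.R147.KN.HG

/-- greedy choice of pairwise non-conflicting elements -/
theorem exists_indep {ι : Type*} [DecidableEq ι] (r : ι → ι → Prop) [DecidableRel r]
    (hrefl : ∀ a, r a a) (hsymm : ∀ a b, r a b → r b a) (K : ℕ) (hK1 : 1 ≤ K) (M : ℕ) :
    ∀ T : Finset ι, (∀ b ∈ T, (T.filter (fun b' => r b b')).card ≤ K) → M * K ≤ T.card →
      ∃ T' : Finset ι, T' ⊆ T ∧ T'.card = M ∧ ∀ a ∈ T', ∀ b ∈ T', a ≠ b → ¬ r a b := by
  induction M with
  | zero => intro T _ _; exact ⟨∅, Finset.empty_subset _, rfl, fun a ha => by simp at ha⟩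
  | succ M ih =>
    intro T hK hT
    have hne : T.Nonempty := by
      rw [← Finset.card_pos]
      have : 1 ≤ (M + 1) * K := Nat.one_le_iff_ne_zero.2 (by positivity)
      omega
    obtain ⟨a, ha⟩ := hne
    set T₁ := T.filter (fun b => ¬ r a b) with hT1
    have hsub : T₁ ⊆ T := Finset.filter_subset _ _
    have hcard : M * K ≤ T₁.card := by
      have h1 := Finset.card_filter_add_card_filter_not (s := T) (fun b => r a b)
      have h2 := hK a ha
      have h3 : (M + 1) * K = M * K + K := by ring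
      rw [h3] at hT
      have h4 : (T.filter (fun b => r a b)).card + T₁.card = T.card := h1
      omega
    obtain ⟨T', h1, h2, h3⟩ := ih T₁ (fun b hb => (Finset.card_le_card
      (Finset.filter_subset_filter _ hsub)).trans (hK b (hsub hb))) hcard
    have haT' : a ∉ T' := fun h => (Finset.mem_filter.1 (h1 h)).2 (hrefl a)
    refine ⟨insert a T', ?_, ?_, ?_⟩
    · exact Finset.insert_subset ha (h1.trans hsub)
    · rw [Finset.card_insert_of_notMem haT', h2]
    · intro x hx y hy hxy
      rcases Finset.mem_insert.1 hx with hx' | hx'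
      · rcases Finset.mem_insert.1 hy with hy' | hy'
        · exact absurd (hx'.trans hy'.symm) hxy
        · rw [hx']
          exact (Finset.mem_filter.1 (h1 hy')).2
      · rcases Finset.mem_insert.1 hy with hy' | hy'
        · rw [hy']
          intro h
          exact (Finset.mem_filter.1 (h1 hx')).2 (hsymm _ _ h)
        · exact h3 x hx' y hy' hxy

variable {V E : Type*} [DecidableEq V] [DecidableEq E] [Fintype V] (G : HG V E)

theorem pr_union {a b : Finset E} (h : Disjoint a b) : pr G (a ∪ b) = pr G a * pr G b := by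
  unfold pr; rw [Finset.prod_union h]

/-- Chebyshev for the number of open blocks among disjoint ones -/
theorem ex_var {ι : Type*} [DecidableEq ι] (L : Finset E) (T : Finset ι) (blk : ι → Finset E)
    (hblk : ∀ b ∈ T, blk b ⊆ L) (hdis : ∀ a ∈ T, ∀ b ∈ T, a ≠ b → Disjoint (blk a) (blk b)) :
    G.ex L (fun S => ((∑ b ∈ T, (if blk b ⊆ S then (1 : ℝ) else 0)) - ∑ b ∈ T, pr G (blk b)) ^ 2)
      ≤ ∑ b ∈ T, pr G (blk b) := by
  have h1 : ∀ S : Finset E,
      ((∑ b ∈ T, (if blk b ⊆ S then (1 : ℝ) else 0)) - ∑ b ∈ T, pr G (blk b)) ^ 2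
      = ∑ a ∈ T, ∑ b ∈ T, ((if blk a ⊆ S then (1 : ℝ) else 0) - pr G (blk a))
          * ((if blk b ⊆ S then (1 : ℝ) else 0) - pr G (blk b)) := by
    intro S
    rw [← Finset.sum_sub_distrib, sq, Finset.sum_mul_sum]
  simp only [h1]
  rw [G.ex_sum]
  refine Finset.sum_le_sum fun a ha => ?_
  rw [G.ex_sum]
  have h2 : ∀ b ∈ T, b ≠ a → G.ex L (fun S => ((if blk a ⊆ S then (1 : ℝ) else 0) - pr G (blk a))
          * ((if blk b ⊆ S then (1 : ℝ) else 0) - pr G (blk b))) = 0 := by
    intro b hb hba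
    have h3 : ∀ S : Finset E, ((if blk a ⊆ S then (1 : ℝ) else 0) - pr G (blk a))
          * ((if blk b ⊆ S then (1 : ℝ) else 0) - pr G (blk b))
        = (if blk a ∪ blk b ⊆ S then (1 : ℝ) else 0)
          - (if blk a ⊆ S then (1 : ℝ) else 0) * pr G (blk b)
          - ((if blk b ⊆ S then (1 : ℝ) else 0) * pr G (blk a)
            - pr G (blk a) * pr G (blk b)) := by
      intro S
      by_cases ha' : blk a ⊆ S <;> by_cases hb' : blk b ⊆ S
      · rw [if_pos ha', if_pos hb', if_pos (Finset.union_subset ha' hb')]; ring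
      · rw [if_pos ha', if_neg hb', if_neg (fun h => hb' (Finset.union_subset_right h))]; ring
      · rw [if_neg ha', if_pos hb', if_neg (fun h => ha' (Finset.union_subset_left h))]; ring
      · rw [if_neg ha', if_neg hb', if_neg (fun h => ha' (Finset.union_subset_left h))]; ring
    simp only [h3]
    rw [G.ex_sub, G.ex_sub, G.ex_sub, G.ex_mul_right, G.ex_mul_right, G.ex_const,
      ex_ind_eq G (Finset.union_subset (hblk a ha) (hblk b hb)), ex_ind_eq G (hblk a ha),
      ex_ind_eq G (hblk b hb), pr_union G (hdis a ha b hb (Ne.symm hba))]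
    ring
  rw [Finset.sum_eq_single_of_mem a ha h2]
  have h4 : ∀ S : Finset E, ((if blk a ⊆ S then (1 : ℝ) else 0) - pr G (blk a))
          * ((if blk a ⊆ S then (1 : ℝ) else 0) - pr G (blk a))
      = (if blk a ⊆ S then (1 : ℝ) else 0) * (1 - 2 * pr G (blk a)) + pr G (blk a) ^ 2 := by
    intro S
    split_ifs <;> ring
  simp only [h4]
  rw [G.ex_add, G.ex_mul_right, G.ex_const, ex_ind_eq G (hblk a ha)]
  nlinarith [pr_nonneg G (blk a)]

/-- **type 2 estimate**. `T` = touched blocks, `φ b i` = quenched failure probabilities of the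
block `b`, a block is good if it is open and all its quenched failure probabilities are `≤ s`. -/
theorem type2 {ι κ : Type*} [DecidableEq ι] (L : Finset E) (T : Finset ι) (blk : ι → Finset E)
    (hblk : ∀ b ∈ T, blk b ⊆ L) (K M : ℕ) (hK1 : 1 ≤ K)
    (hK : ∀ b ∈ T, (T.filter (fun b' => b = b' ∨ ¬ Disjoint (blk b) (blk b'))).card ≤ K)
    (hT : M * K ≤ T.card) (q s β : ℝ) (hq : 0 < q) (hs : 0 < s) (hM : 0 < M)
    (hpr : ∀ b ∈ T, q ≤ pr G (blk b)) (I : Finset κ) (φ : ι → κ → Finset E → ℝ)
    (hφ0 : ∀ b ∈ T, ∀ i ∈ I, ∀ S, 0 ≤ φ b i S)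
    (hφ : ∀ b ∈ T, ∀ i ∈ I, ∀ S S', S ⊆ S' → φ b i S' ≤ φ b i S)
    (hφβ : ∀ b ∈ T, ∀ i ∈ I, G.ex L (φ b i) ≤ β) (z : Finset E → ℝ) (hz : ∀ S, z S ≤ 1)
    (hz' : ∀ S, (∃ b ∈ T, blk b ⊆ S ∧ ∀ i ∈ I, φ b i S ≤ s) → z S ≤ 0) :
    G.ex L z ≤ 4 / (q * M) + 2 * I.card * β / s := by
  classical
  obtain ⟨T', hsub, hcard, hind⟩ := exists_indep
    (fun b b' : ι => b = b' ∨ ¬ Disjoint (blk b) (blk b')) (fun a => Or.inl rfl)
    (fun a b h => by
      rcases h with h | h
      · exact Or.inl h.symm
      · exact Or.inr fun h' => h h'.symm) K hK1 M T hK hT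
  have hdis : ∀ a ∈ T', ∀ b ∈ T', a ≠ b → Disjoint (blk a) (blk b) := by
    intro a ha b hb hab
    have := hind a ha b hb hab
    push Not at this
    exact this.2
  set μ : ℝ := ∑ b ∈ T', pr G (blk b) with hμ
  have hMr : (0 : ℝ) < M := Nat.cast_pos.2 hM
  have hμM : q * M ≤ μ := by
    have : ∑ _b ∈ T', q ≤ μ := Finset.sum_le_sum fun b hb => hpr b (hsub hb)
    rw [Finset.sum_const, hcard, nsmul_eq_mul] at this
    linarith
  have hqM : 0 < q * M := mul_pos hq hMr
  have hμ0 : 0 < μ := lt_of_lt_of_le hqM hμM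
  set X : Finset E → ℝ := fun S => ∑ b ∈ T', (if blk b ⊆ S then (1 : ℝ) else 0) with hX
  set Y : Finset E → ℝ := fun S => ∑ b ∈ T', ∑ i ∈ I, (if blk b ⊆ S then φ b i S else 0) / s
    with hY
  have hY0 : ∀ S, 0 ≤ Y S := by
    intro S
    refine Finset.sum_nonneg fun b hb => Finset.sum_nonneg fun i hi => ?_
    refine div_nonneg ?_ hs.le
    split_ifs
    · exact hφ0 b (hsub hb) i hi S
    · exact le_refl _
  have hpoint : ∀ S, z S ≤ (4 / μ ^ 2) * (X S - μ) ^ 2 + (2 / μ) * Y S := by
    intro S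
    by_cases hg : ∃ b ∈ T, blk b ⊆ S ∧ ∀ i ∈ I, φ b i S ≤ s
    · refine (hz' S hg).trans ?_
      have := hY0 S
      positivity
    · refine (hz S).trans ?_
      by_cases hXs : X S ≤ μ / 2
      · have h1 : (μ / 2) ^ 2 ≤ (X S - μ) ^ 2 := by nlinarith
        have h2 : (4 / μ ^ 2) * (μ / 2) ^ 2 = 1 := by field_simp; norm_num
        have h3 : 1 ≤ (4 / μ ^ 2) * (X S - μ) ^ 2 := by
          rw [← h2]
          exact mul_le_mul_of_nonneg_left h1 (by positivity)
        have := hY0 S
        have h4 : 0 ≤ (2 / μ) * Y S := by positivity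
        linarith
      · push Not at hXs
        have h1 : X S ≤ Y S := by
          refine Finset.sum_le_sum fun b hb => ?_
          by_cases hbS : blk b ⊆ S
          · rw [if_pos hbS]
            have h2 : ∃ i ∈ I, s < φ b i S := by
              by_contra hcon
              push Not at hcon
              exact hg ⟨b, hsub hb, hbS, hcon⟩
            obtain ⟨i, hi, h3⟩ := h2
            have h4 : (1 : ℝ) ≤ φ b i S / s := by
              rw [le_div_iff₀ hs]; linarith
            refine h4.trans ?_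
            have h5 : ∀ i ∈ I, 0 ≤ (if blk b ⊆ S then φ b i S else 0) / s := by
              intro i hi
              rw [if_pos hbS]
              exact div_nonneg (hφ0 b (hsub hb) i hi S) hs.le
            have h6 := Finset.single_le_sum h5 hi
            rwa [if_pos hbS] at h6
          · rw [if_neg hbS]
            refine Finset.sum_nonneg fun i _ => ?_
            rw [if_neg hbS, zero_div]
        have h2 : (1 : ℝ) ≤ (2 / μ) * Y S := by
          have h3 : (2 / μ) * (μ / 2) = 1 := by field_simp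
          rw [← h3]
          exact mul_le_mul_of_nonneg_left (by linarith) (by positivity)
        have h4 : 0 ≤ (4 / μ ^ 2) * (X S - μ) ^ 2 := by positivity
        linarith
  refine (G.ex_mono fun S _ => hpoint S).trans ?_
  rw [G.ex_add, G.ex_mul_left, G.ex_mul_left]
  have hvar := ex_var G L T' blk (fun b hb => hblk b (hsub hb)) hdis
  have hYe : G.ex L Y ≤ I.card * β / s * μ := by
    have h1 : G.ex L Y = ∑ b ∈ T', ∑ i ∈ I,
        G.ex L (fun S => if blk b ⊆ S then φ b i S else 0) / s := by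
      simp only [hY]
      rw [G.ex_sum]
      refine Finset.sum_congr rfl fun b _ => ?_
      rw [G.ex_sum]
      refine Finset.sum_congr rfl fun i _ => ?_
      simp only [div_eq_mul_inv]
      rw [G.ex_mul_right]
    rw [h1, hμ, Finset.mul_sum]
    refine Finset.sum_le_sum fun b hb => ?_
    have h2 : ∀ i ∈ I, G.ex L (fun S => if blk b ⊆ S then φ b i S else 0) / s
        ≤ β / s * pr G (blk b) := by
      intro i hi
      have h3 := ex_ind_le G (hblk b (hsub hb)) (hφ b (hsub hb) i hi)
      have h4 := mul_le_mul_of_nonneg_left (hφβ b (hsub hb) i hi) (pr_nonneg G (blk b))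
      rw [div_le_iff₀ hs]
      have h5 : β / s * pr G (blk b) * s = pr G (blk b) * β := by field_simp
      rw [h5]
      exact h3.trans h4
    refine (Finset.sum_le_sum h2).trans (le_of_eq ?_)
    rw [Finset.sum_const, nsmul_eq_mul]
    ring
  have h5 : (4 / μ ^ 2) * G.ex L (fun S => (X S - μ) ^ 2) ≤ 4 / (q * M) := by
    have h6 : (4 / μ ^ 2) * G.ex L (fun S => (X S - μ) ^ 2) ≤ (4 / μ ^ 2) * μ :=
      mul_le_mul_of_nonneg_left hvar (by positivity)
    have h7 : (4 / μ ^ 2) * μ = 4 / μ := by field_simp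
    have h8 : 4 / μ ≤ 4 / (q * M) := div_le_div_of_nonneg_left (by norm_num) hqM hμM
    linarith
  have h6 : (2 / μ) * G.ex L Y ≤ 2 * I.card * β / s := by
    have h7 : (2 / μ) * G.ex L Y ≤ (2 / μ) * (I.card * β / s * μ) :=
      mul_le_mul_of_nonneg_left hYe (by positivity)
    have h8 : (2 / μ) * (I.card * β / s * μ) = 2 * I.card * β / s := by field_simp
    linarith
  linarith

end Crest.Agent.R147.Sc
end

-- ▼ part R147/Sc113Def

/-!
# Screens: the data of the renormalisation (row 147, block B6)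
-/

set_option autoImplicit false
set_option linter.unusedSectionVars false

open Finset

namespace Crest.Agent.R147.Sc

open Crest.Agent.R147.KN Crest.Agent.R147.KN.HG

/-- level of a site -/
def lev (v : ℕ × ℕ) : ℕ := v.1 + v.2

/-- the two children of a site -/
def ch (i : Bool) (v : ℕ × ℕ) : ℕ × ℕ := if i then (v.1, v.2 + 1) else (v.1 + 1, v.2)

variable {V E B : Type*} [DecidableEq V] [DecidableEq E]

/-- the vertex set `C` touches at least `n` blocks of `T` -/
def Tgt (nb : B → Finset V) (T : Finset B) (n : ℕ) (C : Finset V) : Prop :=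
  n ≤ (T.filter (fun b => ¬ Disjoint (nb b) C)).card

/-- The data of the renormalisation with fresh screens in a finite hypergraph. -/
structure Scr [Fintype V] [DecidableEq B] (G : HG V E) (A : Finset V) (blk : B → Finset E)
    (nb vtx : B → Finset V) (En : ℕ → Finset E) (Y : ℕ × ℕ → Finset B)
    (Rg : ℕ × ℕ → Finset E) (q β : ℝ) (K M R N : ℕ) : Prop where
  En_mono : Monotone En
  Y_zero : Y (0, 0) = ∅
  blk_sub : ∀ v, lev v ≤ N → ∀ b ∈ Y v, blk b ⊆ En (lev v + 1)
  blk_disj : ∀ v, lev v ≤ N → ∀ b ∈ Y v, Disjoint (blk b) (En (lev v))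
  blk_Rg : ∀ v, lev v ≤ N → ∀ b ∈ Y v, blk b ⊆ Rg v
  vtx_ne : ∀ v, lev v ≤ N → ∀ b ∈ Y v, (vtx b).Nonempty
  vtx_nb : ∀ v, lev v ≤ N → ∀ b ∈ Y v, vtx b ⊆ nb b
  vtx_cl : ∀ v, lev v ≤ N → ∀ b ∈ Y v, ∀ x ∈ nb b, vtx b ⊆ G.cl (blk b) {x}
  q_le : ∀ v, lev v ≤ N → ∀ b ∈ Y v, q ≤ ∏ e ∈ blk b, G.p e
  overlap : ∀ v, lev v ≤ N → ∀ b ∈ Y v,
    ((Y v).filter (fun b' => b = b' ∨ ¬ Disjoint (blk b) (blk b'))).card ≤ K
  Rg_sub : ∀ v, lev v ≤ N → Rg v ⊆ En (lev v + 1)
  Rg_disj : ∀ v, lev v ≤ N → 1 ≤ lev v → Disjoint (Rg v) (En (lev v - 1))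
  Rg_sep : ∀ v w, lev v ≤ N → lev w = lev v → v.1 + R ≤ w.1 → Disjoint (Rg v) (Rg w)
  ann : ∀ v, lev v ≤ N → v ≠ (0, 0) → ∀ b ∈ Y v, ∀ i,
    G.ex (Rg v) (fun S => bad (Tgt nb (Y (ch i v)) (M * K)) (G.cl S (vtx b))) ≤ β
  ann_zero : ∀ i,
    G.ex (Rg (0, 0)) (fun S => bad (Tgt nb (Y (ch i (0, 0))) (M * K)) (G.cl S A)) ≤ β

end Crest.Agent.R147.Sc
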