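import Crest.Agent.R147.Ns70
import Crest.Agent.R147.Sc113Def
import Crest.Agent.R147.Lo505_Mg
import Crest.Agent.R147.Cl684Uniq
import Crest.Agent.R147.KN.WinB6

-- ▼ part R147/Pg592A
section

/-!
# R147, block E4b: the planar arithmetic of the renormalisation lattice

`(L, M)` is a signed permutation of the coordinates of `ℤ²` (helper70's `Ns70.Out`), `L` is the
height, `X v = (M v - s * L v) / b` the normalised horizontal coordinate.
-/

set_option autoImplicit false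

namespace Crest.Agent.R147.Pg

open Crest.Agent.R147.Sc (lev ch)

/-- Points of the coarse plane. -/
abbrev P := ℤ × ℤ

/-- `(L, M)` is a signed permutation of the coordinates. -/
def Coord (L M : P → ℤ) : Prop := ∃ σ σ' : ℤ, (σ = 1 ∨ σ = -1) ∧ (σ' = 1 ∨ σ' = -1) ∧
    ((∀ v, L v = σ * v.1 ∧ M v = σ' * v.2) ∨ (∀ v, L v = σ * v.2 ∧ M v = σ' * v.1))

/-- The normalised horizontal coordinate. -/
noncomputable def X (L M : P → ℤ) (s b : ℝ) (v : P) : ℝ := ((M v : ℝ) - s * L v) / b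

variable {L M : P → ℤ} {s b : ℝ}

theorem Coord.L_add (h : Coord L M) (u v : P) : L (u + v) = L u + L v := by
  obtain ⟨σ, σ', _, _, h | h⟩ := h
  · rw [(h _).1, (h _).1, (h _).1, Prod.fst_add]; ring
  · rw [(h _).1, (h _).1, (h _).1, Prod.snd_add]; ring

theorem Coord.M_add (h : Coord L M) (u v : P) : M (u + v) = M u + M v := by
  obtain ⟨σ, σ', _, _, h | h⟩ := h
  · rw [(h _).2, (h _).2, (h _).2, Prod.snd_add]; ring
  · rw [(h _).2, (h _).2, (h _).2, Prod.fst_add]; ring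

theorem Coord.L_zero (h : Coord L M) : L 0 = 0 := by
  have := h.L_add 0 0
  rw [add_zero] at this
  omega

theorem Coord.M_zero (h : Coord L M) : M 0 = 0 := by
  have := h.M_add 0 0
  rw [add_zero] at this
  omega

theorem Coord.L_sub (h : Coord L M) (u v : P) : L (u - v) = L u - L v := by
  have := h.L_add (u - v) v
  rw [sub_add_cancel] at this
  omega

theorem Coord.M_sub (h : Coord L M) (u v : P) : M (u - v) = M u - M v := by
  have := h.M_add (u - v) v
  rw [sub_add_cancel] at this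
  omega

theorem Coord.X_add (h : Coord L M) (u v : P) : X L M s b (u + v) = X L M s b u + X L M s b v := by
  unfold X
  rw [h.L_add, h.M_add]
  push_cast
  ring

theorem Coord.X_sub (h : Coord L M) (u v : P) : X L M s b (u - v) = X L M s b u - X L M s b v := by
  unfold X
  rw [h.L_sub, h.M_sub]
  push_cast
  ring

theorem Coord.X_zero (h : Coord L M) : X L M s b 0 = 0 := by
  unfold X
  rw [h.L_zero, h.M_zero]
  simp

/-- `|L v|` is bounded by the sup norm. -/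
theorem Coord.abs_L_le (h : Coord L M) {v : P} {c : ℤ} (h1 : |v.1| ≤ c) (h2 : |v.2| ≤ c) :
    |L v| ≤ c := by
  obtain ⟨σ, σ', hσ, hσ', h | h⟩ := h
  · rw [(h v).1]; rcases hσ with rfl | rfl <;> simpa using h1
  · rw [(h v).1]; rcases hσ with rfl | rfl <;> simpa using h2

theorem Coord.abs_M_le (h : Coord L M) {v : P} {c : ℤ} (h1 : |v.1| ≤ c) (h2 : |v.2| ≤ c) :
    |M v| ≤ c := by
  obtain ⟨σ, σ', hσ, hσ', h | h⟩ := h
  · rw [(h v).2]; rcases hσ' with rfl | rfl <;> simpa using h2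
  · rw [(h v).2]; rcases hσ' with rfl | rfl <;> simpa using h1

theorem Coord.surj (h : Coord L M) (l m : ℤ) : ∃ v : P, L v = l ∧ M v = m := by
  obtain ⟨σ, σ', hσ, hσ', h | h⟩ := h
  · refine ⟨(σ * l, σ' * m), ?_, ?_⟩
    · rw [(h _).1]; rcases hσ with rfl | rfl <;> ring
    · rw [(h _).2]; rcases hσ' with rfl | rfl <;> ring
  · refine ⟨(σ' * m, σ * l), ?_, ?_⟩
    · rw [(h _).1]; rcases hσ with rfl | rfl <;> ring
    · rw [(h _).2]; rcases hσ' with rfl | rfl <;> ring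

theorem Coord.ext (h : Coord L M) {u v : P} (h1 : L u = L v) (h2 : M u = M v) : u = v := by
  obtain ⟨σ, σ', hσ, hσ', h | h⟩ := h
  · rw [(h _).1, (h _).1] at h1
    rw [(h _).2, (h _).2] at h2
    rcases hσ with rfl | rfl <;> rcases hσ' with rfl | rfl <;> ext <;> omega
  · rw [(h _).1, (h _).1] at h1
    rw [(h _).2, (h _).2] at h2
    rcases hσ with rfl | rfl <;> rcases hσ' with rfl | rfl <;> ext <;> omega

/-- A lattice vector of given height and (nearly) given horizontal coordinate. -/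
theorem Coord.exists_vec (h : Coord L M) (hb : 1 ≤ b) (l : ℤ) (d : ℝ) :
    ∃ v : P, L v = l ∧ |X L M s b v - d| ≤ 1 / 2 := by
  obtain ⟨v, h1, h2⟩ := h.surj l (round (s * l + d * b))
  refine ⟨v, h1, ?_⟩
  unfold X
  rw [h1, h2]
  have h3 := abs_sub_round (s * l + d * b)
  have hb0 : 0 < b := by linarith
  have h4 : ((round (s * l + d * b) : ℝ) - s * l) / b - d
      = -((s * l + d * b) - round (s * l + d * b)) / b := by
    field_simp
    ring
  rw [h4, neg_div, abs_neg, abs_div, abs_of_pos hb0, div_le_iff₀ hb0]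
  calc |s * (l : ℝ) + d * b - (round (s * l + d * b) : ℤ)| ≤ 1 / 2 := h3
    _ ≤ 1 / 2 * b := by linarith

/-- The horizontal displacement towards the child `i`. -/
noncomputable def tgt (i : Bool) : ℝ := if i then 10 else 50

/-- The data of the renormalisation lattice. -/
structure Lat (L M : P → ℤ) (s b : ℝ) (h : ℤ) (D : Bool → P) : Prop where
  coord : Coord L M
  b_ge : 1 ≤ b
  L_D : ∀ i, L (D i) = h
  X_D : ∀ i, |X L M s b (D i) - tgt i| ≤ 1 / 2

theorem exists_lat (hc : Coord L M) (hb : 1 ≤ b) (h : ℤ) : ∃ D : Bool → P, Lat L M s b h D := by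
  choose D h1 h2 using fun i : Bool => hc.exists_vec (s := s) hb h (tgt i)
  exact ⟨D, hc, hb, h1, h2⟩

/-- The centre of the site `v`. -/
def zz (D : Bool → P) (v : ℕ × ℕ) : P := (v.1 : ℤ) • D false + (v.2 : ℤ) • D true

theorem lev_ch (i : Bool) (v : ℕ × ℕ) : lev (ch i v) = lev v + 1 := by
  unfold lev ch
  cases i <;> simp <;> omega

theorem zz_ch (D : Bool → P) (i : Bool) (v : ℕ × ℕ) : zz D (ch i v) = zz D v + D i := by
  unfold zz ch
  cases i
  · simp only [Bool.false_eq_true, if_false]; push_cast; rw [add_smul, one_smul]; abel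
  · simp only [if_true]; push_cast; rw [add_smul, one_smul]; abel

theorem zz_zero (D : Bool → P) : zz D (0, 0) = 0 := by
  unfold zz; simp


theorem Coord.X_nsmul (h : Coord L M) (n : ℕ) (v : P) :
    X L M s b ((n : ℤ) • v) = n * X L M s b v := by
  induction n with
  | zero => simp [h.X_zero]
  | succ n ih =>
    push_cast
    rw [add_smul, one_smul, h.X_add, ih]
    ring

variable {h : ℤ} {D : Bool → P}


theorem Lat.X_zz (hl : Lat L M s b h D) (v : ℕ × ℕ) :
    X L M s b (zz D v) = v.1 * X L M s b (D false) + v.2 * X L M s b (D true) := by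
  unfold zz
  rw [hl.coord.X_add, hl.coord.X_nsmul, hl.coord.X_nsmul]

/-- Sites of the same level are well separated. -/
theorem Lat.sep (hl : Lat L M s b h D) {v w : ℕ × ℕ} (hlev : lev w = lev v)
    (hvw : v.1 + 6 ≤ w.1) : 234 ≤ X L M s b (zz D w) - X L M s b (zz D v) := by
  rw [hl.X_zz, hl.X_zz]
  have h1 := abs_le.1 (hl.X_D false)
  have h2 := abs_le.1 (hl.X_D true)
  have h3 : tgt false = 50 := by simp [tgt]
  have h4 : tgt true = 10 := by simp [tgt]
  rw [h3] at h1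
  rw [h4] at h2
  obtain ⟨n, hn⟩ := Nat.exists_eq_add_of_le hvw
  have hv2 : v.2 = w.2 + 6 + n := by
    unfold lev at hlev; omega
  rw [hn, hv2]
  push_cast
  have hn0 : (0 : ℝ) ≤ n := by positivity
  nlinarith [h1.1, h2.2]

end Crest.Agent.R147.Pg
end

-- ▼ part R147/Pg592B

/-!
# R147, block E4b: the layered geometry (helper704's `Lay`) from the planar data

`O` orbit of the root, `Bv f` the block (ball) around `f ∈ O`, `nb f` its neighbourhood, `blk f`
the edges touching `Bv f`, `rp x ∈ ℤ²` the relative position of the vertex `x`.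
-/

set_option autoImplicit false
set_option linter.unusedSectionVars false

open Crest.ProbabilityR.Percolation MeasureTheory ProbabilityTheory unitInterval Filter
open Crest.Agent.R147.Cl

namespace Crest.Agent.R147.Pg

open Crest.Agent.R147.Sc (lev ch)

universe u
variable {V : Type u}

/-- The local facts about blocks which are used (block-wise Lipschitz constant `c`). -/
structure Loc (G : SimpleGraph V) (hloc : ∀ v : V, (G.neighborSet v).Finite) (rp : V → P)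
    (O : Set V) (Bv nb : V → Finset V) (blk : V → Finset (Sym2 V)) (k Lb K : ℕ) (c : ℤ) :
    Prop where
  self : ∀ f ∈ O, f ∈ Bv f
  nb_th : ∀ f ∈ O, nb f ⊆ th hloc k {f}
  mem_blk : ∀ f ∈ O, ∀ e, e ∈ blk f ↔ e ∈ G.edgeSet ∧ ∃ x ∈ e, x ∈ Bv f
  blk_nb : ∀ f ∈ O, ∀ e ∈ blk f, ∀ x ∈ e, x ∈ nb f
  conn : ∀ f ∈ O, ∀ x ∈ nb f, ∀ y ∈ Bv f,
    (openSubgraph G (↑(blk f) : Set (Sym2 V))).Reachable x y
  card_blk : ∀ f ∈ O, (blk f).card ≤ Lb
  overlap : ∀ f ∈ O, ∀ T : Finset V, (∀ f' ∈ T, f = f' ∨ ¬ Disjoint (blk f) (blk f')) →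
    T.card ≤ K
  Bv_nb : ∀ f ∈ O, Bv f ⊆ nb f
  near : ∀ f ∈ O, ∀ x ∈ nb f, |(rp x - rp f).1| ≤ c ∧ |(rp x - rp f).2| ≤ c

variable {G : SimpleGraph V} {hloc : ∀ v : V, (G.neighborSet v).Finite} {rp : V → P}
  {O : Set V} {Bv nb : V → Finset V} {blk : V → Finset (Sym2 V)} {k Lb K : ℕ} {c : ℤ}
  {L M : P → ℤ} {s b : ℝ} {h : ℤ} {D : Bool → P}

/-- vertices all of whose blocks are strictly below the height `a` -/
def Dm (rp : V → P) (O : Set V) (Bv : V → Finset V) (L : P → ℤ) (a : ℤ) : Set V :=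
  {v | ∀ f ∈ O, v ∈ Bv f → L (rp f) < a}

theorem Dm_mono {a a' : ℤ} (haa : a ≤ a') : Dm rp O Bv L a ⊆ Dm rp O Bv L a' :=
  fun _ hv f hf hvf => (hv f hf hvf).trans_le haa

/-- the edges strictly below the `j`-th screen -/
def En (G : SimpleGraph V) (rp : V → P) (O : Set V) (Bv : V → Finset V) (L : P → ℤ) (h : ℤ)
    (j : ℕ) : Set (Sym2 V) :=
  {e | j ≠ 0 ∧ e ∈ G.edgeSet ∧ ∀ x ∈ e, x ∈ Dm rp O Bv L (j * h)}

theorem En_mono (hh : 0 ≤ h) : Monotone (En G rp O Bv L h) := by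
  intro i j hij e he
  obtain ⟨h1, h2, h3⟩ := he
  refine ⟨by omega, h2, fun x hx => Dm_mono ?_ (h3 x hx)⟩
  exact mul_le_mul_of_nonneg_right (by exact_mod_cast hij) hh

open Classical in
/-- the blocks of the site `v` -/
noncomputable def Y (hloc : ∀ v : V, (G.neighborSet v).Finite) (rp : V → P) (O : Set V)
    (L M : P → ℤ) (s b : ℝ) (h : ℤ) (D : Bool → P) (w : ℤ) (o : V) (r : ℕ → ℕ) (v : ℕ × ℕ) :
    Finset V :=
  if v = (0, 0) then ∅ else
  (th hloc (r (lev v)) {o}).filter (fun f => f ∈ O ∧ lev v * h ≤ L (rp f) ∧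
    L (rp f) < lev v * h + w ∧ |X L M s b (rp f - zz D v)| ≤ 8)

open Classical in
/-- the region of the site `v` -/
noncomputable def Rg (hloc : ∀ v : V, (G.neighborSet v).Finite) (rp : V → P) (O : Set V)
    (Bv : V → Finset V) (L M : P → ℤ) (s b : ℝ) (h : ℤ) (D : Bool → P) (o : V) (r : ℕ → ℕ)
    (v : ℕ × ℕ) : Finset (Sym2 V) :=
  ((th hloc (r (lev v + 1)) {o}).sym2).filter (fun e => e ∈ G.edgeSet ∧
    (∀ x ∈ e, x ∈ Dm rp O Bv L ((lev v + 1 : ℕ) * h) ∧ |X L M s b (rp x - zz D v)| ≤ 100) ∧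
    (2 ≤ lev v → ∃ x ∈ e, x ∉ Dm rp O Bv L ((lev v - 1 : ℕ) * h)))

variable {w : ℤ} {o : V} {r : ℕ → ℕ}

theorem mem_Y {v : ℕ × ℕ} {f : V} : f ∈ Y hloc rp O L M s b h D w o r v ↔ v ≠ (0, 0) ∧
    f ∈ th hloc (r (lev v)) {o} ∧ f ∈ O ∧ lev v * h ≤ L (rp f) ∧
    L (rp f) < lev v * h + w ∧ |X L M s b (rp f - zz D v)| ≤ 8 := by
  classical
  unfold Y
  by_cases hv : v = (0, 0)
  · rw [if_pos hv]
    simp [hv]
  · rw [if_neg hv, Finset.mem_filter]
    simp [hv]

theorem mem_Rg {v : ℕ × ℕ} {e : Sym2 V} : e ∈ Rg hloc rp O Bv L M s b h D o r v ↔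
    (∀ x ∈ e, x ∈ th hloc (r (lev v + 1)) {o}) ∧ e ∈ G.edgeSet ∧
    (∀ x ∈ e, x ∈ Dm rp O Bv L ((lev v + 1 : ℕ) * h) ∧ |X L M s b (rp x - zz D v)| ≤ 100) ∧
    (2 ≤ lev v → ∃ x ∈ e, x ∉ Dm rp O Bv L ((lev v - 1 : ℕ) * h)) := by
  classical
  unfold Rg
  rw [Finset.mem_filter, Finset.mem_sym2_iff]

/-- The numerical requirements on the screen spacing `h`, the layer width `w` and `b`. -/
structure Num (c w h : ℤ) (b s : ℝ) (k : ℕ) (r : ℕ → ℕ) : Prop where
  c_nonneg : 0 ≤ c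
  w_pos : 0 < w
  h_ge : w + 2 * c < h
  b_ge : 3 * (c : ℝ) ≤ b
  s_le : |s| ≤ 2
  r_step : ∀ n, r n + k ≤ r (n + 1)

/-- a nearby vertex has nearly the same horizontal coordinate -/
theorem abs_X_le (hc : Coord L M) (hn : Num c w h b s k r) (hb : 0 < b) {u : P} (h1 : |u.1| ≤ c)
    (h2 : |u.2| ≤ c) : |X L M s b u| ≤ 1 := by
  have hL := hc.abs_L_le h1 h2
  have hM := hc.abs_M_le h1 h2
  have hL' : |(L u : ℝ)| ≤ c := by exact_mod_cast hL
  have hM' : |(M u : ℝ)| ≤ c := by exact_mod_cast hM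
  unfold X
  rw [abs_div, abs_of_pos hb, div_le_one hb]
  calc |(M u : ℝ) - s * L u| ≤ |(M u : ℝ)| + |s * L u| := abs_sub _ _
    _ ≤ c + 2 * c := by
        rw [abs_mul]
        have := mul_le_mul hn.s_le hL' (abs_nonneg _) (by norm_num)
        linarith
    _ ≤ b := by linarith [hn.b_ge]

section lay

variable (hl : Loc G hloc rp O Bv nb blk k Lb K c) (hD : Lat L M s b h D)
  (hn : Num c w h b s k r)

include hl hD hn

theorem h_pos : 0 < h := by
  have := hn.h_ge; have := hn.w_pos; have := hn.c_nonneg; omega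

omit hn in
/-- the height of a block containing a vertex near `f` -/
theorem L_near {f : V} (hf : f ∈ O) {x : V} (hx : x ∈ nb f) : |L (rp x) - L (rp f)| ≤ c := by
  rw [← hD.coord.L_sub]
  exact hD.coord.abs_L_le (hl.near f hf x hx).1 (hl.near f hf x hx).2

theorem X_near {f : V} (hf : f ∈ O) {x : V} (hx : x ∈ nb f) :
    |X L M s b (rp x - rp f)| ≤ 1 :=
  abs_X_le hD.coord hn (by linarith [hD.b_ge]) (hl.near f hf x hx).1 (hl.near f hf x hx).2

theorem blk_En {v : ℕ × ℕ} {f : V} (hf : f ∈ Y hloc rp O L M s b h D w o r v) {e : Sym2 V}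
    (he : e ∈ blk f) : e ∈ En G rp O Bv L h (lev v + 1) ∧ e ∉ En G rp O Bv L h (lev v) := by
  obtain ⟨hv, h1, hfO, h2, h3, h4⟩ := mem_Y.1 hf
  have hblk := (hl.mem_blk f hfO e).1 he
  refine ⟨⟨by omega, hblk.1, ?_⟩, ?_⟩
  · intro x hx g hg hxg
    have hxf := hl.blk_nb f hfO e he x hx
    have h5 := abs_le.1 (L_near hl hD hfO hxf)
    have h6 := abs_le.1 (L_near hl hD hg (hl.Bv_nb g hg hxg))
    have h7 := hn.h_ge
    push_cast
    nlinarith [h5.1, h5.2, h6.1, h6.2]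
  · rintro ⟨hj, _, h5⟩
    obtain ⟨x, hx, hxf⟩ := hblk.2
    have := h5 x hx f hfO hxf
    omega

theorem blk_Rg {v : ℕ × ℕ} {f : V} (hf : f ∈ Y hloc rp O L M s b h D w o r v) :
    blk f ⊆ Rg hloc rp O Bv L M s b h D o r v := by
  intro e he
  have hEn := blk_En hl hD hn hf he
  obtain ⟨hv, h1, hfO, h2, h3, h4⟩ := mem_Y.1 hf
  have hblk := (hl.mem_blk f hfO e).1 he
  rw [mem_Rg]
  refine ⟨?_, hblk.1, ?_, ?_⟩
  · intro x hx
    have hxf := hl.nb_th f hfO (hl.blk_nb f hfO e he x hx)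
    have h5 : th hloc k {f} ⊆ th hloc (k + r (lev v)) {o} := by
      rw [← th_add]
      exact th_mono hloc k (Finset.singleton_subset_iff.2 h1)
    exact th_mono_n hloc (by have := hn.r_step (lev v); omega) _ (h5 hxf)
  · intro x hx
    refine ⟨hEn.1.2.2 x hx, ?_⟩
    have h5 : rp x - zz D v = (rp x - rp f) + (rp f - zz D v) := by abel
    rw [h5, hD.coord.X_add]
    have h6 := X_near hl hD hn hfO (hl.blk_nb f hfO e he x hx)
    calc |X L M s b (rp x - rp f) + X L M s b (rp f - zz D v)|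
        ≤ |X L M s b (rp x - rp f)| + |X L M s b (rp f - zz D v)| := abs_add_le _ _
      _ ≤ 100 := by linarith
  · intro h2v
    obtain ⟨x, hx, hxf⟩ := hblk.2
    refine ⟨x, hx, fun hcon => ?_⟩
    have h5 := hcon f hfO hxf
    have h6 := h_pos hl hD hn
    have h7 : ((lev v - 1 : ℕ) : ℤ) ≤ lev v := by omega
    nlinarith

omit hl hn in
theorem Rg_En {v : ℕ × ℕ} {e : Sym2 V} (he : e ∈ Rg hloc rp O Bv L M s b h D o r v) :
    e ∈ En G rp O Bv L h (lev v + 1) ∧ e ∉ En G rp O Bv L h (lev v - 1) := by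
  rw [mem_Rg] at he
  obtain ⟨h1, h2, h3, h4⟩ := he
  refine ⟨⟨by omega, h2, fun x hx => (h3 x hx).1⟩, ?_⟩
  rintro ⟨hj, _, h5⟩
  obtain ⟨x, hx, hx'⟩ := h4 (by omega)
  exact hx' (h5 x hx)

omit hl hn in
theorem Rg_disj' {v v' : ℕ × ℕ} (hlev : lev v' = lev v) (hvv : v.1 + 6 ≤ v'.1) :
    Disjoint (Rg hloc rp O Bv L M s b h D o r v) (Rg hloc rp O Bv L M s b h D o r v') := by
  rw [Finset.disjoint_left]
  intro e he he'
  rw [mem_Rg] at he he'
  obtain ⟨x, hx⟩ : ∃ x, x ∈ e := by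
    induction e with
    | _ x y => exact ⟨x, Sym2.mem_mk_left x y⟩
  have h1 := abs_le.1 (he.2.2.1 x hx).2
  have h2 := abs_le.1 (he'.2.2.1 x hx).2
  rw [hD.coord.X_sub] at h1 h2
  have h3 := hD.sep hlev hvv
  linarith [h1.1, h1.2, h2.1, h2.2]


theorem lay_fin (x : V) :
    {n | ∃ v, lev v = n ∧ ∃ f ∈ Y hloc rp O L M s b h D w o r v, x ∈ Bv f}.Finite := by
  refine (Set.finite_Iic ((L (rp x) + c).toNat)).subset ?_
  rintro n ⟨v, rfl, f, hf, hx⟩
  obtain ⟨hv, h1, hfO, h2, h3, h4⟩ := mem_Y.1 hf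
  have h5 := abs_le.1 (L_near hl hD hfO (hl.Bv_nb f hfO hx))
  have h6 := h_pos hl hD hn
  rw [Set.mem_Iic]
  have h7 : (lev v : ℤ) ≤ lev v * h := by nlinarith
  have h8 : (lev v : ℤ) ≤ L (rp x) + c := by linarith [h5.1]
  omega

/-- **helper704's layered data.** -/
noncomputable def mkLay (hK : 1 ≤ K) (A : Finset V) (tub : ℕ × ℕ → V → Bool → Finset (Sym2 V))
    (tubA : Bool → Finset (Sym2 V)) (m : ℕ)
    (tub_card : ∀ v, ∀ f ∈ Y hloc rp O L M s b h D w o r v, ∀ i, (tub v f i).card ≤ m)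
    (tubA_card : ∀ i, (tubA i).card ≤ m)
    (tub_Rg : ∀ v, ∀ f ∈ Y hloc rp O L M s b h D w o r v, ∀ i,
      tub v f i ⊆ Rg hloc rp O Bv L M s b h D o r v)
    (tubA_Rg : ∀ i, tubA i ⊆ Rg hloc rp O Bv L M s b h D o r (0, 0)) :
    Win.Lay.{u, u} G V where
  A := A
  blk := blk
  nb := nb
  vtx := Bv
  En := En G rp O Bv L h
  Y := Y hloc rp O L M s b h D w o r
  Rg := Rg hloc rp O Bv L M s b h D o r
  tub := tub
  tubA := tubA
  L := Lb
  m := m
  K := K
  R := 6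
  K_pos := hK
  R_pos := by norm_num
  En_mono := En_mono (h_pos hl hD hn).le
  Y_zero := by
    apply Finset.eq_empty_of_forall_notMem
    intro f hf
    exact (mem_Y.1 hf).1 rfl
  Rg_edge := fun v e he => (mem_Rg.1 he).2.1
  blk_card := fun v f hf => hl.card_blk f (mem_Y.1 hf).2.2.1
  tub_card := tub_card
  tubA_card := tubA_card
  tub_Rg := tub_Rg
  tubA_Rg := tubA_Rg
  blk_En := fun v f hf e he => blk_En hl hD hn hf he
  blk_Rg := fun v f hf => blk_Rg hl hD hn hf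
  vtx_ne := fun v f hf => ⟨f, hl.self f (mem_Y.1 hf).2.2.1⟩
  vtx_nb := fun v f hf => hl.Bv_nb f (mem_Y.1 hf).2.2.1
  nb_join := fun v f hf => hl.conn f (mem_Y.1 hf).2.2.1
  blk_overlap := fun v f hf T _ hT => hl.overlap f (mem_Y.1 hf).2.2.1 T hT
  Rg_En := fun v e he => (Rg_En hD he).1
  Rg_low := fun v _ e he => (Rg_En hD he).2
  Rg_sep := fun v v' hlev hvv => Rg_disj' hD hlev hvv
  lay_fin := lay_fin hl hD hn

end lay

end Crest.Agent.R147.Pg
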