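import Crest.Agent.R147.DustFin_Mg
import Crest.Agent.R147.Sp58Boot
import Crest.Agent.R147.Cl684Exp
import Crest.Agent.R147.Nm53Mov_Mg
import Crest.Agent.R147.KN.TStar
import Crest.Agent.R147.KN.Basic
import Crest.Agent.R147.KN.Win
import Crest.Agent.R147.Lo505_Mg

-- ▼ part R147/StAsm
section

/-!
R147 (helper505): assembly. S0207 is reduced to the case of an equivariant Lipschitz map to `ℤ²`
on an amenable graph (nonamenable: helper684; superpolynomial growth: helper58/326/856/642;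
structure theorem: St*).
-/

set_option autoImplicit false

open Crest.Agent.R159
open Crest.ProbabilityR.Percolation MeasureTheory ProbabilityTheory unitInterval Filter

namespace Crest.Agent.R147.St

universe u
variable {V : Type u} {G : SimpleGraph V}

theorem ncard_ball_eq_card_th (hconn : G.Connected) (hloc : ∀ v : V, (G.neighborSet v).Finite)
    (o : V) (n : ℕ) : {v | G.dist o v ≤ n}.ncard = (Cl.th hloc n {o}).card := by
  classical
  rw [← Set.ncard_coe_finset]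
  congr 1
  ext v
  rw [Finset.mem_coe, Cl.mem_th]
  constructor
  · intro hv
    obtain ⟨w, hw⟩ := hconn.exists_walk_length_eq_dist o v
    exact ⟨o, Finset.mem_singleton_self o, w, by rw [hw]; exact hv⟩
  · rintro ⟨a, ha, w, hw⟩
    rw [Finset.mem_singleton] at ha
    subst ha
    exact (SimpleGraph.dist_le w).trans hw

/-- **The reduction** of S0207 to graphs with an equivariant Lipschitz map to `ℤ²`. -/
theorem reduction [Infinite V] (hconn : G.Connected)
    (hloc : ∀ v : V, (G.neighborSet v).Finite) (hqt : IsQuasiTransitive G)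
    (hlt : bondCriticalValue G < 1) (p : I) (hp : (p : ℝ) = bondCriticalValue G)
    (hZ : ¬ IsVertexNonamenable G → Z2Data G →
      setBernoulli G.edgeSet p {ω | HasInfiniteCluster G ω} = 0) :
    setBernoulli G.edgeSet p {ω | HasInfiniteCluster G ω} = 0 := by
  have : Countable V := Inf.countable_of_connected G hconn hloc
  by_cases hna : IsVertexNonamenable G
  · exact Cl.nonamenable_case hconn hloc hqt hna hlt p hp
  obtain ⟨o⟩ : Nonempty V := inferInstance
  rcases Z2Data_or_superpolynomial hconn hloc hqt hlt o with ⟨⟨Z⟩⟩ | h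
  · exact hZ hna Z
  · refine Sp.superpoly_zero_of_dust (Dust.dustFin V) hconn hloc hqt hna o (fun d => ?_) hlt p hp
    obtain ⟨n₀, hn₀⟩ := eventually_atTop.1 (h 1 d)
    refine ⟨n₀, fun n hn => ?_⟩
    have h1 := hn₀ n hn
    rw [ncard_ball_eq_card_th hconn hloc, one_mul] at h1
    exact (Nat.pow_le_pow_left (Nat.le_succ n) d).trans h1.le

end Crest.Agent.R147.St
end

-- ▼ part R147/End490B
section

/-!
Row 147 (helper490), final assembly, part B: the constants and the theorem for `Z2Data`, from the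
statement `E4c` (single moves ⇒ annealed tubes).
-/

set_option autoImplicit false

open Crest.ProbabilityR.Percolation MeasureTheory ProbabilityTheory unitInterval Filter
open Crest.Agent.R159 Crest.Agent.R159.Sharp Crest.Agent.R147.Cl

namespace Crest.Agent.R147.Fi

universe u
variable {V : Type u} {G : SimpleGraph V}

/-- the statement of block E4c -/
def E4c (hloc : ∀ v : V, (G.neighborSet v).Finite) (Z : St.Z2Data G) (o : V) (p : I) : Prop :=
  ∀ β : ℝ, 0 < β → ∃ δ : ℝ, 0 < δ ∧ ∃ Kp : ℕ, 0 < Kp ∧ ∀ k : ℕ,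
    (∀ v, ∃ f ∈ Lo.Orb Z o, v ∈ th hloc k {f}) → ∃ n : ℕ, ∀ N : ℕ, ∃ t T₀ : ℝ,
    ∀ (L M : ℤ × ℤ → ℤ) (T b s y : ℝ) (r : ℕ) (Ein : Bool → V → Finset (Sym2 V))
      (Tgt : Bool → V → Finset V), T₀ ≤ b →
      Nm.MovOut hloc Z o k p Kp n δ t L M T b s y r Ein Tgt →
      ∃ (h w : ℤ) (ρ : ℕ) (tub : ℕ → V → ℤ → Finset (Sym2 V)) (Ysc : ℕ → V → ℤ → Finset V),
        0 < w ∧ w + 2 * (Z.C * ((k + 1 : ℕ) : ℤ)) < h ∧
        3 * T + 2 * ((Z.C * ((k + 1 : ℕ) : ℤ) : ℤ) : ℝ) ≤ h ∧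
        Ann hloc Z o k p L M s b h w T ρ N β tub Ysc

theorem p_pos [Countable V] (p : I)
    (hpos : setBernoulli G.edgeSet p {ω | HasInfiniteCluster G ω} ≠ 0) : 0 < (p : ℝ) := by
  rcases eq_or_lt_of_le p.2.1 with h | h
  · exfalso
    apply hpos
    have hq' : p = 0 := Subtype.ext h.symm
    rw [hq']
    exact Cl.measure_hasInf_eq_zero 0 (fun x => Cl.th0_zero x)
  · exact h

/-- **the case of `Z2Data`**, from E4c -/
theorem Z2_zero_of (hconn : G.Connected) (hloc : ∀ v : V, (G.neighborSet v).Finite)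
    (hlt : bondCriticalValue G < 1) (p : I) (hp : (p : ℝ) = bondCriticalValue G)
    (hna : ¬ IsVertexNonamenable G) (Z : St.Z2Data G)
    (hE : ∀ o : V, 0 < (p : ℝ) → (p : ℝ) < 1 → E4c hloc Z o p) :
    setBernoulli G.edgeSet p {ω | HasInfiniteCluster G ω} = 0 := by
  have : Countable V := Inf.countable_of_connected G hconn hloc
  have hqt : IsQuasiTransitive G := Lo.quasiTransitive Z
  by_contra hpos
  have hp0 : 0 < (p : ℝ) := p_pos p hpos
  have hp1 : (p : ℝ) < 1 := by rw [hp]; exact hlt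
  obtain ⟨o⟩ := hconn.nonempty
  -- absolute constants
  obtain ⟨A, hA⟩ : ∃ A : ℝ, A = (1 / 2) ^ (102 * 6) := ⟨_, rfl⟩
  have hA0 : 0 < A := by rw [hA]; exact pow_pos (by norm_num) _
  set σ' : ℝ := A / 4 with hσ'
  have hσ'0 : 0 < σ' := by positivity
  set β : ℝ := σ' * σ' / 4 with hβ
  have hβ0 : 0 < β := by positivity
  obtain ⟨δ, hδ, Kp, hKp, hE1⟩ := hE o hp0 hp1 β hβ0
  obtain ⟨k₀, hk₀⟩ := Nm.moves hconn hloc hqt hna Z o p hp0 hp1 hpos hδ hKp
  obtain ⟨k₁, hk₁⟩ := Lo.exists_cover hloc hconn Z o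
  set k := max k₀ k₁ with hk
  have hcov : ∀ v, ∃ f ∈ Lo.Orb Z o, v ∈ th hloc k {f} := hk₁ k (le_max_right _ _)
  obtain ⟨Lb, hLb⟩ := Lo.exists_card_blk hloc Z k
  obtain ⟨K, hK1, hK⟩ := exists_overlap' hloc Z k
  obtain ⟨n, hE2⟩ := hE1 k hcov
  -- the number of blocks
  have hq : 0 < (p : ℝ) ^ Lb := pow_pos hp0 Lb
  obtain ⟨M', hM'⟩ := exists_nat_gt (4 / ((p : ℝ) ^ Lb * σ'))
  have hM'0 : (0 : ℝ) < M' := lt_trans (by positivity) hM'
  have hM'1 : 1 ≤ M' := by
    have : (0 : ℝ) < M' := hM'0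
    exact_mod_cast this
  have h4 : 4 / ((p : ℝ) ^ Lb * M') < σ' := by
    rw [div_lt_iff₀ (by positivity)]
    rw [div_lt_iff₀ (by positivity)] at hM'
    linarith
  obtain ⟨t, T₀, hE3⟩ := hE2 (M' * K)
  set c : ℤ := Z.C * ((k + 1 : ℕ) : ℤ) with hc
  obtain ⟨L, M, T, b, s, y, r, Ein, Tgt, hT₀, hmov⟩ := hk₀ k (le_max_left _ _) n t
    (max T₀ (max 1 (3 * (c : ℝ))))
  obtain ⟨h, w, ρ, tub, Ysc, hw, hh, hT, hAnn⟩ := hE3 L M T b s y r Ein Tgt
    ((le_max_left _ _).trans hT₀) hmov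
  refine false_of_ann hK1 hLb hK hcov hmov.coord
    (((le_max_left _ _).trans (le_max_right _ _)).trans hT₀) hmov.s_le hw
    (((le_max_right _ _).trans (le_max_right _ _)).trans hT₀) hh hT hp0 hp.le hM'1 hβ0.le
    hσ'0 ?_ hAnn
  have h5 : 4 * β / σ' = σ' := by
    rw [hβ]
    field_simp
  rw [h5, ← hA]
  linarith

end Crest.Agent.R147.Fi
end

-- ▼ part R147/Nm53KN
section

/-!
# Kozma–Nitzan inequality for general increasing goals, a start set, and a sure-open set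

`kn_set`: percolation on `Ω` with the hyperedges of `O` open for sure, poles `F` (finite set of
vertices), a start SET `A`, an arbitrary increasing property `goal` of vertex sets: if from every
pole the goal fails with probability at most `τ`, then
`P(cluster of A meets F and the goal fails from A) ≤ τ`.
-/

set_option autoImplicit false
set_option linter.unusedSectionVars false

open Finset

namespace Crest.Agent.R147.Nm

open Crest.Agent.R147.KN

variable {V E : Type*} [DecidableEq V] [DecidableEq E] [Fintype V]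

open Classical in
/-- saturation of a finite set under a relation -/
noncomputable def sat (r : V → V → Prop) (D : Finset V) : Finset V :=
  Finset.univ.filter (fun y => ∃ x ∈ D, r x y)

theorem mem_sat {r : V → V → Prop} {D : Finset V} {y : V} :
    y ∈ sat r D ↔ ∃ x ∈ D, r x y := by
  classical
  simp [sat]

theorem subset_sat {r : V → V → Prop} (hr : Equivalence r) (D : Finset V) : D ⊆ sat r D :=
  fun x hx => mem_sat.2 ⟨x, hx, hr.refl x⟩

theorem sat_mono {r : V → V → Prop} {D D' : Finset V} (h : D ⊆ D') : sat r D ⊆ sat r D' := by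
  intro y hy
  obtain ⟨x, hx, hxy⟩ := mem_sat.1 hy
  exact mem_sat.2 ⟨x, h hx, hxy⟩

theorem sat_sat {r : V → V → Prop} (hr : Equivalence r) (D : Finset V) :
    sat r (sat r D) = sat r D := by
  apply Finset.Subset.antisymm
  · intro z hz
    obtain ⟨y, hy, hyz⟩ := mem_sat.1 hz
    obtain ⟨x, hx, hxy⟩ := mem_sat.1 hy
    exact mem_sat.2 ⟨x, hx, hr.trans hxy hyz⟩
  · exact subset_sat hr _

theorem disj_sat {r : V → V → Prop} (hr : Equivalence r) {D D' : Finset V} :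
    Disjoint (sat r D) D' ↔ Disjoint D (sat r D') := by
  rw [Finset.disjoint_left, Finset.disjoint_left]
  constructor
  · intro h x hx hx'
    obtain ⟨y, hy, hyx⟩ := mem_sat.1 hx'
    exact h (mem_sat.2 ⟨x, hx, hr.symm hyx⟩) hy
  · intro h y hy hy'
    obtain ⟨x, hx, hxy⟩ := mem_sat.1 hy
    exact h hx (mem_sat.2 ⟨y, hy', hr.symm hxy⟩)

/-- the contracted hypergraph: every hyperedge is saturated -/
noncomputable def con (G : HG V E) (r : V → V → Prop) : HG V E where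
  inc e := sat r (G.inc e)
  p := G.p
  p_nonneg := G.p_nonneg
  p_lt := G.p_lt


theorem sat_cl_con (G : HG V E) {r : V → V → Prop} (hr : Equivalence r) (S : Finset E)
    (D : Finset V) : sat r ((con G r).cl S D) = (con G r).cl S (sat r D) := by
  have key : ∀ T : Finset V, (con G r).Sat S T → (con G r).Sat S (sat r T) := by
    intro T hT e he
    rcases hT e he with h | h
    · exact Or.inl (h.trans (subset_sat hr T))
    · right
      have h2 : Disjoint (sat r (G.inc e)) T := h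
      show Disjoint (sat r (G.inc e)) (sat r T)
      rw [← disj_sat hr, sat_sat hr]
      exact h2
  apply Finset.Subset.antisymm
  · -- the cluster of a saturated set is saturated
    have h1 : (con G r).cl S D ⊆ (con G r).cl S (sat r D) :=
      (con G r).cl_mono (Finset.Subset.refl _) (subset_sat hr D)
    refine (sat_mono h1).trans ?_
    -- saturated core
    classical
    set T := (con G r).cl S (sat r D) with hT
    set T' := T.filter (fun y => ∀ z, r y z → z ∈ T) with hT'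
    have hsub : T ⊆ T' := by
      refine (con G r).cl_subset ?_ ?_
      · intro y hy
        rw [hT', Finset.mem_filter]
        refine ⟨(con G r).subset_cl S _ hy, fun z hz => ?_⟩
        refine (con G r).subset_cl S _ ?_
        obtain ⟨x, hx, hxy⟩ := mem_sat.1 hy
        exact mem_sat.2 ⟨x, hx, hr.trans hxy hz⟩
      · intro e he
        rcases (con G r).sat_cl S (sat r D) e he with h | h
        · left
          intro y hy
          rw [hT', Finset.mem_filter]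
          refine ⟨h hy, fun z hz => h ?_⟩
          have hy' : y ∈ sat r (G.inc e) := hy
          show z ∈ sat r (G.inc e)
          obtain ⟨x, hx, hxy⟩ := mem_sat.1 hy'
          exact mem_sat.2 ⟨x, hx, hr.trans hxy hz⟩
        · right
          exact Finset.disjoint_of_subset_right (Finset.filter_subset _ _) h
    intro z hz
    obtain ⟨y, hy, hyz⟩ := mem_sat.1 hz
    exact (Finset.mem_filter.1 (hsub hy)).2 z hyz
  · refine (con G r).cl_subset (sat_mono ((con G r).subset_cl S D)) ?_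
    exact key _ ((con G r).sat_cl S D)

/-- glue relation: same cluster of `O`, or both in the cluster of `A` -/
def glue (G : HG V E) (O : Finset E) (A : Finset V) (x y : V) : Prop :=
  y ∈ G.cl O {x} ∨ (x ∈ G.cl O A ∧ y ∈ G.cl O A)

theorem glue_equiv (G : HG V E) (O : Finset E) (A : Finset V) : Equivalence (glue G O A) where
  refl x := Or.inl (G.subset_cl O {x} (Finset.mem_singleton_self x))
  symm := by
    intro x y h
    rcases h with h | h
    · exact Or.inl (G.mem_cl_symm h)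
    · exact Or.inr ⟨h.2, h.1⟩
  trans := by
    intro x y z h1 h2
    have hstep : ∀ {a b : V}, b ∈ G.cl O {a} → a ∈ G.cl O A → b ∈ G.cl O A := by
      intro a b hb ha
      have h3 : G.cl O {a} ⊆ G.cl O (G.cl O A) :=
        G.cl_mono (Finset.Subset.refl _) (by rwa [Finset.singleton_subset_iff])
      rw [G.cl_cl] at h3
      exact h3 hb
    rcases h1 with h1 | h1 <;> rcases h2 with h2 | h2
    · left
      rw [← G.cl_singleton_eq h1]; exact h2
    · exact Or.inr ⟨hstep (G.mem_cl_symm h1) h2.1, h2.2⟩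
    · exact Or.inr ⟨h1.1, hstep h2 h1.2⟩
    · exact Or.inr ⟨h1.1, h2.2⟩

theorem sat_glue_eq (G : HG V E) {O : Finset E} {A T : Finset V} (hT : G.Sat O T)
    (hA : G.cl O A ⊆ T) : sat (glue G O A) T = T := by
  apply Finset.Subset.antisymm
  · intro y hy
    obtain ⟨x, hx, hxy⟩ := mem_sat.1 hy
    rcases hxy with h | h
    · exact G.cl_subset (by rwa [Finset.singleton_subset_iff]) hT h
    · exact hA h.2
  · exact subset_sat (glue_equiv G O A) T

theorem gSat_of_sat (G : HG V E) {O : Finset E} {A T : Finset V}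
    (hT : sat (glue G O A) T = T) : G.Sat O T := by
  intro e he
  by_cases hd : Disjoint (G.inc e) T
  · exact Or.inr hd
  · left
    rw [Finset.not_disjoint_iff] at hd
    obtain ⟨x, hx, hxT⟩ := hd
    intro y hy
    rw [← hT, mem_sat]
    refine ⟨x, hxT, Or.inl ?_⟩
    rcases G.sat_cl O {x} e he with h | h
    · exact h hy
    · exact absurd (G.subset_cl O {x} (Finset.mem_singleton_self x))
        (Finset.disjoint_left.1 h hx)

theorem con_cl_start (G : HG V E) (O S : Finset E) (A : Finset V) {a : V} (ha : a ∈ A) :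
    (con G (glue G O A)).cl S (sat (glue G O A) {a}) = G.cl (O ∪ S) A := by
  set r := glue G O A with hr
  have he := glue_equiv G O A
  have hAT : G.cl O A ⊆ G.cl (O ∪ S) A := G.cl_mono Finset.subset_union_left (Finset.Subset.refl _)
  have hsT : sat r (G.cl (O ∪ S) A) = G.cl (O ∪ S) A :=
    sat_glue_eq G ((G.sat_cl (O ∪ S) A).mono Finset.subset_union_left) hAT
  apply Finset.Subset.antisymm
  · refine (con G r).cl_subset ?_ ?_
    · rw [← hsT]
      exact sat_mono (by rw [Finset.singleton_subset_iff]; exact G.subset_cl _ _ ha)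
    · intro e heS
      rcases G.sat_cl (O ∪ S) A e (Finset.mem_union_right _ heS) with h | h
      · left
        show sat r (G.inc e) ⊆ _
        rw [← hsT]
        exact sat_mono h
      · right
        show Disjoint (sat r (G.inc e)) _
        rw [disj_sat he, hsT]
        exact h
  · set T' := (con G r).cl S (sat r {a}) with hT'
    have hs' : sat r T' = T' := by
      rw [hT', sat_cl_con G he, sat_sat he]
    refine G.cl_subset ?_ ?_
    · intro y hy
      refine (con G r).subset_cl S _ ?_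
      exact mem_sat.2 ⟨a, Finset.mem_singleton_self a, Or.inr ⟨G.subset_cl _ _ ha,
        G.subset_cl _ _ hy⟩⟩
    · intro e heS
      rcases Finset.mem_union.1 heS with h | h
      · exact gSat_of_sat G hs' e h
      · rcases (con G r).sat_cl S (sat r {a}) e h with h1 | h1
        · left
          exact (subset_sat he (G.inc e)).trans h1
        · right
          exact Finset.disjoint_of_subset_left (subset_sat he (G.inc e)) h1

theorem cl_subset_con_cl (G : HG V E) (O S : Finset E) (A D : Finset V) :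
    G.cl (O ∪ S) D ⊆ (con G (glue G O A)).cl S (sat (glue G O A) D) := by
  set r := glue G O A with hr
  have he := glue_equiv G O A
  set T' := (con G r).cl S (sat r D) with hT'
  have hs' : sat r T' = T' := by
    rw [hT', sat_cl_con G he, sat_sat he]
  refine G.cl_subset ?_ ?_
  · exact (subset_sat he D).trans ((con G r).subset_cl S _)
  · intro e heS
    rcases Finset.mem_union.1 heS with h | h
    · exact gSat_of_sat G hs' e h
    · rcases (con G r).sat_cl S (sat r D) e h with h1 | h1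
      · left
        exact (subset_sat he (G.inc e)).trans h1
      · right
        exact Finset.disjoint_of_subset_left (subset_sat he (G.inc e)) h1

open Classical in
/-- **Kozma–Nitzan for sets and increasing goals** (constant one), with a sure-open set `O`. -/
theorem kn_set (G : HG V E) (Ω O : Finset E) (A F : Finset V) (goal : Finset V → Prop)
    (hgoal : ∀ C C' : Finset V, C ⊆ C' → goal C → goal C') {τ : ℝ} (hτ0 : 0 ≤ τ)
    (hτ : ∀ y ∈ F, G.ex Ω (fun S => if goal (G.cl (O ∪ S) {y}) then 0 else 1) ≤ τ) :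
    G.ex Ω (fun S => if ¬ Disjoint (G.cl (O ∪ S) A) F ∧ ¬ goal (G.cl (O ∪ S) A) then 1 else 0)
      ≤ τ := by
  rcases A.eq_empty_or_nonempty with hA | ⟨a, ha⟩
  · subst hA
    refine G.ex_le_of_le fun S _ => ?_
    have h0 : G.cl (O ∪ S) ∅ = ∅ := by
      apply Finset.eq_empty_of_forall_notMem
      intro x hx
      obtain ⟨y, hy, _⟩ := (G.mem_cl_iff_exists).1 hx
      simp at hy
    rw [h0, if_neg (fun h => h.1 (Finset.disjoint_empty_left _))]
    exact hτ0
  set r := glue G O A with hr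
  have he := glue_equiv G O A
  set K := con G r with hK
  set P := sat r F with hP
  -- T* for the contracted hypergraph, one query at `a`
  obtain ⟨ℓ, hℓ0, hℓu, hℓ1⟩ := K.Tstar Ω P (fun _ _ => some a) 1 P ∅
    (Finset.disjoint_empty_right _) (Finset.union_empty P).symm
  set u : Finset V → ℝ := fun C => if goal (sat r C) then 1 else 0 with hu
  have humono : Monotone u := by
    intro C C' h
    simp only [hu]
    by_cases h1 : goal (sat r C)
    · rw [if_pos h1, if_pos (hgoal _ _ (sat_mono h) h1)]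
    · rw [if_neg h1]; split_ifs <;> norm_num
  have h1 := hℓu u humono
  have hrun : ∀ Φ : Finset V → ℝ,
      K.run Ω P (fun _ _ => some a) (fun _ => 0)
        (fun C D => if Disjoint D ∅ then Φ (C ∪ D) else 0) 1 ∅
      = G.ex Ω (fun S => if Disjoint (K.cl S {a}) P then 0 else Φ (K.cl S {a})) := by
    intro Φ
    simp only [HG.run, HG.off_empty, Finset.disjoint_empty_right, if_true, Finset.empty_union]
    rfl
  have hrun1 : K.run Ω P (fun _ _ => some a) (fun _ => 0)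
        (fun _ D => if Disjoint D ∅ then 1 else 0) 1 ∅
      = G.ex Ω (fun S => if Disjoint (K.cl S {a}) P then 0 else 1) := by
    simp only [HG.run, HG.off_empty, Finset.disjoint_empty_right, if_true]
    rfl
  have hrunu : K.run Ω P (fun _ _ => some a) (fun _ => 0)
        (fun C D => if Disjoint D ∅ then u (C ∪ D) else 0) 1 ∅
      = G.ex Ω (fun S => if Disjoint (K.cl S {a}) P then 0 else u (K.cl S {a})) := hrun u
  rw [hrunu] at h1
  rw [hrun1] at hℓ1
  -- weights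
  have h5 : ∀ i, K.cE Ω ∅ i (fun _ => 1) = 1 := by
    intro i
    unfold HG.cE
    simp only [Finset.disjoint_empty_right, if_true]
    rw [K.ex_const]
  have h10 : ∑ i ∈ P, ℓ i * K.cE Ω ∅ i (fun _ => 1) = ∑ i ∈ P, ℓ i := by
    refine Finset.sum_congr rfl fun i _ => ?_
    rw [h5, mul_one]
  rw [h10] at hℓ1
  have hle1 : ∑ i ∈ P, ℓ i ≤ 1 := by
    rw [hℓ1]
    refine G.ex_le_of_le fun S _ => ?_
    split_ifs <;> norm_num
  -- failure from each pole
  have h6 : ∀ i ∈ P, 1 - τ ≤ K.cE Ω ∅ i u := by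
    intro i hi
    obtain ⟨y, hy, hyi⟩ := mem_sat.1 hi
    have h7 := hτ y hy
    have h8 : 1 - G.ex Ω (fun S => if goal (G.cl (O ∪ S) {y}) then (0 : ℝ) else 1)
        ≤ K.cE Ω ∅ i u := by
      have h11 := G.ex_sub Ω (fun _ => (1 : ℝ))
        (fun S => if goal (G.cl (O ∪ S) {y}) then (0 : ℝ) else 1)
      rw [G.ex_const] at h11
      rw [← h11]
      unfold HG.cE
      show G.ex Ω _ ≤ G.ex Ω _
      refine G.ex_mono fun S _ => ?_
      simp only [Finset.disjoint_empty_right, if_true, hu]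
      have hsub : G.cl (O ∪ S) {y} ⊆ sat r (K.cl S {i}) := by
        have h12 := cl_subset_con_cl G O S A {y}
        have h13 : sat r ({y} : Finset V) = sat r {i} := by
          apply Finset.Subset.antisymm
          · intro z hz
            obtain ⟨w, hw, hwz⟩ := mem_sat.1 hz
            rw [Finset.mem_singleton] at hw
            subst hw
            exact mem_sat.2 ⟨i, Finset.mem_singleton_self i, he.trans (he.symm hyi) hwz⟩
          · intro z hz
            obtain ⟨w, hw, hwz⟩ := mem_sat.1 hz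
            rw [Finset.mem_singleton] at hw
            subst hw
            exact mem_sat.2 ⟨y, Finset.mem_singleton_self y, he.trans hyi hwz⟩
        rw [hK, sat_cl_con G he, ← h13]
        exact h12
      by_cases h14 : goal (G.cl (O ∪ S) {y})
      · rw [if_pos h14, if_pos (hgoal _ _ hsub h14)]; norm_num
      · rw [if_neg h14]; split_ifs <;> norm_num
    linarith
  have h9 : (1 - τ) * ∑ i ∈ P, ℓ i ≤ ∑ i ∈ P, ℓ i * K.cE Ω ∅ i u := by
    rw [Finset.mul_sum]
    refine Finset.sum_le_sum fun i hi => ?_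
    have := mul_le_mul_of_nonneg_left (h6 i hi) (hℓ0 i)
    linarith
  -- conclusion
  have h15 : G.ex Ω (fun S => if ¬ Disjoint (G.cl (O ∪ S) A) F ∧ ¬ goal (G.cl (O ∪ S) A)
      then (1 : ℝ) else 0)
      ≤ G.ex Ω (fun S => (if Disjoint (K.cl S {a}) P then (0 : ℝ) else 1)
        - (if Disjoint (K.cl S {a}) P then 0 else u (K.cl S {a}))) := by
    refine G.ex_mono fun S _ => ?_
    have hcl : sat r (K.cl S {a}) = G.cl (O ∪ S) A := by
      rw [hK, sat_cl_con G he]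
      exact con_cl_start G O S A ha
    by_cases hd : Disjoint (K.cl S {a}) P
    · have h16 : Disjoint (G.cl (O ∪ S) A) F := by
        rw [← hcl, disj_sat he]
        exact hd
      rw [if_neg (fun h => h.1 h16), if_pos hd, if_pos hd]
      norm_num
    · rw [if_neg hd, if_neg hd]
      simp only [hu, hcl]
      by_cases h17 : goal (G.cl (O ∪ S) A)
      · rw [if_neg (fun h => h.2 h17), if_pos h17]; norm_num
      · rw [if_neg h17]; split_ifs <;> norm_num
  rw [G.ex_sub] at h15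
  have h18 : ∑ i ∈ P, ℓ i * τ ≤ τ := by
    rw [← Finset.sum_mul]
    nlinarith
  have h19 : 0 ≤ ∑ i ∈ P, ℓ i := Finset.sum_nonneg fun i _ => hℓ0 i
  nlinarith

end Crest.Agent.R147.Nm
end

-- ▼ part R147/Nm53Nat
section

/-!
# Natural-mark Kozma–Nitzan inequality (#6953 Fix 1 = #6571 (0))

`nat_kn`: no sprinkling, no independent marks.  `Ωin` = edges inside the domain, `D y` = gadgets
made of edges outside the domain, attached to the possible exits `v y`.
-/

set_option autoImplicit false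
set_option linter.unusedSectionVars false

open Finset

namespace Crest.Agent.R147.Nm

open Crest.Agent.R147.KN

variable {V E : Type*} [DecidableEq V] [DecidableEq E]

theorem ex_comm (G : HG V E) (A B : Finset E) (f : Finset E → Finset E → ℝ) :
    G.ex A (fun S => G.ex B (fun T => f S T)) = G.ex B (fun T => G.ex A (fun S => f S T)) := by
  unfold HG.ex
  simp only [Finset.mul_sum]
  rw [Finset.sum_comm]
  refine Finset.sum_congr rfl fun T _ => Finset.sum_congr rfl fun S _ => ?_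
  ring

open Classical in
/-- expectation on the event that the hyperedges of `D` are all open -/
theorem ex_ind_subset_mul (G : HG V E) {D A : Finset E} (h : D ⊆ A) (f : Finset E → ℝ) :
    G.ex A (fun S => if D ⊆ S then f S else 0)
      = (∏ e ∈ D, G.p e) * G.ex (A \ D) (fun T => f (D ∪ T)) := by
  have hA : A = D ∪ (A \ D) := by rw [Finset.union_sdiff_of_subset h]
  conv_lhs => rw [hA]
  rw [G.ex_union Finset.disjoint_sdiff]
  have h1 : ∀ S, S ⊆ D → G.ex (A \ D) (fun T => if D ⊆ S ∪ T then f (S ∪ T) else 0)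
      = if S = D then G.ex (A \ D) (fun T => f (D ∪ T)) else 0 := by
    intro S hS
    by_cases hSD : S = D
    · subst hSD
      rw [if_pos rfl]
      refine G.ex_congr fun T _ => ?_
      rw [if_pos Finset.subset_union_left]
    · rw [if_neg hSD]
      have h2 : ∀ T, T ⊆ A \ D → (if D ⊆ S ∪ T then f (S ∪ T) else 0) = 0 := by
        intro T hT
        rw [if_neg]
        intro hD
        apply hSD
        apply Finset.Subset.antisymm hS
        intro x hx
        rcases Finset.mem_union.1 (hD hx) with h3 | h3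
        · exact h3
        · exact absurd hx (Finset.mem_sdiff.1 (hT h3)).2
      rw [G.ex_congr h2, G.ex_const]
  rw [G.ex_congr h1]
  unfold HG.ex
  rw [Finset.sum_eq_single D]
  · beta_reduce
    rw [if_pos rfl]
    unfold HG.wt
    simp
  · intro S _ hSD
    beta_reduce
    rw [if_neg hSD, mul_zero]
  · intro hD
    exact absurd (Finset.mem_powerset_self D) hD

open Classical in
theorem ex_ind_subset (G : HG V E) {D A : Finset E} (h : D ⊆ A) :
    G.ex A (fun S => if D ⊆ S then (1 : ℝ) else 0) = ∏ e ∈ D, G.p e := by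
  rw [ex_ind_subset_mul G h (fun _ => 1), G.ex_const, mul_one]

open Classical in
/-- a decreasing function on the event that `D` is open -/
theorem ex_ind_subset_anti (G : HG V E) {D A : Finset E} (h : D ⊆ A) (f : Finset E → ℝ)
    (hf : ∀ S S', S ⊆ S' → f S' ≤ f S) :
    G.ex A (fun S => if D ⊆ S then f S else 0) ≤ (∏ e ∈ D, G.p e) * G.ex A f := by
  rw [ex_ind_subset_mul G h]
  refine mul_le_mul_of_nonneg_left ?_ (Finset.prod_nonneg fun e _ => G.p_nonneg e)
  have hA : A = D ∪ (A \ D) := by rw [Finset.union_sdiff_of_subset h]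
  conv_rhs => rw [hA]
  rw [G.ex_union Finset.disjoint_sdiff]
  refine G.le_ex_of_le fun S hS => ?_
  refine G.ex_mono fun T _ => ?_
  exact hf _ _ (Finset.union_subset_union_left hS)

open Classical in
/-- second moment: `m` independent marks, each of them bad with small conditional probability -/
theorem no_good_mark (G : HG V E) {ι : Type*} (U : Finset E) (Y : Finset ι)
    (D : ι → Finset E) (hDU : ∀ y ∈ Y, D y ⊆ U)
    (hdis : ∀ y ∈ Y, ∀ y' ∈ Y, y ≠ y' → Disjoint (D y) (D y'))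
    (φ : ι → Finset E → ℝ) {τ ε : ℝ} (hτ : 0 < τ)
    (hφ0 : ∀ y ∈ Y, ∀ I, 0 ≤ φ y I)
    (hφ : ∀ y ∈ Y, G.ex U (fun I => if D y ⊆ I then φ y I else 0)
      ≤ (∏ e ∈ D y, G.p e) * ε)
    (hμ : 0 < ∑ y ∈ Y, ∏ e ∈ D y, G.p e) :
    G.ex U (fun I => if ∀ y ∈ Y, ¬ (D y ⊆ I ∧ φ y I ≤ τ) then (1 : ℝ) else 0)
      ≤ 4 / (∑ y ∈ Y, ∏ e ∈ D y, G.p e) + 2 * ε / τ := by
  set μ := ∑ y ∈ Y, ∏ e ∈ D y, G.p e with hμdef
  set N1 : Finset E → ℝ := fun I => ∑ y ∈ Y, if D y ⊆ I then (1 : ℝ) else 0 with hN1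
  set N2 : Finset E → ℝ := fun I => ∑ y ∈ Y, (if D y ⊆ I then φ y I / τ else 0) with hN2
  have hpt : ∀ I, I ⊆ U → (if ∀ y ∈ Y, ¬ (D y ⊆ I ∧ φ y I ≤ τ) then (1 : ℝ) else 0)
      ≤ 4 / μ ^ 2 * (N1 I - μ) ^ 2 + 2 / μ * N2 I := by
    intro I _
    have hN2nn : 0 ≤ N2 I := by
      simp only [hN2]
      refine Finset.sum_nonneg fun y hy => ?_
      split_ifs
      · exact div_nonneg (hφ0 y hy I) hτ.le
      · exact le_refl _
    have hA : 0 ≤ 4 / μ ^ 2 * (N1 I - μ) ^ 2 := by positivity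
    have hB : 0 ≤ 2 / μ * N2 I := by positivity
    split_ifs with hall
    · by_cases hsmall : N1 I ≤ μ / 2
      · have h1 : μ ^ 2 / 4 ≤ (N1 I - μ) ^ 2 := by nlinarith
        have h2 : 1 ≤ 4 / μ ^ 2 * (N1 I - μ) ^ 2 := by
          rw [div_mul_eq_mul_div, le_div_iff₀ (by positivity)]
          linarith
        linarith
      · push Not at hsmall
        have h3 : N1 I ≤ N2 I := by
          simp only [hN1, hN2]
          refine Finset.sum_le_sum fun y hy => ?_
          by_cases hDy : D y ⊆ I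
          · rw [if_pos hDy, if_pos hDy, le_div_iff₀ hτ, one_mul]
            by_contra hlt
            push Not at hlt
            exact hall y hy ⟨hDy, hlt.le⟩
          · rw [if_neg hDy, if_neg hDy]
        have h4 : 1 ≤ 2 / μ * N2 I := by
          rw [div_mul_eq_mul_div, le_div_iff₀ hμ]
          linarith
        linarith
    · linarith
  refine (G.ex_mono hpt).trans ?_
  rw [G.ex_add, G.ex_mul_left, G.ex_mul_left]
  -- variance
  have hE1 : ∀ y ∈ Y, G.ex U (fun I => if D y ⊆ I then (1 : ℝ) else 0) = ∏ e ∈ D y, G.p e :=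
    fun y hy => ex_ind_subset G (hDU y hy)
  have hvar : G.ex U (fun I => (N1 I - μ) ^ 2) ≤ μ := by
    have h5 : ∀ I, I ⊆ U → (N1 I - μ) ^ 2
        = (∑ y ∈ Y, ∑ y' ∈ Y, (if D y ⊆ I then (1 : ℝ) else 0) * (if D y' ⊆ I then (1 : ℝ) else 0))
          - 2 * μ * N1 I + μ ^ 2 := by
      intro I _
      have : (∑ y ∈ Y, ∑ y' ∈ Y, (if D y ⊆ I then (1 : ℝ) else 0)
          * (if D y' ⊆ I then (1 : ℝ) else 0)) = N1 I * N1 I := by
        rw [hN1, Finset.sum_mul_sum]
      rw [this]; ring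
    rw [G.ex_congr h5]
    have h6 : G.ex U (fun I => (∑ y ∈ Y, ∑ y' ∈ Y, (if D y ⊆ I then (1 : ℝ) else 0)
          * (if D y' ⊆ I then (1 : ℝ) else 0)) - 2 * μ * N1 I + μ ^ 2)
        = (∑ y ∈ Y, ∑ y' ∈ Y, G.ex U (fun I => (if D y ⊆ I then (1 : ℝ) else 0)
          * (if D y' ⊆ I then (1 : ℝ) else 0))) - 2 * μ * G.ex U N1 + μ ^ 2 := by
      rw [G.ex_add U (fun I => (∑ y ∈ Y, ∑ y' ∈ Y, (if D y ⊆ I then (1 : ℝ) else 0)
          * (if D y' ⊆ I then (1 : ℝ) else 0)) - 2 * μ * N1 I) (fun _ => μ ^ 2),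
        G.ex_sub U (fun I => (∑ y ∈ Y, ∑ y' ∈ Y, (if D y ⊆ I then (1 : ℝ) else 0)
          * (if D y' ⊆ I then (1 : ℝ) else 0))) (fun I => 2 * μ * N1 I), G.ex_const,
        G.ex_mul_left]
      congr 2
      rw [G.ex_sum]
      exact Finset.sum_congr rfl fun y _ => by rw [G.ex_sum]
    rw [h6]
    have h7 : G.ex U N1 = μ := by
      rw [hN1, G.ex_sum, hμdef]
      exact Finset.sum_congr rfl hE1
    have h8 : (∑ y ∈ Y, ∑ y' ∈ Y, G.ex U (fun I => (if D y ⊆ I then (1 : ℝ) else 0)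
          * (if D y' ⊆ I then (1 : ℝ) else 0)))
        ≤ ∑ y ∈ Y, ((∏ e ∈ D y, G.p e) + ∑ y' ∈ Y, (∏ e ∈ D y, G.p e) * (∏ e ∈ D y', G.p e)) := by
      refine Finset.sum_le_sum fun y hy => ?_
      rw [← Finset.add_sum_erase Y _ hy, ← Finset.add_sum_erase Y
        (fun y' => (∏ e ∈ D y, G.p e) * (∏ e ∈ D y', G.p e)) hy]
      have hdiag : G.ex U (fun I => (if D y ⊆ I then (1 : ℝ) else 0)
          * (if D y ⊆ I then (1 : ℝ) else 0)) = ∏ e ∈ D y, G.p e := by
        rw [← hE1 y hy]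
        refine G.ex_congr fun I _ => ?_
        split_ifs <;> norm_num
      have hoff : ∀ y' ∈ Y.erase y, G.ex U (fun I => (if D y ⊆ I then (1 : ℝ) else 0)
          * (if D y' ⊆ I then (1 : ℝ) else 0)) = (∏ e ∈ D y, G.p e) * (∏ e ∈ D y', G.p e) := by
        intro y' hy'
        have hne : y ≠ y' := (Finset.ne_of_mem_erase hy').symm
        have hy'Y := Finset.mem_of_mem_erase hy'
        have hd := hdis y hy y' hy'Y hne
        have : ∀ I, I ⊆ U → (if D y ⊆ I then (1 : ℝ) else 0) * (if D y' ⊆ I then (1 : ℝ) else 0)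
            = if D y ∪ D y' ⊆ I then (1 : ℝ) else 0 := by
          intro I _
          by_cases h9 : D y ⊆ I <;> by_cases h10 : D y' ⊆ I <;>
            simp [h9, h10, Finset.union_subset_iff]
        rw [G.ex_congr this, ex_ind_subset G (Finset.union_subset (hDU y hy) (hDU y' hy'Y)),
          Finset.prod_union hd]
      rw [hdiag, Finset.sum_congr rfl hoff]
      have : 0 ≤ (∏ e ∈ D y, G.p e) * (∏ e ∈ D y, G.p e) := mul_self_nonneg _
      linarith
    have h11 : ∑ y ∈ Y, ((∏ e ∈ D y, G.p e) + ∑ y' ∈ Y, (∏ e ∈ D y, G.p e) * (∏ e ∈ D y', G.p e))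
        = μ + μ * μ := by
      rw [Finset.sum_add_distrib, ← Finset.sum_mul_sum]
    rw [h11] at h8
    rw [h7]
    nlinarith
  have hN2e : G.ex U N2 ≤ μ * ε / τ := by
    rw [hN2, G.ex_sum, hμdef, Finset.sum_mul, Finset.sum_div]
    refine Finset.sum_le_sum fun y hy => ?_
    have h12 := hφ y hy
    have h13 : G.ex U (fun I => if D y ⊆ I then φ y I / τ else 0)
        = G.ex U (fun I => if D y ⊆ I then φ y I else 0) / τ := by
      rw [div_eq_mul_inv, ← G.ex_mul_right]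
      refine G.ex_congr fun I _ => ?_
      split_ifs
      · rw [div_eq_mul_inv]
      · rw [zero_mul]
    rw [h13]
    exact div_le_div_of_nonneg_right h12 hτ.le
  have h14 : 4 / μ ^ 2 * G.ex U (fun I => (N1 I - μ) ^ 2) ≤ 4 / μ := by
    calc 4 / μ ^ 2 * G.ex U (fun I => (N1 I - μ) ^ 2) ≤ 4 / μ ^ 2 * μ :=
          mul_le_mul_of_nonneg_left hvar (by positivity)
      _ = 4 / μ := by field_simp
  have h15 : 2 / μ * G.ex U N2 ≤ 2 * ε / τ := by
    calc 2 / μ * G.ex U N2 ≤ 2 / μ * (μ * ε / τ) :=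
          mul_le_mul_of_nonneg_left hN2e (by positivity)
      _ = 2 * ε / τ := by field_simp
  linarith

variable [Fintype V]

open Classical in
/-- **Natural-mark Kozma–Nitzan inequality** (N). -/
theorem nat_kn (G : HG V E) {Ω Ωin : Finset E} (hin : Ωin ⊆ Ω) (A : Finset V)
    {ι : Type*} (Y0 : Finset ι) (v : ι → V) (D : ι → Finset E) (B : ι → Finset V)
    (hD : ∀ y ∈ Y0, D y ⊆ Ω \ Ωin)
    (hDB : ∀ y ∈ Y0, ∀ S : Finset E, D y ⊆ S → B y ⊆ G.cl S {v y})
    (goal : Finset V → Prop) (hgoal : ∀ C C' : Finset V, C ⊆ C' → goal C → goal C')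
    {ε τ κ : ℝ}
    (hε : ∀ y ∈ Y0, G.ex Ω (fun S => if goal (G.cl S (B y)) then 0 else 1) ≤ ε)
    (hτ : 0 < τ) (hκ : 0 < κ) (hκD : ∀ y ∈ Y0, κ ≤ ∏ e ∈ D y, G.p e)
    (hε0 : 0 ≤ ε) {m : ℕ} (hm : 0 < m) :
    G.ex Ω (fun S => if goal (G.cl S A) then 0 else 1)
      ≤ G.ex Ωin (fun S => if ∃ Y ⊆ Y0, Y.card = m ∧
            (∀ y ∈ Y, ∀ y' ∈ Y, y ≠ y' → Disjoint (D y) (D y')) ∧ ∀ y ∈ Y, v y ∈ G.cl S A
          then 0 else 1)
        + (4 / (κ * m) + 2 * ε / τ) + τ := by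
  set U := Y0.biUnion D with hU
  set R := Ω \ U with hR
  have hUΩ : U ⊆ Ω := by
    rw [hU, Finset.biUnion_subset]
    exact fun y hy => (hD y hy).trans Finset.sdiff_subset
  have hinR : Ωin ⊆ R := by
    intro e he
    rw [hR, Finset.mem_sdiff]
    refine ⟨hin he, fun h => ?_⟩
    rw [hU, Finset.mem_biUnion] at h
    obtain ⟨y, hy, hey⟩ := h
    exact (Finset.mem_sdiff.1 (hD y hy hey)).2 he
  have hΩ : Ω = U ∪ R := by rw [hR, Finset.union_sdiff_of_subset hUΩ]
  have hdUR : Disjoint U R := by rw [hR]; exact Finset.disjoint_sdiff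
  -- quenched failure probabilities
  set φ : ι → Finset E → ℝ := fun y I =>
    G.ex R (fun S => if goal (G.cl (I ∪ S) {v y}) then 0 else 1) with hφdef
  have hφ0 : ∀ y I, 0 ≤ φ y I := fun y I => G.ex_nonneg fun S _ => by split_ifs <;> norm_num
  have hanti : ∀ (X : Finset V) (S S' : Finset E), S ⊆ S' →
      (if goal (G.cl S' X) then (0 : ℝ) else 1) ≤ if goal (G.cl S X) then 0 else 1 := by
    intro X S S' h
    by_cases h1 : goal (G.cl S X)
    · rw [if_pos h1, if_pos (hgoal _ _ (G.cl_mono h (Finset.Subset.refl _)) h1)]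
    · rw [if_neg h1]; split_ifs <;> norm_num
  have hφ : ∀ y ∈ Y0, G.ex U (fun I => if D y ⊆ I then φ y I else 0)
      ≤ (∏ e ∈ D y, G.p e) * ε := by
    intro y hy
    have hDyU : D y ⊆ U := Finset.subset_biUnion_of_mem D hy
    have h1 : G.ex U (fun I => if D y ⊆ I then φ y I else 0)
        = G.ex Ω (fun S => if D y ⊆ S then (if goal (G.cl S {v y}) then (0 : ℝ) else 1) else 0) := by
      conv_rhs => rw [hΩ]
      rw [G.ex_union hdUR]
      refine G.ex_congr fun I hI => ?_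
      by_cases hDI : D y ⊆ I
      · rw [if_pos hDI]
        simp only [hφdef]
        refine G.ex_congr fun S _ => ?_
        rw [if_pos (hDI.trans Finset.subset_union_left)]
      · rw [if_neg hDI]
        have : ∀ S, S ⊆ R → (if D y ⊆ I ∪ S then
            (if goal (G.cl (I ∪ S) {v y}) then (0 : ℝ) else 1) else 0) = 0 := by
          intro S hS
          rw [if_neg]
          intro h2
          apply hDI
          intro e he
          rcases Finset.mem_union.1 (h2 he) with h3 | h3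
          · exact h3
          · exact absurd (hS h3) (Finset.disjoint_left.1 hdUR (hDyU he))
        rw [G.ex_congr this, G.ex_const]
    rw [h1]
    have h4 : G.ex Ω (fun S => if D y ⊆ S then (if goal (G.cl S {v y}) then (0 : ℝ) else 1) else 0)
        ≤ G.ex Ω (fun S => if D y ⊆ S then (if goal (G.cl S (B y)) then (0 : ℝ) else 1) else 0) := by
      refine G.ex_mono fun S _ => ?_
      by_cases h5 : D y ⊆ S
      · rw [if_pos h5, if_pos h5]
        have h6 : G.cl S (B y) ⊆ G.cl S {v y} := by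
          have := G.cl_mono (Finset.Subset.refl S) (hDB y hy S h5)
          rwa [G.cl_cl] at this
        by_cases h7 : goal (G.cl S (B y))
        · rw [if_pos h7, if_pos (hgoal _ _ h6 h7)]
        · rw [if_neg h7]; split_ifs <;> norm_num
      · rw [if_neg h5, if_neg h5]
    refine h4.trans ?_
    refine (ex_ind_subset_anti G (hDyU.trans hUΩ) _ (hanti (B y))).trans ?_
    exact mul_le_mul_of_nonneg_left (hε y hy) (Finset.prod_nonneg fun e _ => G.p_nonneg e)
  -- good marks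
  set F : Finset E → Finset V := fun I => (Y0.filter fun y => D y ⊆ I ∧ φ y I ≤ τ).image v with hF
  have hstep : ∀ I, I ⊆ U → G.ex R (fun S => if goal (G.cl (I ∪ S) A) then (0 : ℝ) else 1)
      ≤ τ + G.ex Ωin (fun T => if Disjoint (G.cl T A) (F I) then (1 : ℝ) else 0) := by
    intro I _
    have h1 := kn_set G R I A (F I) goal hgoal hτ.le (by
      intro z hz
      simp only [hF] at hz
      rw [Finset.mem_image] at hz
      obtain ⟨y, hy, hyz⟩ := hz
      rw [Finset.mem_filter] at hy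
      rw [← hyz]
      exact hy.2.2)
    have h2 := G.ex_sub_config hinR (fun T => if Disjoint (G.cl T A) (F I) then (1 : ℝ) else 0)
    rw [← h2]
    refine le_trans ?_ (add_le_add_left h1 _)
    rw [← G.ex_add]
    refine G.ex_mono fun S _ => ?_
    by_cases h3 : goal (G.cl (I ∪ S) A)
    · rw [if_pos h3]
      have : (0 : ℝ) ≤ if ¬Disjoint (G.cl (I ∪ S) A) (F I) ∧ ¬goal (G.cl (I ∪ S) A)
          then 1 else 0 := by split_ifs <;> norm_num
      have h4 : (0 : ℝ) ≤ if Disjoint (G.cl (S ∩ Ωin) A) (F I) then 1 else 0 := by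
        split_ifs <;> norm_num
      linarith
    · rw [if_neg h3]
      by_cases h5 : Disjoint (G.cl (I ∪ S) A) (F I)
      · have h6 : Disjoint (G.cl (S ∩ Ωin) A) (F I) :=
          Finset.disjoint_of_subset_left (G.cl_mono
            (Finset.inter_subset_left.trans Finset.subset_union_right)
            (Finset.Subset.refl _)) h5
        rw [if_pos h6]
        have : (0 : ℝ) ≤ if ¬Disjoint (G.cl (I ∪ S) A) (F I) ∧ ¬goal (G.cl (I ∪ S) A)
          then 1 else 0 := by split_ifs <;> norm_num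
        linarith
      · rw [if_pos ⟨h5, h3⟩]
        have h4 : (0 : ℝ) ≤ if Disjoint (G.cl (S ∩ Ωin) A) (F I) then 1 else 0 := by
          split_ifs <;> norm_num
        linarith
  have htot : G.ex Ω (fun S => if goal (G.cl S A) then (0 : ℝ) else 1)
      ≤ τ + G.ex Ωin (fun T => G.ex U (fun I =>
          if Disjoint (G.cl T A) (F I) then (1 : ℝ) else 0)) := by
    conv_lhs => rw [hΩ]
    rw [G.ex_union hdUR, ex_comm G Ωin U]
    refine (G.ex_mono hstep).trans (le_of_eq ?_)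
    rw [G.ex_add, G.ex_const]
  refine htot.trans ?_
  -- each inside configuration
  have hin2 : ∀ T, T ⊆ Ωin → G.ex U (fun I => if Disjoint (G.cl T A) (F I) then (1 : ℝ) else 0)
      ≤ (if ∃ Y ⊆ Y0, Y.card = m ∧
            (∀ y ∈ Y, ∀ y' ∈ Y, y ≠ y' → Disjoint (D y) (D y')) ∧ ∀ y ∈ Y, v y ∈ G.cl T A
          then 0 else 1) + (4 / (κ * m) + 2 * ε / τ) := by
    intro T _
    have hpos : 0 ≤ 4 / (κ * m) + 2 * ε / τ := by positivity
    split_ifs with hY
    · obtain ⟨Y, hYY0, hYm, hYd, hYv⟩ := hY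
      have hμ0 : κ * m ≤ ∑ y ∈ Y, ∏ e ∈ D y, G.p e := by
        calc κ * m = ∑ _y ∈ Y, κ := by rw [Finset.sum_const, hYm, nsmul_eq_mul, mul_comm]
          _ ≤ _ := Finset.sum_le_sum fun y hy => hκD y (hYY0 hy)
      have hκm : 0 < κ * m := by positivity
      have h1 := no_good_mark G U Y D (fun y hy => Finset.subset_biUnion_of_mem D (hYY0 hy)) hYd
        φ hτ (fun y _ I => hφ0 y I) (fun y hy => hφ y (hYY0 hy)) (lt_of_lt_of_le hκm hμ0)
      have h2 : 4 / (∑ y ∈ Y, ∏ e ∈ D y, G.p e) ≤ 4 / (κ * m) :=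
        div_le_div_of_nonneg_left (by norm_num) hκm hμ0
      have h3 : G.ex U (fun I => if Disjoint (G.cl T A) (F I) then (1 : ℝ) else 0)
          ≤ G.ex U (fun I => if ∀ y ∈ Y, ¬ (D y ⊆ I ∧ φ y I ≤ τ) then (1 : ℝ) else 0) := by
        refine G.ex_mono fun I _ => ?_
        by_cases h4 : Disjoint (G.cl T A) (F I)
        · rw [if_pos h4, if_pos]
          intro y hy h5
          refine Finset.disjoint_left.1 h4 (hYv y hy) ?_
          simp only [hF]
          rw [Finset.mem_image]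
          exact ⟨y, Finset.mem_filter.2 ⟨hYY0 hy, h5⟩, rfl⟩
        · rw [if_neg h4]; split_ifs <;> norm_num
      linarith
    · have : G.ex U (fun I => if Disjoint (G.cl T A) (F I) then (1 : ℝ) else 0) ≤ 1 :=
        G.ex_le_of_le fun I _ => by split_ifs <;> norm_num
      linarith
  have h3 := G.ex_mono hin2
  rw [G.ex_add, G.ex_const] at h3
  linarith

end Crest.Agent.R147.Nm
end

-- ▼ part R147/Nm53Comp
section

/-!
# Composition of a bounded number of annealed moves (B5e of #7405), finite hypergraph form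

`comp`: stages `j = 0, ..., N`, positions `Pos j` (blocks).  From every block `b ∈ Pos j` the cluster of
`vtx b` inside `Ein j b` touches at least `m * K` blocks of `Tgt j b ⊆ Pos (j+1)` with probability
at least `1 - δ`; the hyperedges `blk b'` of the target blocks are outside `Ein j b`.  Blocks of the
last stage satisfy the goal.  Then the goal is reached from every block of stage `0` with
probability at least `1 - β`, if `δ, 4/(q m) ≤ del N β`.
-/

set_option autoImplicit false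
set_option linter.unusedSectionVars false

open Finset

namespace Crest.Agent.R147.Nm

open Crest.Agent.R147.KN

/-- greedy choice of pairwise unrelated elements -/
theorem exists_indep {α : Type*} [DecidableEq α] (r : α → α → Prop) [DecidableRel r]
    (hrefl : ∀ a, r a a) (K m : ℕ) : ∀ T : Finset α, (∀ a ∈ T, (T.filter fun b => r a b).card ≤ K) →
    m * K ≤ T.card → (∀ a b, r a b → r b a) → (0 < K) →
    ∃ Y ⊆ T, Y.card = m ∧ ∀ a ∈ Y, ∀ b ∈ Y, a ≠ b → ¬ r a b := by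
  induction m with
  | zero =>
    intro T _ _ _ _
    exact ⟨∅, Finset.empty_subset _, rfl, fun a ha => absurd ha (Finset.notMem_empty a)⟩
  | succ m ih =>
    intro T hT hcard hsymm hK
    have hne : T.Nonempty := by
      rw [← Finset.card_pos]
      have : 0 < (m + 1) * K := by positivity
      omega
    obtain ⟨a, ha⟩ := hne
    set T' := T.filter fun b => ¬ r a b with hT'
    have hsub : T' ⊆ T := Finset.filter_subset _ _
    have hcard' : m * K ≤ T'.card := by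
      have h1 := Finset.card_filter_add_card_filter_not (s := T) (fun b => r a b)
      have h2 := hT a ha
      have h3 : (m + 1) * K = m * K + K := by ring
      rw [hT']
      omega
    obtain ⟨Y, hY, hYc, hYi⟩ := ih T' (fun b hb => (Finset.card_le_card
      (Finset.filter_subset_filter _ hsub)).trans (hT b (hsub hb))) hcard' hsymm hK
    have haY : a ∉ Y := fun h => (Finset.mem_filter.1 (hY h)).2 (hrefl a)
    refine ⟨insert a Y, ?_, ?_, ?_⟩
    · exact Finset.insert_subset ha (hY.trans hsub)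
    · rw [Finset.card_insert_of_notMem haY, hYc]
    · intro x hx y hy hxy
      rcases Finset.mem_insert.1 hx with rfl | hx'
      · rcases Finset.mem_insert.1 hy with rfl | hy'
        · exact absurd rfl hxy
        · exact (Finset.mem_filter.1 (hY hy')).2
      · rcases Finset.mem_insert.1 hy with rfl | hy'
        · exact fun h => (Finset.mem_filter.1 (hY hx')).2 (hsymm _ _ h)
        · exact hYi x hx' y hy' hxy

/-- admissible error of a single move when `N` moves are composed -/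
noncomputable def del : ℕ → ℝ → ℝ
  | 0, β => β
  | N + 1, β => min (β / 4) (del N (β ^ 2 / 32))

theorem del_pos (N : ℕ) : ∀ {β : ℝ}, 0 < β → 0 < del N β := by
  induction N with
  | zero => intro β h; exact h
  | succ N ih =>
    intro β h
    exact lt_min (by positivity) (ih (by positivity))

variable {V E : Type*} [DecidableEq V] [DecidableEq E] [Fintype V]

open Classical in
/-- one annealed re-centering with blocks -/
theorem one_move (G : HG V E) {Ω Ein : Finset E} (hin : Ein ⊆ Ω) {B : Type*} [DecidableEq B]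
    (A : Finset V) (Tgt : Finset B) (blk : B → Finset E) (nb vtx : B → Finset V)
    (hblk : ∀ b ∈ Tgt, blk b ⊆ Ω \ Ein)
    (hnb : ∀ b ∈ Tgt, ∀ x ∈ nb b, vtx b ⊆ G.cl (blk b) {x})
    (goal : Finset V → Prop) (hgoal : ∀ C C' : Finset V, C ⊆ C' → goal C → goal C')
    {q : ℝ} (hq : 0 < q) (hqb : ∀ b ∈ Tgt, q ≤ ∏ e ∈ blk b, G.p e)
    {K m : ℕ} (hK : 0 < K) (hm : 0 < m)
    (hover : ∀ b ∈ Tgt, (Tgt.filter fun b' => b' = b ∨ ¬ Disjoint (blk b) (blk b')).card ≤ K)
    {δ e τ : ℝ} (hτ : 0 < τ) (he0 : 0 ≤ e)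
    (he : ∀ b ∈ Tgt, G.ex Ω (fun S => if goal (G.cl S (vtx b)) then 0 else 1) ≤ e)
    (hδ : G.ex Ein (fun S =>
      if (Tgt.filter fun b => ¬ Disjoint (nb b) (G.cl S A)).card < m * K then 1 else 0) ≤ δ) :
    G.ex Ω (fun S => if goal (G.cl S A) then 0 else 1)
      ≤ δ + (4 / (q * m) + 2 * e / τ) + τ := by
  have hmain := nat_kn G hin A (Tgt.sigma fun b => nb b) (fun y => y.2) (fun y => blk y.1)
    (fun y => vtx y.1) (fun y hy => hblk y.1 (Finset.mem_sigma.1 hy).1)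
    (fun y hy S hS => (hnb y.1 (Finset.mem_sigma.1 hy).1 y.2 (Finset.mem_sigma.1 hy).2).trans
      (G.cl_mono hS (Finset.Subset.refl _)))
    goal hgoal (fun y hy => he y.1 (Finset.mem_sigma.1 hy).1) hτ hq
    (fun y hy => hqb y.1 (Finset.mem_sigma.1 hy).1) he0 hm
  refine hmain.trans ?_
  have h1 : G.ex Ein (fun S => if ∃ Y ⊆ (Tgt.sigma fun b => nb b), Y.card = m ∧
            (∀ y ∈ Y, ∀ y' ∈ Y, y ≠ y' → Disjoint (blk y.1) (blk y'.1)) ∧
              ∀ y ∈ Y, y.2 ∈ G.cl S A then (0 : ℝ) else 1)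
      ≤ G.ex Ein (fun S =>
      if (Tgt.filter fun b => ¬ Disjoint (nb b) (G.cl S A)).card < m * K then 1 else 0) := by
    refine G.ex_mono fun S _ => ?_
    by_cases hc : (Tgt.filter fun b => ¬ Disjoint (nb b) (G.cl S A)).card < m * K
    · rw [if_pos hc]; split_ifs <;> norm_num
    · rw [if_neg hc]
      push Not at hc
      set T := Tgt.filter fun b => ¬ Disjoint (nb b) (G.cl S A) with hT
      obtain ⟨Y, hY, hYc, hYi⟩ := exists_indep
        (fun b b' => b' = b ∨ ¬ Disjoint (blk b) (blk b')) (fun a => Or.inl rfl) K m T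
        (fun b hb => (Finset.card_le_card (Finset.filter_subset_filter _
          (Finset.filter_subset _ _))).trans (hover b (Finset.mem_filter.1 hb).1)) hc
        (fun a b h => by
          rcases h with h | h
          · exact Or.inl h.symm
          · exact Or.inr (fun h' => h h'.symm)) hK
      -- choose a touching vertex in each block of `Y`
      have hch : ∀ b : B, ∃ x : V, b ∈ Y → x ∈ nb b ∧ x ∈ G.cl S A := by
        intro b
        by_cases hb : b ∈ Y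
        · have := (Finset.mem_filter.1 (hY hb)).2
          rw [Finset.not_disjoint_iff] at this
          obtain ⟨x, hx, hx'⟩ := this
          exact ⟨x, fun _ => ⟨hx, hx'⟩⟩
        · by_cases hV : Nonempty V
          · exact ⟨hV.some, fun h => absurd h hb⟩
          · -- no vertices at all: then `T` is empty
            exfalso
            have hTe : T = ∅ := by
              apply Finset.eq_empty_of_forall_notMem
              intro b' hb'
              have := (Finset.mem_filter.1 hb').2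
              rw [Finset.not_disjoint_iff] at this
              obtain ⟨x, _, _⟩ := this
              exact hV ⟨x⟩
            have : 0 < m * K := by positivity
            rw [hTe, Finset.card_empty] at hc
            omega
      choose x hx using hch
      rw [if_pos]
      refine ⟨Y.image (fun b => (⟨b, x b⟩ : Σ _ : B, V)), ?_, ?_, ?_, ?_⟩
      · intro y hy
        rw [Finset.mem_image] at hy
        obtain ⟨b, hb, rfl⟩ := hy
        rw [Finset.mem_sigma]
        exact ⟨(Finset.mem_filter.1 (hY hb)).1, (hx b hb).1⟩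
      · rw [Finset.card_image_of_injective _ (fun b b' h => by
          simp only [Sigma.mk.injEq] at h; exact h.1), hYc]
      · intro y hy y' hy' hne
        rw [Finset.mem_image] at hy hy'
        obtain ⟨b, hb, rfl⟩ := hy
        obtain ⟨b', hb', rfl⟩ := hy'
        have hbb : b ≠ b' := by
          rintro rfl; exact hne rfl
        have := hYi b hb b' hb' hbb
        push Not at this
        exact this.2
      · intro y hy
        rw [Finset.mem_image] at hy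
        obtain ⟨b, hb, rfl⟩ := hy
        exact (hx b hb).2
  refine add_le_add (add_le_add (le_trans ?_ (h1.trans hδ)) le_rfl) le_rfl
  refine G.ex_mono fun S _ => ?_
  split_ifs <;> simp_all

open Classical in
/-- **composition of `N` annealed moves** -/
theorem comp (G : HG V E) {B : Type*} [DecidableEq B] (Ω : Finset E)
    (blk : B → Finset E) (nb vtx : B → Finset V) (goal : Finset V → Prop)
    (hgoal : ∀ C C' : Finset V, C ⊆ C' → goal C → goal C')
    {q : ℝ} (hq : 0 < q) {K m : ℕ} (hK : 0 < K) (hm : 0 < m) {δ : ℝ}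
    (N : ℕ) (Pos : ℕ → Finset B) (Tgt : ℕ → B → Finset B) (Ein : ℕ → B → Finset E)
    (hend : ∀ b ∈ Pos N, goal (vtx b))
    (hTgt : ∀ j < N, ∀ b ∈ Pos j, Tgt j b ⊆ Pos (j + 1))
    (hEin : ∀ j < N, ∀ b ∈ Pos j, Ein j b ⊆ Ω)
    (hblk : ∀ j < N, ∀ b ∈ Pos j, ∀ b' ∈ Tgt j b, blk b' ⊆ Ω \ Ein j b)
    (hnb : ∀ j < N, ∀ b ∈ Pos j, ∀ b' ∈ Tgt j b, ∀ x ∈ nb b', vtx b' ⊆ G.cl (blk b') {x})
    (hqb : ∀ j < N, ∀ b ∈ Pos j, ∀ b' ∈ Tgt j b, q ≤ ∏ e ∈ blk b', G.p e)
    (hover : ∀ j < N, ∀ b ∈ Pos j, ∀ b' ∈ Tgt j b,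
      ((Tgt j b).filter fun b'' => b'' = b' ∨ ¬ Disjoint (blk b') (blk b'')).card ≤ K)
    (hδ : ∀ j < N, ∀ b ∈ Pos j, G.ex (Ein j b) (fun S =>
      if ((Tgt j b).filter fun b' => ¬ Disjoint (nb b') (G.cl S (vtx b))).card < m * K
        then 1 else 0) ≤ δ) :
    ∀ L j, j + L = N → ∀ β : ℝ, 0 < β → δ ≤ del L β → 4 / (q * m) ≤ del L β →
      ∀ b ∈ Pos j, G.ex Ω (fun S => if goal (G.cl S (vtx b)) then 0 else 1) ≤ β := by
  intro L
  induction L with
  | zero =>
    intro j hj β hβ _ _ b hb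
    have hjN : j = N := by omega
    subst hjN
    refine G.ex_le_of_le fun S _ => ?_
    rw [if_pos (hgoal _ _ (G.subset_cl S _) (hend b hb))]
    exact hβ.le
  | succ L ih =>
    intro j hj β hβ h1 h2 b hb
    have hjN : j < N := by omega
    have he := ih (j + 1) (by omega) (β ^ 2 / 32) (by positivity)
      (h1.trans (min_le_right _ _)) (h2.trans (min_le_right _ _))
    have h3 := one_move G (hEin j hjN b hb) (vtx b) (Tgt j b) blk nb vtx (hblk j hjN b hb)
      (hnb j hjN b hb) goal hgoal hq (hqb j hjN b hb) hK hm (hover j hjN b hb)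
      (τ := β / 4) (by positivity) (e := β ^ 2 / 32) (by positivity)
      (fun b' hb' => he b' (hTgt j hjN b hb hb')) (hδ j hjN b hb)
    have h4 : δ ≤ β / 4 := h1.trans (min_le_left _ _)
    have h5 : 4 / (q * m) ≤ β / 4 := h2.trans (min_le_left _ _)
    have h6 : 2 * (β ^ 2 / 32) / (β / 4) = β / 4 := by
      field_simp
      norm_num
    rw [h6] at h3
    linarith

end Crest.Agent.R147.Nm
end

-- ▼ part R147/Mv475Scr
section

/-!
# Fixed screen count (B5e of S0207)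

For an increasing sequence of domains `D 0 ⊆ D 1 ⊆ …` (everything below parallel screens), the
events "the cluster of `A` in `D i` has at least one but few exit edges and they are all closed"
are disjoint, hence `∑ i, P(1 ≤ #exits_i ≤ L) ≤ c^{-L}`.
-/

set_option autoImplicit false
set_option linter.unusedSectionVars false

open Finset Crest.Agent.R147.KN

namespace Crest.Agent.R147.Mv

variable {V E : Type*} [DecidableEq V] [DecidableEq E] [Fintype V] (G : HG V E)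

/-- exit edges: edges of `Ω \ D` touching the cluster of `A` inside `D` -/
noncomputable def exitE (Ω D : Finset E) (A : Finset V) (S : Finset E) : Finset E :=
  G.tch (Ω \ D) (G.cl (S ∩ D) A)

theorem mem_exitE {Ω D : Finset E} {A : Finset V} {S : Finset E} {e : E} :
    e ∈ exitE G Ω D A S ↔ (e ∈ Ω ∧ e ∉ D) ∧ ¬ Disjoint (G.inc e) (G.cl (S ∩ D) A) := by
  unfold exitE
  rw [HG.mem_tch, Finset.mem_sdiff]

/-- a cluster only uses vertices of `A` and vertices of edges of the configuration -/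
theorem cl_subset_touch (S : Finset E) (A : Finset V) :
    G.cl S A ⊆ A ∪ S.biUnion G.inc := by
  refine G.cl_subset Finset.subset_union_left ?_
  intro e he
  left
  intro x hx
  exact Finset.mem_union_right _ (Finset.mem_biUnion.2 ⟨e, he, hx⟩)

/-- probability that all edges of `X` are closed -/
theorem ex_closed (A X : Finset E) (hX : X ⊆ A) :
    G.ex A (fun S => if Disjoint S X then (1 : ℝ) else 0) = ∏ e ∈ X, (1 - G.p e) := by
  have h1 : G.ex A (fun S => if Disjoint S X then (1 : ℝ) else 0)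
      = G.ex A (fun S => (fun T => if T = ∅ then (1 : ℝ) else 0) (S ∩ X)) := by
    refine G.ex_congr fun S _ => ?_
    simp only [Finset.disjoint_iff_inter_eq_empty]
  rw [h1, G.ex_sub_config hX (fun T => if T = ∅ then (1 : ℝ) else 0)]
  clear h1 hX
  induction X using Finset.induction_on with
  | empty => simp
  | insert e X he ih =>
    rw [G.ex_insert he, Finset.prod_insert he, ih]
    have : G.ex X (fun S => if insert e S = (∅ : Finset E) then (1 : ℝ) else 0) = 0 := by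
      rw [G.ex_congr (g := fun _ => 0) (fun S _ => if_neg (Finset.insert_ne_empty e S)),
        G.ex_const]
    rw [this]
    ring

theorem ex_closed_ge {A X : Finset E} (hX : X ⊆ A) {c : ℝ} (hc0 : 0 ≤ c) (hc1 : c ≤ 1)
    (hc : ∀ e ∈ A, c ≤ 1 - G.p e) {L : ℕ} (hL : X.card ≤ L) :
    c ^ L ≤ G.ex A (fun S => if Disjoint S X then (1 : ℝ) else 0) := by
  rw [ex_closed G A X hX]
  calc c ^ L ≤ c ^ X.card := pow_le_pow_of_le_one hc0 hc1 hL
    _ = ∏ _e ∈ X, c := by rw [Finset.prod_const]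
    _ ≤ ∏ e ∈ X, (1 - G.p e) := Finset.prod_le_prod (fun _ _ => hc0) (fun e he => hc e (hX he))

/-- closing the (few) exit edges costs at most `c ^ L` -/
theorem cost_close {Ω D : Finset E} (hD : D ⊆ Ω) (A : Finset V) {c : ℝ} (hc0 : 0 ≤ c)
    (hc1 : c ≤ 1) (hc : ∀ e ∈ Ω, c ≤ 1 - G.p e) (L : ℕ) :
    c ^ L * G.ex Ω (fun S => if 1 ≤ (exitE G Ω D A S).card ∧ (exitE G Ω D A S).card ≤ L
        then (1 : ℝ) else 0)
      ≤ G.ex Ω (fun S => if 1 ≤ (exitE G Ω D A S).card ∧ Disjoint S (exitE G Ω D A S)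
        then (1 : ℝ) else 0) := by
  have hΩ : Ω = D ∪ (Ω \ D) := by rw [Finset.union_sdiff_of_subset hD]
  have hd : Disjoint D (Ω \ D) := Finset.disjoint_sdiff
  have hkey : ∀ S₁, S₁ ⊆ D → ∀ S₂, S₂ ⊆ Ω \ D →
      exitE G Ω D A (S₁ ∪ S₂) = exitE G Ω D A S₁ := by
    intro S₁ h1 S₂ h2
    unfold exitE
    have : (S₁ ∪ S₂) ∩ D = S₁ ∩ D := by
      ext e
      simp only [Finset.mem_inter, Finset.mem_union]
      constructor
      · rintro ⟨h | h, h'⟩
        · exact ⟨h, h'⟩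
        · exact absurd h' (Finset.mem_sdiff.1 (h2 h)).2
      · rintro ⟨h, h'⟩
        exact ⟨Or.inl h, h'⟩
    rw [this]
  have hex : ∀ f : Finset E → ℝ, G.ex Ω f
      = G.ex D (fun S₁ => G.ex (Ω \ D) (fun S₂ => f (S₁ ∪ S₂))) := by
    intro f
    conv_lhs => rw [hΩ]
    rw [G.ex_union hd]
  rw [hex, hex, ← G.ex_mul_left]
  refine G.ex_mono fun S₁ h1 => ?_
  set X := exitE G Ω D A S₁ with hX
  have hXsub : X ⊆ Ω \ D := by
    rw [hX]; unfold exitE; exact G.tch_subset _ _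
  have e1 : G.ex (Ω \ D) (fun S₂ => if 1 ≤ (exitE G Ω D A (S₁ ∪ S₂)).card ∧
      (exitE G Ω D A (S₁ ∪ S₂)).card ≤ L then (1 : ℝ) else 0)
      = if 1 ≤ X.card ∧ X.card ≤ L then (1 : ℝ) else 0 := by
    rw [G.ex_congr (g := fun _ => if 1 ≤ X.card ∧ X.card ≤ L then (1 : ℝ) else 0)
      (fun S₂ h2 => by rw [hkey S₁ h1 S₂ h2]), G.ex_const]
  have e2 : G.ex (Ω \ D) (fun S₂ => if 1 ≤ (exitE G Ω D A (S₁ ∪ S₂)).card ∧
      Disjoint (S₁ ∪ S₂) (exitE G Ω D A (S₁ ∪ S₂)) then (1 : ℝ) else 0)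
      = G.ex (Ω \ D) (fun S₂ => if 1 ≤ X.card ∧ Disjoint S₂ X then (1 : ℝ) else 0) := by
    refine G.ex_congr fun S₂ h2 => ?_
    rw [hkey S₁ h1 S₂ h2, ← hX]
    have hdS : Disjoint S₁ X :=
      Finset.disjoint_of_subset_left h1 (Finset.disjoint_of_subset_right hXsub hd)
    have : Disjoint (S₁ ∪ S₂) X ↔ Disjoint S₂ X := by
      rw [Finset.disjoint_union_left]
      exact ⟨fun h => h.2, fun h => ⟨hdS, h⟩⟩
    simp only [this]
  rw [e1, e2]
  by_cases h : 1 ≤ X.card ∧ X.card ≤ L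
  · rw [if_pos h, mul_one]
    simp only [h.1, true_and]
    exact ex_closed_ge G hXsub hc0 hc1 (fun e he => hc e (Finset.sdiff_subset he)) h.2
  · rw [if_neg h, mul_zero]
    exact G.ex_nonneg fun S _ => by split_ifs <;> norm_num

/-- separation: any edge of `Ω` touching `A` or an edge of `D` is in `D'` -/
def Sep (Ω D D' : Finset E) (A : Finset V) : Prop :=
  ∀ e ∈ Ω, ¬ Disjoint (G.inc e) (A ∪ D.biUnion G.inc) → e ∈ D'

theorem exit_empty_of_closed {Ω D D' : Finset E} {A : Finset V}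
    (hsep : Sep G Ω D D' A) {S : Finset E} (hS : S ⊆ Ω)
    (hcl : Disjoint S (exitE G Ω D A S)) : exitE G Ω D' A S = ∅ := by
  have hC : G.cl (S ∩ D') A ⊆ G.cl (S ∩ D) A := by
    refine G.cl_subset (G.subset_cl _ _) ?_
    intro e he
    rw [Finset.mem_inter] at he
    by_cases heD : e ∈ D
    · exact G.sat_cl (S ∩ D) A e (Finset.mem_inter.2 ⟨he.1, heD⟩)
    · right
      by_contra hd
      have : e ∈ exitE G Ω D A S := (mem_exitE G).2 ⟨⟨hS he.1, heD⟩, hd⟩
      exact Finset.disjoint_left.1 hcl he.1 this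
  rw [Finset.eq_empty_iff_forall_notMem]
  intro e he
  rw [mem_exitE] at he
  refine he.1.2 (hsep e he.1.1 fun hd => he.2 ?_)
  refine Finset.disjoint_of_subset_right (hC.trans ?_) hd
  refine (cl_subset_touch G _ _).trans ?_
  refine Finset.union_subset_union (Finset.Subset.refl _) ?_
  exact Finset.biUnion_subset_biUnion_of_subset_left _ Finset.inter_subset_right

/-- **fixed screen count**: `∑ i, P(1 ≤ #exits_i ≤ L) ≤ c^{-L}` -/
theorem screen_count {Ω : Finset E} {A : Finset V} (N : ℕ) (D : ℕ → Finset E)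
    (hD : ∀ i < N, D i ⊆ Ω)
    (hsep : ∀ i j, i < j → j < N → Sep G Ω (D i) (D j) A)
    {c : ℝ} (hc0 : 0 < c) (hc1 : c ≤ 1) (hc : ∀ e ∈ Ω, c ≤ 1 - G.p e) (L : ℕ) :
    ∑ i ∈ Finset.range N, G.ex Ω (fun S => if 1 ≤ (exitE G Ω (D i) A S).card ∧
        (exitE G Ω (D i) A S).card ≤ L then (1 : ℝ) else 0) ≤ (c ^ L)⁻¹ := by
  have h1 : ∀ i ∈ Finset.range N, G.ex Ω (fun S => if 1 ≤ (exitE G Ω (D i) A S).card ∧
        (exitE G Ω (D i) A S).card ≤ L then (1 : ℝ) else 0)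
      ≤ (c ^ L)⁻¹ * G.ex Ω (fun S => if 1 ≤ (exitE G Ω (D i) A S).card ∧
        Disjoint S (exitE G Ω (D i) A S) then (1 : ℝ) else 0) := by
    intro i hi
    have := cost_close G (hD i (Finset.mem_range.1 hi)) A hc0.le hc1 hc L
    rw [inv_mul_eq_div, le_div_iff₀ (pow_pos hc0 L), mul_comm]
    exact this
  refine (Finset.sum_le_sum h1).trans ?_
  rw [← Finset.mul_sum, ← G.ex_sum]
  have h2 : G.ex Ω (fun S => ∑ i ∈ Finset.range N, if 1 ≤ (exitE G Ω (D i) A S).card ∧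
        Disjoint S (exitE G Ω (D i) A S) then (1 : ℝ) else 0) ≤ 1 := by
    refine G.ex_le_of_le fun S hS => ?_
    rw [Finset.sum_ite, Finset.sum_const_zero, add_zero, Finset.sum_const, nsmul_eq_mul, mul_one]
    have : (Finset.filter (fun i => 1 ≤ (exitE G Ω (D i) A S).card ∧
        Disjoint S (exitE G Ω (D i) A S)) (Finset.range N)).card ≤ 1 := by
      rw [Finset.card_le_one]
      intro i hi j hj
      rw [Finset.mem_filter, Finset.mem_range] at hi hj
      by_contra hij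
      have haux : ∀ a b, a < b → b < N → Disjoint S (exitE G Ω (D a) A S) →
          1 ≤ (exitE G Ω (D b) A S).card → False := by
        intro a b hab hb hcl hne
        have := exit_empty_of_closed G (hsep a b hab hb) hS hcl
        rw [this] at hne
        simp at hne
      rcases lt_or_gt_of_ne hij with h | h
      · exact haux i j h hj.1 hi.2.2 hj.2.1
      · exact haux j i h hi.1 hj.2.2 hi.2.1
    exact_mod_cast this
  calc (c ^ L)⁻¹ * _ ≤ (c ^ L)⁻¹ * 1 :=
        mul_le_mul_of_nonneg_left h2 (inv_nonneg.2 (pow_nonneg hc0.le L))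
    _ = (c ^ L)⁻¹ := mul_one _


section blocks

variable {B : Type*} [DecidableEq B]






end blocks

/-- pigeonhole: finitely many types, each with small total mass: one index good for all -/
theorem exists_good_index {ι : Type*} (T : Finset ι) (N : ℕ) (f : ι → ℕ → ℝ)
    (hf : ∀ t ∈ T, ∀ i < N, 0 ≤ f t i) {W β : ℝ}
    (hsum : ∀ t ∈ T, ∑ i ∈ Finset.range N, f t i ≤ W) (hN : (T.card : ℝ) * W < β * N) :
    ∃ i < N, ∀ t ∈ T, f t i ≤ β := by
  by_contra hcon
  push Not at hcon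
  have h1 : ∀ i ∈ Finset.range N, β ≤ ∑ t ∈ T, f t i := by
    intro i hi
    rw [Finset.mem_range] at hi
    obtain ⟨t, ht, hlt⟩ := hcon i hi
    exact hlt.le.trans (Finset.single_le_sum (f := fun t => f t i)
      (fun t ht => hf t ht i hi) ht)
  have h2 : (N : ℝ) * β ≤ ∑ i ∈ Finset.range N, ∑ t ∈ T, f t i := by
    have := Finset.sum_le_sum h1
    rw [Finset.sum_const, Finset.card_range, nsmul_eq_mul] at this
    exact this
  rw [Finset.sum_comm] at h2
  have h3 : ∑ t ∈ T, ∑ i ∈ Finset.range N, f t i ≤ (T.card : ℝ) * W := by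
    have := Finset.sum_le_sum hsum
    rw [Finset.sum_const, nsmul_eq_mul] at this
    exact this
  nlinarith

end Crest.Agent.R147.Mv
end

-- ▼ part R147/Mv475Win
section

/-!
# E4c of S0207, part 1: chains of moves in infinite volume form
-/

set_option autoImplicit false
set_option linter.unusedSectionVars false

open Finset MeasureTheory ProbabilityTheory unitInterval
open Crest.ProbabilityR.Percolation Crest.Agent.R147.KN

namespace Crest.Agent.R147.Mv

universe u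
variable {V : Type u}

open Classical in
/-- a cluster touches a vertex set iff there is a connection -/
theorem not_disj_iff {G : SimpleGraph V} {Λ : Finset V} {p : ℝ} {h0 : 0 ≤ p} {h1 : p < 1}
    {S : Finset (Sym2 V)} (hS : ∀ e ∈ S, e ∈ G.edgeSet) (hΛ : ∀ e ∈ S, ∀ x ∈ e, x ∈ Λ)
    {A Y : Finset V} (hA : A ⊆ Λ) (hY : Y ⊆ Λ) :
    ¬ Disjoint (Win.res Λ Y) ((Win.hg Λ p h0 h1).cl S (Win.res Λ A))
      ↔ ∃ a ∈ A, ∃ y ∈ Y, (openSubgraph G (↑S : Set (Sym2 V))).Reachable a y := by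
  rw [Finset.not_disjoint_iff]
  constructor
  · rintro ⟨y, hy, hy'⟩
    rw [Win.mem_cl_iff hS hΛ] at hy'
    obtain ⟨a, ha, hr⟩ := hy'
    exact ⟨a.1, Win.mem_res.1 ha, y.1, Win.mem_res.1 hy, hr⟩
  · rintro ⟨a, ha, y, hy, hr⟩
    refine ⟨⟨y, hY hy⟩, Win.mem_res.2 hy, ?_⟩
    rw [Win.mem_cl_iff hS hΛ]
    exact ⟨⟨a, hA ha⟩, Win.mem_res.2 ha, hr⟩

/-- stage sets of a plan -/
noncomputable def Pos [DecidableEq V] (Tgt : Bool → V → Finset V) (pl : ℕ → Bool) (x : V) :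
    ℕ → Finset V
  | 0 => {x}
  | j + 1 => (Pos Tgt pl x j).biUnion (Tgt (pl j))

/-- all edges used by a plan -/
noncomputable def Om [DecidableEq V] [DecidableEq (Sym2 V)] (Ein : Bool → V → Finset (Sym2 V))
    (Tgt : Bool → V → Finset V) (blk : V → Finset (Sym2 V)) (pl : ℕ → Bool) (x : V) (L : ℕ) :
    Finset (Sym2 V) :=
  (Finset.range L).biUnion fun j => (Pos Tgt pl x j).biUnion fun b =>
    Ein (pl j) b ∪ (Tgt (pl j) b).biUnion blk

/-- all vertices relevant for a plan -/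
noncomputable def Vx [DecidableEq V] [DecidableEq (Sym2 V)]
    (B nb : V → Finset V) (Tgt : Bool → V → Finset V) (pl : ℕ → Bool) (x : V) (L : ℕ) :
    Finset V :=
  (Finset.range (L + 1)).biUnion fun j => (Pos Tgt pl x j).biUnion fun b => B b ∪ nb b

theorem ends_finite (S : Finset (Sym2 V)) : {v | ∃ e ∈ S, v ∈ e}.Finite := by
  classical
  have : {v | ∃ e ∈ S, v ∈ e} = ⋃ e ∈ S, {v | v ∈ e} := by ext v; simp
  rw [this]
  refine S.finite_toSet.biUnion fun e _ => ?_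
  induction e using Sym2.ind with
  | _ a b =>
    have h : {v | v ∈ s(a, b)} = {a, b} := by ext v; simp
    rw [h]
    exact Set.toFinite _

/-- end points of a finite set of edges -/
noncomputable def ends (S : Finset (Sym2 V)) : Finset V := (ends_finite S).toFinset

theorem mem_ends {S : Finset (Sym2 V)} {v : V} : v ∈ ends S ↔ ∃ e ∈ S, v ∈ e := by
  unfold ends
  rw [Set.Finite.mem_toFinset]
  rfl

theorem Nm_del_mono (N : ℕ) : ∀ {β β' : ℝ}, 0 ≤ β → β ≤ β' → Nm.del N β ≤ Nm.del N β' := by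
  induction N with
  | zero => intro β β' _ h; exact h
  | succ N ih =>
    intro β β' h0 h
    refine min_le_min (by linarith) (ih (by positivity) ?_)
    nlinarith

theorem Nm_del_anti {N N' : ℕ} (hN : N ≤ N') : ∀ {β : ℝ}, 0 < β → β ≤ 1 →
    Nm.del N' β ≤ Nm.del N β := by
  have step : ∀ N, ∀ {β : ℝ}, 0 < β → β ≤ 1 → Nm.del (N + 1) β ≤ Nm.del N β := by
    intro N β h0 h1
    refine (min_le_right _ _).trans (Nm_del_mono N (by positivity) ?_)
    nlinarith
  induction N', hN using Nat.le_induction with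
  | base => intro β _ _; exact le_rfl
  | succ N' _ ih =>
    intro β h0 h1
    exact (step N' h0 h1).trans (ih h0 h1)

section chain

variable [Countable V]

open Classical in
/-- **chain of moves** (infinite volume form) -/
theorem chain (G : SimpleGraph V) (p : I) (hp0 : 0 < (p : ℝ)) (hp1 : (p : ℝ) < 1)
    (B nb : V → Finset V) (blk : V → Finset (Sym2 V))
    (Ein : Bool → V → Finset (Sym2 V)) (Tgt : Bool → V → Finset V)
    (hblkE : ∀ x, ∀ e ∈ blk x, e ∈ G.edgeSet)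
    (hconn : ∀ x, ∀ y ∈ nb x, ∀ z ∈ B x,
      (openSubgraph G (↑(blk x) : Set (Sym2 V))).Reachable y z)
    {Δ K m : ℕ} (hK : 0 < K) (hm : 0 < m)
    (O : Set V) (hcard : ∀ x ∈ O, (blk x).card ≤ Δ)
    (hover : ∀ x ∈ O, ∀ F : Finset V, (∀ y ∈ F, y ∈ O) →
      (F.filter fun y => y = x ∨ ¬ Disjoint (blk x) (blk y)).card ≤ K)
    (hEinE : ∀ i, ∀ x ∈ O, ∀ e ∈ Ein i x, e ∈ G.edgeSet)
    (hTgtO : ∀ i, ∀ x ∈ O, ∀ f ∈ Tgt i x, f ∈ O)
    (hdisj : ∀ i, ∀ x ∈ O, ∀ f ∈ Tgt i x, Disjoint (blk f) (Ein i x))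
    {δ : ℝ} (hfail : ∀ i, ∀ x ∈ O, (setBernoulli G.edgeSet p).real
      {ω | ((Tgt i x).filter fun f => ∃ a ∈ B x, ∃ y ∈ nb f,
        (openSubgraph G (ω ∩ (↑(Ein i x) : Set (Sym2 V)))).Reachable a y).card < m * K} ≤ δ)
    (pl : ℕ → Bool) (L : ℕ) {β : ℝ} (hβ : 0 < β) (hδ : δ ≤ Nm.del L β)
    (hq : 4 / ((p : ℝ) ^ Δ * m) ≤ Nm.del L β)
    (x : V) (hx : x ∈ O) (Far : Set V)
    (hend : ∀ b ∈ Pos Tgt pl x L, ∃ v ∈ B b, v ∈ Far) :
    (setBernoulli G.edgeSet p).real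
      {ω | ¬ ∃ a ∈ B x, ∃ v ∈ Far,
        (openSubgraph G (ω ∩ (↑(Om Ein Tgt blk pl x L) : Set (Sym2 V)))).Reachable a v} ≤ β := by
  set Ω := Om Ein Tgt blk pl x L with hΩ
  set Λ : Finset V := Vx B nb Tgt pl x L ∪ ends Ω with hΛdef
  set H := Win.hg Λ (p : ℝ) hp0.le hp1 with hH
  have hPosO : ∀ j, ∀ b ∈ Pos Tgt pl x j, b ∈ O := by
    intro j
    induction j with
    | zero => intro b hb; rw [Pos, Finset.mem_singleton] at hb; rw [hb]; exact hx
    | succ j ih =>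
      intro b hb
      rw [Pos, Finset.mem_biUnion] at hb
      obtain ⟨a, ha, hb⟩ := hb
      exact hTgtO _ a (ih a ha) b hb
  have hEinΩ : ∀ j < L, ∀ b ∈ Pos Tgt pl x j, Ein (pl j) b ⊆ Ω := by
    intro j hj b hb e he
    rw [hΩ, Om, Finset.mem_biUnion]
    refine ⟨j, Finset.mem_range.2 hj, ?_⟩
    rw [Finset.mem_biUnion]
    exact ⟨b, hb, Finset.mem_union_left _ he⟩
  have hblkΩ : ∀ j < L, ∀ b ∈ Pos Tgt pl x j, ∀ f ∈ Tgt (pl j) b, blk f ⊆ Ω := by
    intro j hj b hb f hf e he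
    rw [hΩ, Om, Finset.mem_biUnion]
    refine ⟨j, Finset.mem_range.2 hj, ?_⟩
    rw [Finset.mem_biUnion]
    exact ⟨b, hb, Finset.mem_union_right _ (Finset.mem_biUnion.2 ⟨f, hf, he⟩)⟩
  have hΩE : ∀ e ∈ Ω, e ∈ G.edgeSet := by
    intro e he
    rw [hΩ, Om, Finset.mem_biUnion] at he
    obtain ⟨j, hj, he⟩ := he
    rw [Finset.mem_biUnion] at he
    obtain ⟨b, hb, he⟩ := he
    rcases Finset.mem_union.1 he with he | he
    · exact hEinE _ b (hPosO j b hb) e he
    · obtain ⟨f, _, he⟩ := Finset.mem_biUnion.1 he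
      exact hblkE f e he
  have hΛe : ∀ e ∈ Ω, ∀ v ∈ e, v ∈ Λ := fun e he v hv =>
    Finset.mem_union_right _ (mem_ends.2 ⟨e, he, hv⟩)
  have hΛB : ∀ j ≤ L, ∀ b ∈ Pos Tgt pl x j, B b ∪ nb b ⊆ Λ := by
    intro j hj b hb v hv
    refine Finset.mem_union_left _ ?_
    rw [Vx, Finset.mem_biUnion]
    refine ⟨j, Finset.mem_range.2 (by omega), ?_⟩
    rw [Finset.mem_biUnion]
    exact ⟨b, hb, hv⟩
  have hTgtPos : ∀ j < L, ∀ b ∈ Pos Tgt pl x j, Tgt (pl j) b ⊆ Pos Tgt pl x (j + 1) := by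
    intro j _ b hb f hf
    rw [Pos, Finset.mem_biUnion]
    exact ⟨b, hb, hf⟩
  have hμ : ∀ (E : Finset (Sym2 V)), (∀ e ∈ E, e ∈ G.edgeSet) → ∀ Q : Set (Sym2 V) → Prop,
      (setBernoulli G.edgeSet p).real {ω | Q (ω ∩ (↑E : Set (Sym2 V)))}
      = H.ex E (fun S => if Q (↑S : Set (Sym2 V)) then 1 else 0) := by
    intro E hE Q
    exact Win.real_eq_ex H G.edgeSet p (fun e => Win.hg_p e) E (fun e he => hE e he) Q
  have hcomp := Nm.comp H (B := V) Ω blk (fun f => Win.res Λ (nb f)) (fun f => Win.res Λ (B f))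
    (fun C => ∃ v ∈ C, (v : V) ∈ Far) (fun C C' hCC' ⟨v, hv, hv'⟩ => ⟨v, hCC' hv, hv'⟩)
    (q := (p : ℝ) ^ Δ) (pow_pos hp0 Δ) hK hm (δ := δ) L (Pos Tgt pl x)
    (fun j => Tgt (pl j)) (fun j => Ein (pl j)) ?_ hTgtPos hEinΩ ?_ ?_ ?_ ?_ ?_ L 0 (by omega)
    β hβ hδ hq x (by rw [Pos]; exact Finset.mem_singleton_self x)
  · rw [hμ Ω hΩE (fun S => ¬ ∃ a ∈ B x, ∃ v ∈ Far, (openSubgraph G S).Reachable a v)]
    refine le_trans (H.ex_mono fun S hS => ?_) hcomp
    by_cases hg : ∃ v ∈ H.cl S (Win.res Λ (B x)), (v : V) ∈ Far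
    · obtain ⟨v, hv, hvF⟩ := hg
      have hv' := hv
      rw [hH, Win.mem_cl_iff (fun e he => hΩE e (hS he)) (fun e he => hΛe e (hS he))] at hv'
      obtain ⟨a, ha, hr⟩ := hv'
      rw [if_neg (not_not.2 ⟨a.1, Win.mem_res.1 ha, v.1, hvF, hr⟩)]
      split_ifs <;> norm_num
    · rw [if_neg hg]
      split_ifs <;> norm_num
  · intro b hb
    obtain ⟨v, hv, hvF⟩ := hend b hb
    exact ⟨⟨v, hΛB L le_rfl b hb (Finset.mem_union_left _ hv)⟩, Win.mem_res.2 hv, hvF⟩
  · intro j hj b hb f hf e he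
    rw [Finset.mem_sdiff]
    exact ⟨hblkΩ j hj b hb f hf he,
      Finset.disjoint_left.1 (hdisj _ b (hPosO j b hb) f hf) he⟩
  · intro j hj b hb f hf y hy z hz
    have hS : ∀ e ∈ blk f, ∀ v ∈ e, v ∈ Λ := fun e he => hΛe e (hblkΩ j hj b hb f hf he)
    rw [hH, Win.mem_cl_iff (hblkE f) hS]
    exact ⟨y, Finset.mem_singleton_self y,
      hconn f y.1 (Win.mem_res.1 hy) z.1 (Win.mem_res.1 hz)⟩
  · intro j hj b hb f hf
    have hfO : f ∈ O := hTgtO _ b (hPosO j b hb) f hf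
    have : ∏ e ∈ blk f, H.p e = (p : ℝ) ^ (blk f).card := by
      rw [Finset.prod_congr rfl (fun e _ => Win.hg_p e), Finset.prod_const]
    rw [this]
    exact pow_le_pow_of_le_one hp0.le hp1.le (hcard f hfO)
  · intro j hj b hb f hf
    exact hover f (hTgtO _ b (hPosO j b hb) f hf) _
      (fun y hy => hTgtO _ b (hPosO j b hb) y hy)
  · intro j hj b hb
    have hbO := hPosO j b hb
    refine le_trans (le_of_eq ?_) (hfail (pl j) b hbO)
    rw [hμ (Ein (pl j) b) (hEinE _ b hbO) (fun S => ((Tgt (pl j) b).filter fun f =>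
      ∃ a ∈ B b, ∃ y ∈ nb f, (openSubgraph G S).Reachable a y).card < m * K)]
    refine H.ex_congr fun S hS => ?_
    have hfe : (Tgt (pl j) b).filter (fun b' => ¬ Disjoint (Win.res Λ (nb b'))
        (H.cl S (Win.res Λ (B b)))) = (Tgt (pl j) b).filter (fun f =>
      ∃ a ∈ B b, ∃ y ∈ nb f, (openSubgraph G (↑S : Set (Sym2 V))).Reachable a y) := by
      refine Finset.filter_congr fun f hf => ?_
      exact not_disj_iff (fun e he => hEinE _ b hbO e (hS he))
        (fun e he => hΛe e (hEinΩ j hj b hb (hS he)))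
        ((Finset.subset_union_left).trans (hΛB j hj.le b hb))
        ((Finset.subset_union_right).trans (hΛB (j + 1) (by omega) f
          (hTgtPos j hj b hb hf)))
    rw [hfe]
    by_cases hc : ((Tgt (pl j) b).filter (fun f =>
      ∃ a ∈ B b, ∃ y ∈ nb f, (openSubgraph G (↑S : Set (Sym2 V))).Reachable a y)).card < m * K
    · rw [if_pos hc, if_pos hc]
    · rw [if_neg hc, if_neg hc]

end chain

end Crest.Agent.R147.Mv
private theorem rz_bde8e61509 : type_of% @_root_.Crest.Agent.R147.Mv.Pos.eq_def := @_root_.Crest.Agent.R147.Mv.Pos.eq_def -- L39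
private theorem rz_95edbc7f63 : type_of% @_root_.Crest.Agent.R147.Mv.Pos.eq_1 := @_root_.Crest.Agent.R147.Mv.Pos.eq_1 -- L39
end

-- ▼ part R147/Mv475Inf
section

/-!
# E4c of S0207, part 2: screens in infinite volume form, equivariance
-/

set_option autoImplicit false
set_option linter.unusedSectionVars false

open Finset MeasureTheory ProbabilityTheory unitInterval
open Crest.ProbabilityR.Percolation Crest.Agent.R147.KN Crest.Agent.R159

namespace Crest.Agent.R147.Mv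

universe u
variable {V : Type u}

/-- an event depending on finitely many edges is measurable -/
theorem measurableSet_local (E : Finset (Sym2 V)) (Q : Set (Sym2 V) → Prop) :
    MeasurableSet {ω : Set (Sym2 V) | Q (ω ∩ (↑E : Set (Sym2 V)))} := by
  classical
  have h : {ω : Set (Sym2 V) | Q (ω ∩ (↑E : Set (Sym2 V)))}
      = ⋃ S ∈ E.powerset.filter (fun S : Finset (Sym2 V) => Q (↑S : Set (Sym2 V))),
        ⋂ e ∈ E, {ω : Set (Sym2 V) | e ∈ ω ↔ e ∈ S} := by
    ext ω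
    simp only [Set.mem_ofPred_eq, Set.mem_iUnion, Set.mem_iInter, Finset.mem_filter,
      Finset.mem_powerset, exists_prop]
    constructor
    · intro hQ
      refine ⟨E.filter (fun e => e ∈ ω), ⟨Finset.filter_subset _ _, ?_⟩, ?_⟩
      · have : (↑(E.filter (fun e => e ∈ ω)) : Set (Sym2 V)) = ω ∩ ↑E := by
          ext e
          simp only [Finset.coe_filter, Set.mem_ofPred_eq, Set.mem_inter_iff, Finset.mem_coe]
          tauto
        rw [this]; exact hQ
      · intro e he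
        simp only [Finset.mem_filter]
        tauto
    · rintro ⟨S, ⟨hS, hQ⟩, h⟩
      have : ω ∩ ↑E = (↑S : Set (Sym2 V)) := by
        ext e
        simp only [Set.mem_inter_iff, Finset.mem_coe]
        constructor
        · rintro ⟨h1, h2⟩; exact (h e h2).1 h1
        · intro h1; exact ⟨(h e (hS h1)).2 h1, hS h1⟩
      rw [this]; exact hQ
  rw [h]
  refine Finset.measurableSet_biUnion _ fun S _ => ?_
  refine Finset.measurableSet_biInter _ fun e _ => ?_
  by_cases he : e ∈ S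
  · have : {ω : Set (Sym2 V) | e ∈ ω ↔ e ∈ S} = {ω | e ∈ ω} := by
      ext ω; simp only [Set.mem_ofPred_eq, he, iff_true]
    rw [this]
    exact measurable_set_mem e (measurableSet_singleton True) |> fun h => by
      simpa [Set.preimage] using h
  · have : {ω : Set (Sym2 V) | e ∈ ω ↔ e ∈ S} = {ω | e ∈ ω}ᶜ := by
      ext ω; simp only [Set.mem_ofPred_eq, he, iff_false, Set.mem_compl_iff]
    rw [this]
    refine MeasurableSet.compl ?_
    exact measurable_set_mem e (measurableSet_singleton True) |> fun h => by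
      simpa [Set.preimage] using h

open Classical in
/-- exit edges: edges of `Ω \ D` touched by the cluster of `A` in `ω ∩ D` -/
noncomputable def xE (G : SimpleGraph V) (Ω D : Finset (Sym2 V)) (A : Finset V)
    (ω : Set (Sym2 V)) : Finset (Sym2 V) :=
  (Ω \ D).filter (fun e => ∃ v ∈ e, ∃ a ∈ A,
    (openSubgraph G (ω ∩ (↑D : Set (Sym2 V)))).Reachable a v)

/-- probability of few but some exit edges -/
noncomputable def qs (G : SimpleGraph V) (p : I) (Ω D : Finset (Sym2 V)) (A : Finset V)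
    (n : ℕ) : ℝ :=
  (setBernoulli G.edgeSet p).real
    {ω | 1 ≤ (xE G Ω D A ω).card ∧ (xE G Ω D A ω).card ≤ n}

theorem xE_local (G : SimpleGraph V) {Ω D : Finset (Sym2 V)} (hD : D ⊆ Ω) (A : Finset V)
    (ω : Set (Sym2 V)) : xE G Ω D A (ω ∩ (↑Ω : Set (Sym2 V))) = xE G Ω D A ω := by
  unfold xE
  have : ω ∩ (↑Ω : Set (Sym2 V)) ∩ ↑D = ω ∩ ↑D := by
    rw [Set.inter_assoc]
    congr 1
    exact Set.inter_eq_right.2 (Finset.coe_subset.2 hD)
  rw [this]

theorem qs_nonneg (G : SimpleGraph V) (p : I) (Ω D : Finset (Sym2 V)) (A : Finset V) (n : ℕ) :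
    0 ≤ qs G p Ω D A n := measureReal_nonneg

section hg

variable [Countable V]

open Classical in
theorem exitE_eq (G : SimpleGraph V) {Λ : Finset V} {p : ℝ} {h0 : 0 ≤ p} {h1 : p < 1}
    {Ω D : Finset (Sym2 V)} {A : Finset V} (hA : A ⊆ Λ) (hΩE : ∀ e ∈ Ω, e ∈ G.edgeSet)
    (hΛ : ∀ e ∈ Ω, ∀ v ∈ e, v ∈ Λ) {S : Finset (Sym2 V)} (hS : S ⊆ Ω) :
    exitE (Win.hg Λ p h0 h1) Ω D (Win.res Λ A) S = xE G Ω D A (↑S : Set (Sym2 V)) := by
  ext e
  rw [mem_exitE, xE, Finset.mem_filter, Finset.mem_sdiff]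
  refine and_congr_right fun he => ?_
  have hS1 : ∀ e ∈ S ∩ D, e ∈ G.edgeSet := fun e he =>
    hΩE e (hS (Finset.mem_inter.1 he).1)
  have hS2 : ∀ e ∈ S ∩ D, ∀ v ∈ e, v ∈ Λ := fun e he =>
    hΛ e (hS (Finset.mem_inter.1 he).1)
  have hc : ((↑(S ∩ D) : Set (Sym2 V))) = ↑S ∩ ↑D := Finset.coe_inter _ _
  rw [Finset.not_disjoint_iff]
  constructor
  · rintro ⟨v, hv, hv'⟩
    rw [Win.mem_inc] at hv
    rw [Win.mem_cl_iff hS1 hS2] at hv'
    obtain ⟨a, ha, hr⟩ := hv'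
    rw [hc] at hr
    exact ⟨v.1, hv, a.1, Win.mem_res.1 ha, hr⟩
  · rintro ⟨v, hv, a, ha, hr⟩
    refine ⟨⟨v, hΛ e he.1 v hv⟩, Win.mem_inc.2 hv, ?_⟩
    rw [Win.mem_cl_iff hS1 hS2, hc]
    exact ⟨⟨a, hA ha⟩, Win.mem_res.2 ha, hr⟩

open Classical in
theorem qs_eq_ex (G : SimpleGraph V) (p : I) (hp1 : (p : ℝ) < 1) {Λ : Finset V}
    {Ω D : Finset (Sym2 V)} {A : Finset V} (hD : D ⊆ Ω) (hA : A ⊆ Λ)
    (hΩE : ∀ e ∈ Ω, e ∈ G.edgeSet) (hΛ : ∀ e ∈ Ω, ∀ v ∈ e, v ∈ Λ) (n : ℕ) :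
    qs G p Ω D A n = (Win.hg Λ (p : ℝ) p.2.1 hp1).ex Ω (fun S =>
      if 1 ≤ (exitE (Win.hg Λ (p : ℝ) p.2.1 hp1) Ω D (Win.res Λ A) S).card ∧
        (exitE (Win.hg Λ (p : ℝ) p.2.1 hp1) Ω D (Win.res Λ A) S).card ≤ n
      then (1 : ℝ) else 0) := by
  have h1 : {ω : Set (Sym2 V) | 1 ≤ (xE G Ω D A ω).card ∧ (xE G Ω D A ω).card ≤ n}
      = {ω | (fun ω => 1 ≤ (xE G Ω D A ω).card ∧ (xE G Ω D A ω).card ≤ n)
          (ω ∩ (↑Ω : Set (Sym2 V)))} := by
    ext ω
    simp only [Set.mem_ofPred_eq, xE_local G hD]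
  unfold qs
  rw [h1, Win.real_eq_ex (Win.hg Λ (p : ℝ) p.2.1 hp1) G.edgeSet p (fun e => Win.hg_p e) Ω
    (fun e he => hΩE e he) (fun ω => 1 ≤ (xE G Ω D A ω).card ∧ (xE G Ω D A ω).card ≤ n)]
  refine HG.ex_congr _ fun S hS => ?_
  rw [exitE_eq G hA hΩE hΛ hS]
  split_ifs <;> rfl

/-- **fixed screen count**, infinite volume form -/
theorem screens_inf (G : SimpleGraph V) (p : I) (hp1 : (p : ℝ) < 1)
    {Ω : Finset (Sym2 V)} {A : Finset V} (hΩE : ∀ e ∈ Ω, e ∈ G.edgeSet) (N : ℕ)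
    (D : ℕ → Finset (Sym2 V)) (hD : ∀ i < N, D i ⊆ Ω)
    (hsep : ∀ i j, i < j → j < N → ∀ e ∈ Ω, ∀ v ∈ e, (v ∈ A ∨ ∃ e' ∈ D i, v ∈ e') → e ∈ D j)
    (n : ℕ) :
    ∑ i ∈ Finset.range N, qs G p Ω (D i) A n ≤ ((1 - (p : ℝ)) ^ n)⁻¹ := by
  classical
  set Λ : Finset V := ends Ω ∪ A with hΛdef
  have hA : A ⊆ Λ := Finset.subset_union_right
  have hΛ : ∀ e ∈ Ω, ∀ v ∈ e, v ∈ Λ := fun e he v hv =>
    Finset.mem_union_left _ (mem_ends.2 ⟨e, he, hv⟩)
  set H := Win.hg Λ (p : ℝ) p.2.1 hp1 with hH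
  rw [Finset.sum_congr rfl (fun i hi => qs_eq_ex G p hp1 (hD i (Finset.mem_range.1 hi)) hA hΩE
    hΛ n)]
  have h := screen_count H (Ω := Ω) (A := Win.res Λ A) N D hD ?_ (c := 1 - (p : ℝ))
    (by linarith) (by linarith [p.2.1]) (fun e _ => by rw [hH, Win.hg_p]) n
  · refine le_trans (le_of_eq ?_) h
    refine Finset.sum_congr rfl fun i _ => ?_
    refine HG.ex_congr _ fun S _ => ?_
    split_ifs <;> rfl
  · intro i j hij hj e he hd
    rw [Finset.not_disjoint_iff] at hd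
    obtain ⟨v, hv, hv'⟩ := hd
    rw [hH, Win.mem_inc] at hv
    refine hsep i j hij hj e he v.1 hv ?_
    rcases Finset.mem_union.1 hv' with h | h
    · exact Or.inl (Win.mem_res.1 h)
    · obtain ⟨e', he', hve'⟩ := Finset.mem_biUnion.1 h
      rw [hH, Win.mem_inc] at hve'
      exact Or.inr ⟨e', he', hve'⟩

open Classical in
/-- the annealed failure at one screen, infinite volume form -/
theorem fail_inf (G : SimpleGraph V) (p : I) {Ω D : Finset (Sym2 V)}
    (A : Finset V) (nb : V → Finset V) (blk : V → Finset (Sym2 V)) (Y : Finset V) {Δ M : ℕ}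
    (hΔ : ∀ f ∈ Y, (blk f).card ≤ Δ) (Far : Set V) (hFA : ∀ v ∈ A, v ∉ Far)
    (hFD : ∀ e ∈ D, ∀ v ∈ e, v ∉ Far)
    (hcov : ∀ e ∈ Ω, e ∉ D → ∀ v ∈ e, (v ∈ A ∨ ∃ e' ∈ D, v ∈ e') →
      ∃ f ∈ Y, v ∈ nb f ∧ e ∈ blk f) :
    (setBernoulli G.edgeSet p).real {ω | (Y.filter fun f => ∃ a ∈ A, ∃ y ∈ nb f,
        (openSubgraph G (ω ∩ (↑D : Set (Sym2 V)))).Reachable a y).card < M}
      ≤ (setBernoulli G.edgeSet p).real {ω | ¬ ∃ a ∈ A, ∃ v ∈ Far,
          (openSubgraph G (ω ∩ (↑Ω : Set (Sym2 V)))).Reachable a v}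
        + qs G p Ω D A (M * Δ) := by
  unfold qs
  refine le_trans (measureReal_mono ?_) (measureReal_union_le _ _)
  intro ω hω
  rw [Set.mem_ofPred_eq] at hω
  -- vertices of the inner cluster
  have hin : ∀ a ∈ A, ∀ v, (openSubgraph G (ω ∩ (↑D : Set (Sym2 V)))).Reachable a v →
      v ∈ A ∨ ∃ e' ∈ D, v ∈ e' := by
    intro a ha v hr
    obtain ⟨w⟩ := hr
    have : ∀ (a v : V), (openSubgraph G (ω ∩ (↑D : Set (Sym2 V)))).Walk a v →
        (a ∈ A ∨ ∃ e' ∈ D, a ∈ e') → (v ∈ A ∨ ∃ e' ∈ D, v ∈ e') := by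
      intro a v w
      induction w with
      | nil => exact id
      | @cons a b c hab w ih =>
        intro _
        refine ih (Or.inr ?_)
        rw [Inf.openSubgraph_adj] at hab
        exact ⟨s(a, b), Finset.mem_coe.1 hab.1.2, Sym2.mem_mk_right a b⟩
    exact this a v w (Or.inl ha)
  by_cases h0 : (xE G Ω D A ω).card = 0
  · left
    rw [Set.mem_ofPred_eq]
    rintro ⟨a, ha, v, hv, ⟨w⟩⟩
    rw [Finset.card_eq_zero] at h0
    have key : ∀ (b v : V), (openSubgraph G (ω ∩ (↑Ω : Set (Sym2 V)))).Walk b v →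
        (openSubgraph G (ω ∩ (↑D : Set (Sym2 V)))).Reachable a b →
        (openSubgraph G (ω ∩ (↑D : Set (Sym2 V)))).Reachable a v := by
      intro b v w
      induction w with
      | nil => exact id
      | @cons b c d hbc w ih =>
        intro hr
        refine ih ?_
        rw [Inf.openSubgraph_adj] at hbc
        obtain ⟨⟨hω1, hΩ1⟩, hadj⟩ := hbc
        rw [Finset.mem_coe] at hΩ1
        by_cases heD : s(b, c) ∈ D
        · refine hr.trans (SimpleGraph.Adj.reachable ?_)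
          rw [Inf.openSubgraph_adj]
          exact ⟨⟨hω1, Finset.mem_coe.2 heD⟩, hadj⟩
        · exfalso
          have : s(b, c) ∈ xE G Ω D A ω := by
            rw [xE, Finset.mem_filter, Finset.mem_sdiff]
            exact ⟨⟨hΩ1, heD⟩, b, Sym2.mem_mk_left b c, a, ha, hr⟩
          rw [h0] at this
          simp at this
    have hr := key a v w (SimpleGraph.Reachable.refl _)
    rcases hin a ha v hr with h | ⟨e', he', hve'⟩
    · exact hFA v h hv
    · exact hFD e' he' v hve' hv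
  · right
    rw [Set.mem_ofPred_eq]
    refine ⟨by omega, ?_⟩
    have h1 : xE G Ω D A ω ⊆ (Y.filter fun f => ∃ a ∈ A, ∃ y ∈ nb f,
        (openSubgraph G (ω ∩ (↑D : Set (Sym2 V)))).Reachable a y).biUnion blk := by
      intro e he
      rw [xE, Finset.mem_filter, Finset.mem_sdiff] at he
      obtain ⟨⟨heΩ, heD⟩, v, hv, a, ha, hr⟩ := he
      obtain ⟨f, hf, hvf, hef⟩ := hcov e heΩ heD v hv (hin a ha v hr)
      rw [Finset.mem_biUnion]
      exact ⟨f, Finset.mem_filter.2 ⟨hf, a, ha, v, hvf, hr⟩, hef⟩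
    refine (Finset.card_le_card h1).trans ?_
    refine (Finset.card_biUnion_le_card_mul _ _ Δ fun f hf =>
      hΔ f (Finset.mem_filter.1 hf).1).trans ?_
    exact Nat.mul_le_mul_right _ hω.le

end hg

section aut

open Classical in
theorem xE_aut (G : SimpleGraph V) (φ : G ≃g G) {Ω D Ω' D' : Finset (Sym2 V)}
    {A A' : Finset V} (hΩ : ∀ e, Sym2.map φ e ∈ Ω' ↔ e ∈ Ω)
    (hD : ∀ e, Sym2.map φ e ∈ D' ↔ e ∈ D) (hA : ∀ v, φ v ∈ A' ↔ v ∈ A)
    (ω : Set (Sym2 V)) :
    xE G Ω' D' A' ω = (xE G Ω D A (Sym2.map φ ⁻¹' ω)).image (Sym2.map φ) := by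
  have hsurj : ∀ e : Sym2 V, ∃ e', Sym2.map φ e' = e := by
    intro e
    refine ⟨Sym2.map φ.symm e, ?_⟩
    rw [Sym2.map_map]
    have : (φ ∘ φ.symm : V → V) = id := by
      funext x; simp
    rw [this, Sym2.map_id]
    rfl
  have hre : ∀ a v, (openSubgraph G (Sym2.map φ ⁻¹' ω ∩ (↑D : Set (Sym2 V)))).Reachable a v ↔
      (openSubgraph G (ω ∩ (↑D' : Set (Sym2 V)))).Reachable (φ a) (φ v) := by
    intro a v
    rw [← Inf.reachable_openIso]
    have : Sym2.map φ ⁻¹' (ω ∩ (↑D' : Set (Sym2 V)))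
        = Sym2.map φ ⁻¹' ω ∩ (↑D : Set (Sym2 V)) := by
      ext e
      simp only [Set.mem_preimage, Set.mem_inter_iff, Finset.mem_coe, hD]
    rw [this]
  ext e
  obtain ⟨e', rfl⟩ := hsurj e
  rw [xE, Finset.mem_filter, Finset.mem_sdiff, Finset.mem_image]
  constructor
  · rintro ⟨⟨h1, h2⟩, v, hv, a, ha, hr⟩
    refine ⟨e', ?_, rfl⟩
    rw [xE, Finset.mem_filter, Finset.mem_sdiff]
    rw [Sym2.mem_map] at hv
    obtain ⟨v', hv', rfl⟩ := hv
    obtain ⟨a', rfl⟩ := φ.surjective a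
    refine ⟨⟨(hΩ e').1 h1, fun h => h2 ((hD e').2 h)⟩, v', hv', a', (hA a').1 ha, ?_⟩
    exact (hre a' v').2 hr
  · rintro ⟨e'', he'', heq⟩
    have hinj := Inf.sym2_map_injective φ.injective heq
    subst hinj
    rw [xE, Finset.mem_filter, Finset.mem_sdiff] at he''
    obtain ⟨⟨h1, h2⟩, v, hv, a, ha, hr⟩ := he''
    refine ⟨⟨(hΩ _).2 h1, fun h => h2 ((hD _).1 h)⟩, φ v, Sym2.mem_map.2 ⟨v, hv, rfl⟩,
      φ a, (hA a).2 ha, (hre a v).1 hr⟩

/-- invariance of `qs` -/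
theorem qs_aut (G : SimpleGraph V) (p : I) (φ : G ≃g G) {Ω D Ω' D' : Finset (Sym2 V)}
    {A A' : Finset V} (hDΩ : D ⊆ Ω) (hΩ : ∀ e, Sym2.map φ e ∈ Ω' ↔ e ∈ Ω)
    (hD : ∀ e, Sym2.map φ e ∈ D' ↔ e ∈ D) (hA : ∀ v, φ v ∈ A' ↔ v ∈ A) (n : ℕ) :
    qs G p Ω' D' A' n = qs G p Ω D A n := by
  classical
  have hm : MeasurableSet {ω : Set (Sym2 V) | 1 ≤ (xE G Ω D A ω).card ∧
      (xE G Ω D A ω).card ≤ n} := by
    have h1 : {ω : Set (Sym2 V) | 1 ≤ (xE G Ω D A ω).card ∧ (xE G Ω D A ω).card ≤ n}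
      = {ω | (fun ω => 1 ≤ (xE G Ω D A ω).card ∧ (xE G Ω D A ω).card ≤ n)
          (ω ∩ (↑Ω : Set (Sym2 V)))} := by
      ext ω
      simp only [Set.mem_ofPred_eq, xE_local G hDΩ]
    rw [h1]
    exact measurableSet_local Ω (fun ω => 1 ≤ (xE G Ω D A ω).card ∧ (xE G Ω D A ω).card ≤ n)
  unfold qs
  rw [← Inf.setBernoulli_aut G φ p hm]
  congr 1
  ext ω
  simp only [Set.mem_ofPred_eq]
  rw [xE_aut G φ hΩ hD hA ω, Finset.card_image_of_injective _ (Inf.sym2_map_injective φ.injective)]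

end aut

end Crest.Agent.R147.Mv
end

-- ▼ part R147/Mv475Def
section

/-!
# E4c of S0207: definitions

`Mov` : the data of the two single moves (`false` = `u₁ = (0,1)`, `true` = `u₂ = (1,y)` in the
normalised coordinates `(Xr, Yr)`), everything equivariant under `Z.H`.
`Om x m` : all edges used by the plan with parameter `m` started at `x`;
`Dn x θ` : vertices below height `θ` (relative to `x`);
`tub x θ m` : edges of `Om x m` inside `Dn x θ`;
`Ysc x θ m` : the blocks at the screen of height `θ` which can be touched.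
-/

set_option autoImplicit false
set_option linter.unusedSectionVars false

open Finset MeasureTheory ProbabilityTheory unitInterval
open Crest.ProbabilityR.Percolation Crest.Agent.R147.KN Crest.Agent.R159
open Crest.Agent.R147.Cl Crest.Agent.R147.St Crest.Agent.R147.Lo

namespace Crest.Agent.R147.Mv

universe u
variable {V : Type u} {G : SimpleGraph V}

/-- normalised height -/
noncomputable def Yr (L : ℤ × ℤ → ℤ) (T : ℝ) (a : ℤ × ℤ) : ℝ := (L a : ℝ) / T

/-- normalised transversal coordinate -/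
noncomputable def Xr (L M : ℤ × ℤ → ℤ) (b s : ℝ) (a : ℤ × ℤ) : ℝ := ((M a : ℝ) - s * L a) / b

open Classical in
/-- the data of the two single moves -/
structure Mov (hloc : ∀ v : V, (G.neighborSet v).Finite) (Z : Z2Data G) (o : V) (k : ℕ) (p : I)
    (blk : V → Finset (Sym2 V)) (L M : ℤ × ℤ → ℤ) (T b s y κ : ℝ) (ρ : ℕ)
    (Ein : Bool → V → Finset (Sym2 V)) (Tgt : Bool → V → Finset V) (n : ℕ) (δ : ℝ) :
    Prop where
  Ladd : ∀ a a', L (a + a') = L a + L a'
  Madd : ∀ a a', M (a + a') = M a + M a'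
  Lbx : ∀ (r : ℤ) a, a ∈ bx r → |L a| ≤ r
  T_pos : 0 < T
  b_pos : 0 < b
  y_le : |y| ≤ 1
  κ_nonneg : 0 ≤ κ
  κ_le : κ ≤ 1 / 4000
  thickY : ∀ a ∈ bx (Z.C * (3 * k + 3)), |Yr L T a| ≤ κ
  thickX : ∀ a ∈ bx (Z.C * (3 * k + 3)), |Xr L M b s a| ≤ κ
  cover : ∀ v, ∃ f ∈ Orb Z o, v ∈ th hloc k {f}
  mem_blk : ∀ x e, e ∈ blk x ↔ e ∈ G.edgeSet ∧ ∃ v ∈ e, v ∈ th hloc k {x}
  Ein_act : ∀ (i : Bool) (h : Z.H), ∀ x ∈ Orb Z o, ∀ e,
    Sym2.map (h : G ≃g G) e ∈ Ein i ((h : G ≃g G) x) ↔ e ∈ Ein i x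
  Tgt_act : ∀ (i : Bool) (h : Z.H), ∀ x ∈ Orb Z o, ∀ f,
    (h : G ≃g G) f ∈ Tgt i ((h : G ≃g G) x) ↔ f ∈ Tgt i x
  Ein_edge : ∀ (i : Bool), ∀ x ∈ Orb Z o, ∀ e ∈ Ein i x, e ∈ G.edgeSet
  Ein_X : ∀ (i : Bool), ∀ x ∈ Orb Z o, ∀ e ∈ Ein i x, ∀ v ∈ e,
    |Xr L M b s (Z.Φ v - Z.Φ x)| ≤ 9 / 2
  Ein_Y : ∀ (i : Bool), ∀ x ∈ Orb Z o, ∀ e ∈ Ein i x, ∀ v ∈ e,
    |Yr L T (Z.Φ v - Z.Φ x)| ≤ 3 / 2
  Ein_th : ∀ (i : Bool), ∀ x ∈ Orb Z o, ∀ e ∈ Ein i x, ∀ v ∈ e, v ∈ th hloc ρ {x}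
  Tgt_orb : ∀ (i : Bool), ∀ x ∈ Orb Z o, ∀ f ∈ Tgt i x, f ∈ Orb Z o
  Tgt_X : ∀ (i : Bool), ∀ x ∈ Orb Z o, ∀ f ∈ Tgt i x,
    |Xr L M b s (Z.Φ f - Z.Φ x) - (Pl.mv y i).1| ≤ κ
  Tgt_Y : ∀ (i : Bool), ∀ x ∈ Orb Z o, ∀ f ∈ Tgt i x,
    |Yr L T (Z.Φ f - Z.Φ x) - (Pl.mv y i).2| ≤ κ
  Tgt_th : ∀ (i : Bool), ∀ x ∈ Orb Z o, ∀ f ∈ Tgt i x, f ∈ th hloc ρ {x}
  disj : ∀ (i : Bool), ∀ x ∈ Orb Z o, ∀ f ∈ Tgt i x, Disjoint (blk f) (Ein i x)
  fail : ∀ (i : Bool), ∀ x ∈ Orb Z o, (setBernoulli G.edgeSet p).real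
    {ω | ((Tgt i x).filter fun f => ∃ a ∈ th hloc k {x}, ∃ y ∈ th hloc (k + 1) {f},
      (openSubgraph G (ω ∩ (↑(Ein i x) : Set (Sym2 V)))).Reachable a y).card < n} ≤ δ

/-- vertices strictly below the relative height `θ` -/
def Dn (hloc : ∀ v : V, (G.neighborSet v).Finite) (Z : Z2Data G) (o : V) (k : ℕ)
    (L : ℤ × ℤ → ℤ) (x : V) (θ : ℤ) : Set V :=
  {v | ∀ f ∈ Orb Z o, v ∈ th hloc k {f} → L (Z.Φ f - Z.Φ x) < θ}

open Classical in
/-- all edges used by the plan with parameter `m` started at `x` -/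
noncomputable def OmP (blk : V → Finset (Sym2 V)) (Ein : Bool → V → Finset (Sym2 V))
    (Tgt : Bool → V → Finset V) (x : V) (m : ℕ) : Finset (Sym2 V) :=
  Om Ein Tgt blk (Pl.idx m) x (Pl.len m)

open Classical in
/-- edges of the plan below the screen of relative height `θ` -/
noncomputable def tub (hloc : ∀ v : V, (G.neighborSet v).Finite) (Z : Z2Data G) (o : V)
    (k : ℕ) (L : ℤ × ℤ → ℤ) (blk : V → Finset (Sym2 V)) (Ein : Bool → V → Finset (Sym2 V))
    (Tgt : Bool → V → Finset V) (x : V) (θ : ℤ) (m : ℕ) : Finset (Sym2 V) :=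
  (OmP blk Ein Tgt x m).filter (fun e => ∀ v ∈ e, v ∈ Dn hloc Z o k L x θ)

open Classical in
/-- blocks at the screen of relative height `θ` reachable by the plan -/
noncomputable def Ysc (hloc : ∀ v : V, (G.neighborSet v).Finite) (Z : Z2Data G) (o : V)
    (k : ℕ) (L : ℤ × ℤ → ℤ) (blk : V → Finset (Sym2 V)) (Ein : Bool → V → Finset (Sym2 V))
    (Tgt : Bool → V → Finset V) (x : V) (θ : ℤ) (m : ℕ) : Finset V :=
  ((ends (OmP blk Ein Tgt x m)).biUnion (fun w => th hloc k {w})).filter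
    (fun f => f ∈ Orb Z o ∧ θ ≤ L (Z.Φ f - Z.Φ x) ∧ ∃ e ∈ OmP blk Ein Tgt x m,
      (∃ w ∈ e, w ∈ th hloc k {f}) ∧ ∃ v ∈ e, v ∈ Dn hloc Z o k L x θ)

/-!
Main theorem (in `Mv475Ann.lean`), STATEMENT:

theorem ann [Countable V] (hp0 : 0 < (p : ℝ)) (hp1 : (p : ℝ) < 1)
    (hM : Mov hloc Z o k p blk L M T b s y κ ρ Ein Tgt (m₀ * K) δ)
    (hK : 0 < K) (hm₀ : 0 < m₀)
    (hcard : ∀ x ∈ Orb Z o, (blk x).card ≤ Δ)
    (hover : ∀ x ∈ Orb Z o, ∀ F : Finset V, (∀ y ∈ F, y ∈ Orb Z o) →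
      (F.filter fun y => y = x ∨ ¬ Disjoint (blk x) (blk y)).card ≤ K)
    (hβ0 : 0 < β) (hβ1 : β ≤ 1) (hδ : δ ≤ Nm.del 382 (β / 2))
    (hq : 4 / ((p : ℝ) ^ Δ * m₀) ≤ Nm.del 382 (β / 2))
    (Cr Mt Ns : ℕ) (h0 g : ℤ) (hg : (Z.C : ℤ) * (2 * k + 1) ≤ g) (hg0 : 0 ≤ g)
    (hNs : ((Cr + 1) * 60 : ℝ) * ((1 - (p : ℝ)) ^ (Mt * Δ))⁻¹ < β / 2 * Ns)
    (hlo : 199 * T + Cr ≤ h0) (hhi : (h0 : ℝ) + Ns * g ≤ 201 * T) :
    ∃ i < Ns, ∀ x ∈ Orb Z o, ∀ r ≤ Cr, ∀ m ≤ 59, ∀ θ : ℤ, θ = h0 + i * g - r →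
      (setBernoulli G.edgeSet p).real {ω | ((Ysc hloc Z o k L blk Ein Tgt x θ m).filter
        fun f => ∃ a ∈ th hloc k {x}, ∃ y ∈ th hloc (k + 1) {f},
        (openSubgraph G (ω ∩ (↑(tub hloc Z o k L blk Ein Tgt x θ m) : Set (Sym2 V)))).Reachable
          a y).card < Mt} ≤ β

Geometry (θ with 199 T ≤ θ ≤ 201 T, m ≤ 59, x ∈ Orb Z o):
tub_edge, tub_Dn, tub_X : v ∈ e ∈ tub → -5 ≤ Xr (Φ v - Φ x) ≤ m + 5, tub_Y : -2 ≤ Yr (Φ v - Φ x),
tub_th : v ∈ th hloc (400 * (ρ + k + 1)) {x}; tub_card (uniform in x, r, m);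
Ysc_orb, Ysc_lo : θ ≤ L (Φ f - Φ x), Ysc_hi : L (Φ f - Φ x) < θ + Z.C * (2k+1),
Ysc_X : |Xr (Φ f - Φ x) - m| ≤ 5, Ysc_th : f ∈ th hloc (400 * (ρ + k + 1)) {x},
Ysc_nb : ∃ v ∈ th hloc (k+1) {f}, v ∈ Dn x θ.
-/

end Crest.Agent.R147.Mv
end

-- ▼ part R147/End490M
section

/-!
Row 147 (helper490): helper53's `Nm.MovOut` is helper475's `Mv.Mov`.
-/

set_option autoImplicit false

open Crest.ProbabilityR.Percolation MeasureTheory ProbabilityTheory unitInterval Filter
open Crest.Agent.R159 Crest.Agent.R159.Sharp Crest.Agent.R147.Cl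

namespace Crest.Agent.R147.Fi

universe u
variable {V : Type u} {G : SimpleGraph V}

theorem mov_of_movOut {hloc : ∀ v : V, (G.neighborSet v).Finite} {Z : St.Z2Data G} {o : V}
    {k : ℕ} {p : I} {K n : ℕ} {δ t : ℝ} {L M : ℤ × ℤ → ℤ} {T b s y : ℝ} {r : ℕ}
    {Ein : Bool → V → Finset (Sym2 V)} {Tgt : Bool → V → Finset V}
    (h : Nm.MovOut hloc Z o k p K n δ t L M T b s y r Ein Tgt) (hK : 8000 ≤ K)
    (ht : ((Z.C * (3 * k + 3) : ℕ) : ℝ) ≤ t)
    (hcov : ∀ v, ∃ f ∈ Lo.Orb Z o, v ∈ th hloc k {f}) :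
    Mv.Mov hloc Z o k p (Lo.blk hloc k) L M T b s y (2 / K) (r + 1 + k) Ein Tgt n δ := by
  have hK0 : (0 : ℝ) < K := by
    have : (0 : ℕ) < K := by omega
    exact_mod_cast this
  have hK1 : (8000 : ℝ) ≤ K := by exact_mod_cast hK
  have h1K : (1 : ℝ) / K ≤ 2 / K := div_le_div_of_nonneg_right (by norm_num) hK0.le
  have h1K' : (1 : ℝ) / K ≤ 1 / 2 := by
    apply one_div_le_one_div_of_le (by norm_num)
    linarith
  have hbx : ∀ a ∈ Lo.bx (Z.C * (3 * k + 3)), |(a.1 : ℝ)| ≤ t ∧ |(a.2 : ℝ)| ≤ t := by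
    rintro a ⟨h1, h2⟩
    constructor
    · refine le_trans ?_ ht
      have : ((|a.1| : ℤ) : ℝ) ≤ ((Z.C * (3 * k + 3) : ℤ) : ℝ) := by exact_mod_cast h1
      push_cast at this ⊢
      exact this
    · refine le_trans ?_ ht
      have : ((|a.2| : ℤ) : ℝ) ≤ ((Z.C * (3 * k + 3) : ℤ) : ℝ) := by exact_mod_cast h2
      push_cast at this ⊢
      exact this
  constructor
  · exact fun a a' => (Nm.coord_add h.coord a a').1
  · exact fun a a' => (Nm.coord_add h.coord a a').2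
  · intro r a ha
    exact Pg.Coord.abs_L_le h.coord ha.1 ha.2
  · exact h.b_pos.trans_le h.b_le
  · exact h.b_pos
  · exact h.y_le
  · positivity
  · rw [div_le_div_iff₀ hK0 (by norm_num)]
    linarith
  · intro a ha
    exact (h.thickL a (hbx a ha).1 (hbx a ha).2).trans h1K
  · intro a ha
    exact (h.thickM a (hbx a ha).1 (hbx a ha).2).trans h1K
  · exact hcov
  · intro x e
    rw [Lo.mem_blk]
    constructor
    · rintro ⟨h1, v, hv, hve⟩; exact ⟨h1, v, hve, hv⟩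
    · rintro ⟨h1, v, hve, hv⟩; exact ⟨h1, v, hv, hve⟩
  · exact fun i g x _ e => h.ein_act i g x e
  · exact fun i g x _ f => h.tgt_act i g x f
  · exact fun i x _ e he => h.ein_edge i x e he
  · intro i x _ e he v hv
    exact (h.ein_X i x e he v hv).trans (by linarith)
  · intro i x _ e he v hv
    exact (h.ein_Y i x e he v hv).trans (by linarith)
  · intro i x _ e he v hv
    exact th_mono_n hloc (by omega) _ (h.ein_ball i x e he v hv)
  · exact fun i x _ f hf => h.tgt_orb i x f hf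
  · intro i x _ f hf
    have h1 := h.tgt_X i x f hf
    unfold Mv.Xr Pl.mv
    cases i <;> simpa using h1
  · intro i x _ f hf
    have h1 := (h.tgt_Y i x f hf).trans h1K
    unfold Mv.Yr Pl.mv
    cases i <;> simpa using h1
  · exact fun i x _ f hf => h.tgt_ball i x f hf
  · intro i x _ f hf
    rw [Finset.disjoint_left]
    intro e he he'
    obtain ⟨_, v, hv, hve⟩ := (Lo.mem_blk hloc).1 he
    exact h.disj i x f hf e he' v hve hv
  · exact h.fail

end Crest.Agent.R147.Fi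
end

-- ▼ part R147/Mv475Geo
section

/-!
# E4c of S0207: geometry and equivariance of the plan
-/

set_option autoImplicit false
set_option linter.unusedSectionVars false

open Finset MeasureTheory ProbabilityTheory unitInterval
open Crest.ProbabilityR.Percolation Crest.Agent.R147.KN Crest.Agent.R159
open Crest.Agent.R147.Cl Crest.Agent.R147.St Crest.Agent.R147.Lo

namespace Crest.Agent.R147.Mv

universe u
variable {V : Type u} {G : SimpleGraph V} {hloc : ∀ v : V, (G.neighborSet v).Finite}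
  {Z : Z2Data G} {o : V} {k : ℕ} {p : I} {blk : V → Finset (Sym2 V)} {L M : ℤ × ℤ → ℤ}
  {T b s y κ : ℝ} {ρ : ℕ} {Ein : Bool → V → Finset (Sym2 V)} {Tgt : Bool → V → Finset V}
  {n : ℕ} {δ : ℝ}

theorem len_le {m : ℕ} (hm : m ≤ 59) : Pl.len m ≤ 382 := by unfold Pl.len; omega

theorem mv_fst_le (y : ℝ) (i : Bool) : |(Pl.mv y i).1| ≤ 1 := by
  unfold Pl.mv; cases i <;> simp

theorem mv_snd_le {y : ℝ} (hy : |y| ≤ 1) (i : Bool) : |(Pl.mv y i).2| ≤ 1 := by
  unfold Pl.mv; cases i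
  · simp
  · simpa using hy

section

variable (hM : Mov hloc Z o k p blk L M T b s y κ ρ Ein Tgt n δ)

include hM

theorem Mov.Yadd (a a' : ℤ × ℤ) : Yr L T (a + a') = Yr L T a + Yr L T a' := by
  unfold Yr; rw [hM.Ladd]; push_cast; ring

theorem Mov.Xadd (a a' : ℤ × ℤ) : Xr L M b s (a + a') = Xr L M b s a + Xr L M b s a' := by
  unfold Xr; rw [hM.Ladd, hM.Madd]; push_cast; ring

theorem Mov.L_zero : L 0 = 0 := by
  have := hM.Ladd 0 0
  rw [add_zero] at this
  linarith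

theorem Mov.M_zero : M 0 = 0 := by
  have := hM.Madd 0 0
  rw [add_zero] at this
  linarith

theorem Mov.Y_zero : Yr L T 0 = 0 := by unfold Yr; rw [hM.L_zero]; simp

theorem Mov.X_zero : Xr L M b s 0 = 0 := by unfold Xr; rw [hM.L_zero, hM.M_zero]; simp

theorem Mov.Y_split (u v w : V) : Yr L T (Z.Φ u - Z.Φ w)
    = Yr L T (Z.Φ u - Z.Φ v) + Yr L T (Z.Φ v - Z.Φ w) := by
  rw [← hM.Yadd, sub_add_sub_cancel]

theorem Mov.X_split (u v w : V) : Xr L M b s (Z.Φ u - Z.Φ w)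
    = Xr L M b s (Z.Φ u - Z.Φ v) + Xr L M b s (Z.Φ v - Z.Φ w) := by
  rw [← hM.Xadd, sub_add_sub_cancel]

theorem Mov.L_split (u v w : V) : L (Z.Φ u - Z.Φ w)
    = L (Z.Φ u - Z.Φ v) + L (Z.Φ v - Z.Φ w) := by
  rw [← hM.Ladd, sub_add_sub_cancel]

/-- differences over graph distance at most `3k+3` are negligible -/
theorem Mov.thin {j : ℕ} (hj : j ≤ 3 * k + 3) {u v : V} (h : u ∈ th hloc j {v}) :
    |Xr L M b s (Z.Φ u - Z.Φ v)| ≤ κ ∧ |Yr L T (Z.Φ u - Z.Φ v)| ≤ κ := by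
  have h1 := Phi_th hloc Z h
  have h2 : Z.Φ u - Z.Φ v ∈ bx (Z.C * (3 * k + 3)) := by
    refine bx_mono ?_ h1
    have : (j : ℤ) ≤ 3 * k + 3 := by exact_mod_cast hj
    exact mul_le_mul_of_nonneg_left this (by positivity)
  exact ⟨hM.thickX _ h2, hM.thickY _ h2⟩

/-- positions of the plan -/
theorem Mov.pos_geo {x : V} (hx : x ∈ Orb Z o) (m : ℕ) : ∀ j c,
    c ∈ (by classical exact Pos Tgt (Pl.idx m) x j : Finset V) → c ∈ Orb Z o ∧
    |Xr L M b s (Z.Φ c - Z.Φ x) - (Pl.pos y m j).1| ≤ j * κ ∧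
    |Yr L T (Z.Φ c - Z.Φ x) - (Pl.pos y m j).2| ≤ j * κ ∧ c ∈ th hloc (j * ρ) {x} := by
  classical
  intro j
  induction j with
  | zero =>
    intro c hc
    have hc' : c = x := by
      have : c ∈ ({x} : Finset V) := by simpa [Pos] using hc
      exact Finset.mem_singleton.1 this
    subst hc'
    refine ⟨hx, ?_, ?_, ?_⟩
    · rw [sub_self, hM.X_zero, Pl.pos_zero]; simp
    · rw [sub_self, hM.Y_zero, Pl.pos_zero]; simp
    · exact Lo.th_self hloc _ _
  | succ j ih =>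
    intro c hc
    have hc' : ∃ c' ∈ (Pos Tgt (Pl.idx m) x j : Finset V), c ∈ Tgt (Pl.idx m j) c' := by
      simpa [Pos] using hc
    obtain ⟨c', hc', hcT⟩ := hc'
    obtain ⟨h1, h2, h3, h4⟩ := ih c' (by convert hc')
    have hX := hM.Tgt_X (Pl.idx m j) c' h1 c hcT
    have hY := hM.Tgt_Y (Pl.idx m j) c' h1 c hcT
    have hth := hM.Tgt_th (Pl.idx m j) c' h1 c hcT
    refine ⟨hM.Tgt_orb _ c' h1 c hcT, ?_, ?_, ?_⟩
    · rw [hM.X_split c c' x, Pl.pos_succ, Prod.fst_add]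
      push_cast
      rw [abs_le] at *
      constructor <;> linarith [hX.1, hX.2, h2.1, h2.2]
    · rw [hM.Y_split c c' x, Pl.pos_succ, Prod.snd_add]
      push_cast
      rw [abs_le] at *
      constructor <;> linarith [hY.1, hY.2, h3.1, h3.2]
    · have := Lo.th_trans hloc h4 hth
      rwa [← Nat.succ_mul] at this

omit hM in
theorem mem_OmP {x : V} {m : ℕ} {e : Sym2 V} : e ∈ OmP blk Ein Tgt x m ↔
    ∃ j < Pl.len m, ∃ c ∈ (by classical exact Pos Tgt (Pl.idx m) x j : Finset V),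
      e ∈ Ein (Pl.idx m j) c ∨ ∃ f ∈ Tgt (Pl.idx m j) c, e ∈ blk f := by
  classical
  unfold OmP Om
  rw [Finset.mem_biUnion]
  constructor
  · rintro ⟨j, hj, he⟩
    rw [Finset.mem_biUnion] at he
    obtain ⟨c, hc, he⟩ := he
    refine ⟨j, Finset.mem_range.1 hj, c, by convert hc, ?_⟩
    rcases Finset.mem_union.1 he with he | he
    · exact Or.inl he
    · exact Or.inr (Finset.mem_biUnion.1 he)
  · rintro ⟨j, hj, c, hc, he⟩
    refine ⟨j, Finset.mem_range.2 hj, ?_⟩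
    rw [Finset.mem_biUnion]
    refine ⟨c, by convert hc, ?_⟩
    rcases he with he | he
    · exact Finset.mem_union_left _ he
    · exact Finset.mem_union_right _ (Finset.mem_biUnion.2 he)

theorem Mov.OmP_edge {x : V} (hx : x ∈ Orb Z o) {m : ℕ} {e : Sym2 V}
    (he : e ∈ OmP blk Ein Tgt x m) : e ∈ G.edgeSet := by
  obtain ⟨j, _, c, hc, he⟩ := mem_OmP.1 he
  have hcO := (hM.pos_geo hx m j c hc).1
  rcases he with he | ⟨f, _, he⟩
  · exact hM.Ein_edge _ c hcO e he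
  · exact ((hM.mem_blk f e).1 he).1

omit hM in
/-- end points of an edge touching a ball -/
theorem end_th (hmb : ∀ x e, e ∈ blk x ↔ e ∈ G.edgeSet ∧ ∃ v ∈ e, v ∈ th hloc k {x})
    {f v : V} {e : Sym2 V} (he : e ∈ blk f) (hv : v ∈ e) : v ∈ th hloc (k + 1) {f} := by
  obtain ⟨h1, w, hw, hwf⟩ := (hmb f e).1 he
  by_cases hvw : v = w
  · rw [hvw]; exact th_mono_n hloc (Nat.le_succ k) _ hwf
  · have : e = s(v, w) := ((Sym2.mem_and_mem_iff hvw).1 ⟨hv, hw⟩)
    rw [this, SimpleGraph.mem_edgeSet] at h1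
    exact Lo.th_adj hloc hwf h1.symm

omit hM in
theorem end_adj {v w : V} {e : Sym2 V} (he : e ∈ G.edgeSet) (hv : v ∈ e) (hw : w ∈ e)
    (hvw : v ≠ w) : G.Adj v w ∧ e = s(v, w) := by
  have : e = s(v, w) := ((Sym2.mem_and_mem_iff hvw).1 ⟨hv, hw⟩)
  rw [this, SimpleGraph.mem_edgeSet] at he
  exact ⟨he, this⟩

/-- geometry of the edges of the plan -/
theorem Mov.om_geo {x : V} (hx : x ∈ Orb Z o) {m : ℕ} (hm : m ≤ 59) {e : Sym2 V}
    (he : e ∈ OmP blk Ein Tgt x m) {v : V} (hv : v ∈ e) : ∃ j < Pl.len m,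
    |Xr L M b s (Z.Φ v - Z.Φ x) - (Pl.pos y m j).1| ≤ 9 / 2 + 1 / 10 ∧
    |Yr L T (Z.Φ v - Z.Φ x) - (Pl.pos y m j).2| ≤ 3 / 2 + 1 / 10 ∧
    v ∈ th hloc (j * ρ + (ρ + (k + 1))) {x} := by
  obtain ⟨j, hj, c, hc, he⟩ := mem_OmP.1 he
  obtain ⟨h1, h2, h3, h4⟩ := hM.pos_geo hx m j c hc
  have hjκ : (j : ℝ) * κ ≤ 1 / 10 := by
    have h5 : j ≤ 382 := hj.le.trans (len_le hm)
    have h6 : (j : ℝ) ≤ 382 := by exact_mod_cast h5
    have h7 := hM.κ_nonneg
    have h8 := hM.κ_le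
    nlinarith
  have key : |Xr L M b s (Z.Φ v - Z.Φ c)| ≤ 9 / 2 ∧ |Yr L T (Z.Φ v - Z.Φ c)| ≤ 3 / 2 ∧
      v ∈ th hloc (ρ + (k + 1)) {c} := by
    rcases he with he | ⟨f, hf, he⟩
    · exact ⟨hM.Ein_X _ c h1 e he v hv, hM.Ein_Y _ c h1 e he v hv,
        th_mono_n hloc (by omega) _ (hM.Ein_th _ c h1 e he v hv)⟩
    · have h5 := end_th hM.mem_blk he hv
      obtain ⟨h6, h7⟩ := hM.thin (by omega) h5
      have h8 := hM.Tgt_X _ c h1 f hf
      have h9 := hM.Tgt_Y _ c h1 f hf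
      have h10 := mv_fst_le y (Pl.idx m j)
      have h11 := mv_snd_le hM.y_le (Pl.idx m j)
      have h12 := hM.κ_le
      refine ⟨?_, ?_, Lo.th_trans hloc (hM.Tgt_th _ c h1 f hf) h5⟩
      · rw [hM.X_split v f c]
        rw [abs_le] at *
        constructor <;> linarith [h6.1, h6.2, h8.1, h8.2, h10.1, h10.2]
      · rw [hM.Y_split v f c]
        rw [abs_le] at *
        constructor <;> linarith [h7.1, h7.2, h9.1, h9.2, h11.1, h11.2]
  obtain ⟨k1, k2, k3⟩ := key
  refine ⟨j, hj, ?_, ?_, Lo.th_trans hloc h4 k3⟩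
  · rw [hM.X_split v c x]
    rw [abs_le] at *
    constructor <;> linarith [k1.1, k1.2, h2.1, h2.2]
  · rw [hM.Y_split v c x]
    rw [abs_le] at *
    constructor <;> linarith [k2.1, k2.2, h3.1, h3.2]

theorem Mov.om_th {x : V} (hx : x ∈ Orb Z o) {m : ℕ} (hm : m ≤ 59) {e : Sym2 V}
    (he : e ∈ OmP blk Ein Tgt x m) {v : V} (hv : v ∈ e) :
    v ∈ th hloc (390 * (ρ + k + 1)) {x} := by
  obtain ⟨j, hj, _, _, h⟩ := hM.om_geo hx hm he hv
  have h1 := len_le hm
  refine th_mono_n hloc ?_ _ h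
  have : j * ρ ≤ 382 * ρ := Nat.mul_le_mul_right _ (by omega)
  omega

omit hM in
theorem mem_tub {x : V} {θ : ℤ} {m : ℕ} {e : Sym2 V} :
    e ∈ tub hloc Z o k L blk Ein Tgt x θ m ↔
      e ∈ OmP blk Ein Tgt x m ∧ ∀ v ∈ e, v ∈ Dn hloc Z o k L x θ := by
  classical
  unfold tub
  rw [Finset.mem_filter]

omit hM in
theorem tub_subset (x : V) (θ : ℤ) (m : ℕ) :
    tub hloc Z o k L blk Ein Tgt x θ m ⊆ OmP blk Ein Tgt x m := fun _ he => (mem_tub.1 he).1

theorem Mov.tub_edge {x : V} (hx : x ∈ Orb Z o) {θ : ℤ} {m : ℕ} {e : Sym2 V}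
    (he : e ∈ tub hloc Z o k L blk Ein Tgt x θ m) : e ∈ G.edgeSet :=
  hM.OmP_edge hx (tub_subset x θ m he)

omit hM in
theorem tub_Dn {x : V} {θ : ℤ} {m : ℕ} {e : Sym2 V}
    (he : e ∈ tub hloc Z o k L blk Ein Tgt x θ m) {v : V} (hv : v ∈ e) :
    v ∈ Dn hloc Z o k L x θ := (mem_tub.1 he).2 v hv

theorem Mov.tub_X {x : V} (hx : x ∈ Orb Z o) {θ : ℤ} {m : ℕ} (hm : m ≤ 59) {e : Sym2 V}
    (he : e ∈ tub hloc Z o k L blk Ein Tgt x θ m) {v : V} (hv : v ∈ e) :
    -5 ≤ Xr L M b s (Z.Φ v - Z.Φ x) ∧ Xr L M b s (Z.Φ v - Z.Φ x) ≤ m + 5 := by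
  obtain ⟨j, hj, h1, _, _⟩ := hM.om_geo hx hm (tub_subset x θ m he) hv
  have h2 := Pl.pos_fst_nonneg y m j
  have h3 := Pl.pos_fst_le y m j
  rw [abs_le] at h1
  constructor <;> linarith [h1.1, h1.2]

theorem Mov.tub_Y {x : V} (hx : x ∈ Orb Z o) {θ : ℤ} {m : ℕ} (hm : m ≤ 59) {e : Sym2 V}
    (he : e ∈ tub hloc Z o k L blk Ein Tgt x θ m) {v : V} (hv : v ∈ e) :
    -2 ≤ Yr L T (Z.Φ v - Z.Φ x) := by
  obtain ⟨j, hj, _, h1, _⟩ := hM.om_geo hx hm (tub_subset x θ m he) hv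
  have h2 := Pl.pos_snd_nonneg hM.y_le m j
  rw [abs_le] at h1
  linarith [h1.1]

theorem Mov.tub_th {x : V} (hx : x ∈ Orb Z o) {θ : ℤ} {m : ℕ} (hm : m ≤ 59) {e : Sym2 V}
    (he : e ∈ tub hloc Z o k L blk Ein Tgt x θ m) {v : V} (hv : v ∈ e) :
    v ∈ th hloc (400 * (ρ + k + 1)) {x} :=
  th_mono_n hloc (by omega) _ (hM.om_th hx hm (tub_subset x θ m he) hv)

omit hM in
theorem mem_Ysc {x : V} {θ : ℤ} {m : ℕ} {f : V} :
    f ∈ Ysc hloc Z o k L blk Ein Tgt x θ m ↔ f ∈ Orb Z o ∧ θ ≤ L (Z.Φ f - Z.Φ x) ∧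
      ∃ e ∈ OmP blk Ein Tgt x m, (∃ w ∈ e, w ∈ th hloc k {f}) ∧
        ∃ v ∈ e, v ∈ Dn hloc Z o k L x θ := by
  classical
  unfold Ysc
  rw [Finset.mem_filter]
  constructor
  · exact fun h => h.2
  · intro h
    refine ⟨?_, h⟩
    obtain ⟨_, _, e, he, ⟨w, hw, hwf⟩, _⟩ := h
    rw [Finset.mem_biUnion]
    exact ⟨w, mem_ends.2 ⟨e, he, hw⟩, Lo.th_symm hloc hwf⟩

omit hM in
theorem Ysc_orb {x : V} {θ : ℤ} {m : ℕ} {f : V}
    (hf : f ∈ Ysc hloc Z o k L blk Ein Tgt x θ m) : f ∈ Orb Z o := (mem_Ysc.1 hf).1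

omit hM in
theorem Ysc_lo {x : V} {θ : ℤ} {m : ℕ} {f : V}
    (hf : f ∈ Ysc hloc Z o k L blk Ein Tgt x θ m) : θ ≤ L (Z.Φ f - Z.Φ x) := (mem_Ysc.1 hf).2.1

/-- going out of `Dn` by one edge -/
theorem Mov.Dn_near {x : V} {θ : ℤ} {v f : V} (hv : v ∈ Dn hloc Z o k L x θ)
    (hvf : v ∈ th hloc (k + 1) {f}) : L (Z.Φ f - Z.Φ x) < θ + Z.C * (2 * k + 1) := by
  obtain ⟨f1, hf1, hvf1⟩ := hM.cover v
  have h1 := hv f1 hf1 hvf1
  have h2 := Phi_th hloc Z (Lo.th_trans hloc hvf1 (Lo.th_symm hloc hvf))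
  have h3 : ((k + (k + 1) : ℕ) : ℤ) = 2 * k + 1 := by push_cast; ring
  rw [h3] at h2
  have h4 := hM.Lbx _ _ h2
  rw [hM.L_split f f1 x]
  have := (abs_le.1 h4).2
  linarith

theorem Mov.Ysc_nb {x : V} (hx : x ∈ Orb Z o) {θ : ℤ} {m : ℕ} {f : V}
    (hf : f ∈ Ysc hloc Z o k L blk Ein Tgt x θ m) :
    ∃ v ∈ th hloc (k + 1) {f}, v ∈ Dn hloc Z o k L x θ := by
  obtain ⟨_, _, e, he, ⟨w, hw, hwf⟩, v, hv, hvD⟩ := mem_Ysc.1 hf
  refine ⟨v, ?_, hvD⟩
  by_cases hvw : v = w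
  · rw [hvw]; exact th_mono_n hloc (Nat.le_succ k) _ hwf
  · exact Lo.th_adj hloc hwf (end_adj (hM.OmP_edge hx he) hv hw hvw).1.symm

theorem Mov.Ysc_hi {x : V} (hx : x ∈ Orb Z o) {θ : ℤ} {m : ℕ} {f : V}
    (hf : f ∈ Ysc hloc Z o k L blk Ein Tgt x θ m) :
    L (Z.Φ f - Z.Φ x) < θ + Z.C * (2 * k + 1) := by
  obtain ⟨v, hv, hvD⟩ := hM.Ysc_nb hx hf
  exact hM.Dn_near hvD hv

theorem Mov.Ysc_X {x : V} (hx : x ∈ Orb Z o) {θ : ℤ} {m : ℕ} (hm : m ≤ 59) {f : V}
    (hθ : 199 * T ≤ θ) (hf : f ∈ Ysc hloc Z o k L blk Ein Tgt x θ m) :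
    |Xr L M b s (Z.Φ f - Z.Φ x) - m| ≤ 5 := by
  obtain ⟨_, hlo, e, he, ⟨w, hw, hwf⟩, _⟩ := mem_Ysc.1 hf
  obtain ⟨j, hj, h1, h2, _⟩ := hM.om_geo hx hm he hw
  obtain ⟨h3, h4⟩ := hM.thin (by omega) (Lo.th_symm hloc hwf)
  have hκ := hM.κ_le
  have h5 : 199 ≤ Yr L T (Z.Φ f - Z.Φ x) := by
    unfold Yr
    rw [le_div_iff₀ hM.T_pos]
    have : (θ : ℝ) ≤ (L (Z.Φ f - Z.Φ x) : ℝ) := by exact_mod_cast hlo
    linarith
  rw [hM.Y_split f w x] at h5
  have h6 : (177 : ℝ) < (Pl.pos y m j).2 := by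
    have := (abs_le.1 h2).2
    have := (abs_le.1 h4).2
    linarith
  have h7 : 3 * m ≤ j := by
    by_contra hcon
    push Not at hcon
    have h8 := Pl.pos_snd_le hM.y_le m j
    have h9 : (j : ℝ) ≤ 177 := by
      have : j ≤ 177 := by omega
      exact_mod_cast this
    linarith
  rw [Pl.pos_fst_of_le y h7] at h1
  rw [hM.X_split f w x]
  rw [abs_le] at *
  constructor <;> linarith [h1.1, h1.2, h3.1, h3.2]

theorem Mov.Ysc_th {x : V} (hx : x ∈ Orb Z o) {θ : ℤ} {m : ℕ} (hm : m ≤ 59) {f : V}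
    (hf : f ∈ Ysc hloc Z o k L blk Ein Tgt x θ m) :
    f ∈ th hloc (400 * (ρ + k + 1)) {x} := by
  obtain ⟨_, _, e, he, ⟨w, hw, hwf⟩, _⟩ := mem_Ysc.1 hf
  have h1 := hM.om_th hx hm he hw
  exact th_mono_n hloc (by omega) _ (Lo.th_trans hloc h1 (Lo.th_symm hloc hwf))

/-! ### equivariance -/

theorem Mov.Pos_act (h : Z.H) {x : V} (hx : x ∈ Orb Z o) (m : ℕ) : ∀ j c,
    (h : G ≃g G) c ∈ (by classical exact Pos Tgt (Pl.idx m) ((h : G ≃g G) x) j : Finset V) ↔
      c ∈ (by classical exact Pos Tgt (Pl.idx m) x j : Finset V) := by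
  classical
  intro j
  induction j with
  | zero =>
    intro c
    simp only [Pos, Finset.mem_singleton]
    exact (h : G ≃g G).injective.eq_iff
  | succ j ih =>
    intro c
    simp only [Pos, Finset.mem_biUnion]
    constructor
    · rintro ⟨c', hc', hc⟩
      obtain ⟨c0, rfl⟩ := (h : G ≃g G).surjective c'
      have h1 := (ih c0).1 hc'
      have h2 := (hM.pos_geo hx m j c0 h1).1
      exact ⟨c0, h1, (hM.Tgt_act _ h c0 h2 c).1 hc⟩
    · rintro ⟨c0, hc0, hc⟩
      have h2 := (hM.pos_geo hx m j c0 hc0).1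
      exact ⟨(h : G ≃g G) c0, (ih c0).2 hc0, (hM.Tgt_act _ h c0 h2 c).2 hc⟩

omit hM in
theorem blk_act (hmb : ∀ x e, e ∈ blk x ↔ e ∈ G.edgeSet ∧ ∃ v ∈ e, v ∈ th hloc k {x})
    (φ : G ≃g G) (f : V) (e : Sym2 V) : Sym2.map φ e ∈ blk (φ f) ↔ e ∈ blk f := by
  rw [hmb, hmb]
  have h1 : Sym2.map φ e ∈ G.edgeSet ↔ e ∈ G.edgeSet := by
    induction e using Sym2.ind with
    | _ a c => rw [Sym2.map_mk, SimpleGraph.mem_edgeSet, SimpleGraph.mem_edgeSet, φ.map_adj_iff]
  rw [h1]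
  refine and_congr_right fun _ => ?_
  constructor
  · rintro ⟨v, hv, hv'⟩
    obtain ⟨u, hu, rfl⟩ := Sym2.mem_map.1 hv
    exact ⟨u, hu, (Lo.th_act hloc φ).1 hv'⟩
  · rintro ⟨v, hv, hv'⟩
    exact ⟨φ v, Sym2.mem_map.2 ⟨v, hv, rfl⟩, (Lo.th_act hloc φ).2 hv'⟩

theorem Mov.OmP_act (h : Z.H) {x : V} (hx : x ∈ Orb Z o) (m : ℕ) (e : Sym2 V) :
    Sym2.map (h : G ≃g G) e ∈ OmP blk Ein Tgt ((h : G ≃g G) x) m ↔
      e ∈ OmP blk Ein Tgt x m := by
  rw [mem_OmP, mem_OmP]
  refine exists_congr fun j => and_congr_right fun _ => ?_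
  constructor
  · rintro ⟨c', hc', he⟩
    obtain ⟨c0, rfl⟩ := (h : G ≃g G).surjective c'
    have h1 := (hM.Pos_act h hx m j c0).1 hc'
    have h2 := (hM.pos_geo hx m j c0 h1).1
    refine ⟨c0, h1, ?_⟩
    rcases he with he | ⟨f', hf', he⟩
    · exact Or.inl ((hM.Ein_act _ h c0 h2 e).1 he)
    · obtain ⟨f, rfl⟩ := (h : G ≃g G).surjective f'
      exact Or.inr ⟨f, (hM.Tgt_act _ h c0 h2 f).1 hf', (blk_act hM.mem_blk _ f e).1 he⟩
  · rintro ⟨c0, hc0, he⟩
    have h2 := (hM.pos_geo hx m j c0 hc0).1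
    refine ⟨(h : G ≃g G) c0, (hM.Pos_act h hx m j c0).2 hc0, ?_⟩
    rcases he with he | ⟨f, hf, he⟩
    · exact Or.inl ((hM.Ein_act _ h c0 h2 e).2 he)
    · exact Or.inr ⟨(h : G ≃g G) f, (hM.Tgt_act _ h c0 h2 f).2 hf,
        (blk_act hM.mem_blk _ f e).2 he⟩

omit hM in
theorem Phi_diff (h : Z.H) (u v : V) :
    Z.Φ ((h : G ≃g G) u) - Z.Φ ((h : G ≃g G) v) = Z.Φ u - Z.Φ v := by
  rw [Z.equi h u, Z.equi h v]; abel

omit hM in
theorem Dn_act (h : Z.H) (x : V) (θ : ℤ) (v : V) :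
    (h : G ≃g G) v ∈ Dn hloc Z o k L ((h : G ≃g G) x) θ ↔ v ∈ Dn hloc Z o k L x θ := by
  unfold Dn
  simp only [Set.mem_ofPred_eq]
  constructor
  · intro H f hf hvf
    have := H ((h : G ≃g G) f) (Orb_act Z o h hf) ((Lo.th_act hloc _).2 hvf)
    rwa [Phi_diff] at this
  · intro H f' hf' hvf'
    obtain ⟨f, rfl⟩ := (h : G ≃g G).surjective f'
    rw [Phi_diff]
    exact H f ((Orb_act_iff Z o h).1 hf') ((Lo.th_act hloc _).1 hvf')

theorem Mov.tub_act (h : Z.H) {x : V} (hx : x ∈ Orb Z o) (θ : ℤ) (m : ℕ) (e : Sym2 V) :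
    Sym2.map (h : G ≃g G) e ∈ tub hloc Z o k L blk Ein Tgt ((h : G ≃g G) x) θ m ↔
      e ∈ tub hloc Z o k L blk Ein Tgt x θ m := by
  rw [mem_tub, mem_tub, hM.OmP_act h hx m e]
  refine and_congr_right fun _ => ?_
  constructor
  · intro H v hv
    exact (Dn_act h x θ v).1 (H _ (Sym2.mem_map.2 ⟨v, hv, rfl⟩))
  · intro H v hv
    obtain ⟨u, hu, rfl⟩ := Sym2.mem_map.1 hv
    exact (Dn_act h x θ u).2 (H u hu)


end

end Crest.Agent.R147.Mv
end

-- ▼ part R147/Mv475Ann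
section

/-!
# E4c of S0207: the annealed estimate at a common fixed screen
-/

set_option autoImplicit false
set_option linter.unusedSectionVars false

open Finset MeasureTheory ProbabilityTheory unitInterval
open Crest.ProbabilityR.Percolation Crest.Agent.R147.KN Crest.Agent.R159
open Crest.Agent.R147.Cl Crest.Agent.R147.St Crest.Agent.R147.Lo

namespace Crest.Agent.R147.Mv

universe u
variable {V : Type u} {G : SimpleGraph V} {hloc : ∀ v : V, (G.neighborSet v).Finite}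
  {Z : Z2Data G} {o : V} {k : ℕ} {p : I} {blk : V → Finset (Sym2 V)} {L M : ℤ × ℤ → ℤ}
  {T b s y κ : ℝ} {ρ : ℕ} {Ein : Bool → V → Finset (Sym2 V)} {Tgt : Bool → V → Finset V}
  {n : ℕ} {δ : ℝ}

section

variable (hM : Mov hloc Z o k p blk L M T b s y κ ρ Ein Tgt n δ)

include hM

/-- the starting ball is far below the screen -/
theorem Mov.ball_Dn {x : V} {θ : ℤ} (hθ : 199 * T ≤ θ) {v : V}
    (hv : v ∈ th hloc k {x}) : v ∈ Dn hloc Z o k L x θ := by
  intro f _ hvf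
  have h1 := Lo.th_trans hloc hv (Lo.th_symm hloc hvf)
  have h2 := (hM.thin (j := k + k) (by omega) h1).2
  have h3 := (abs_le.1 h2).2
  have hκ := hM.κ_le
  have hT := hM.T_pos
  unfold Yr at h3
  rw [div_le_iff₀ hT] at h3
  have h4 : (L (Z.Φ f - Z.Φ x) : ℝ) < θ := by nlinarith
  exact_mod_cast h4

/-- separation of the screens -/
theorem Mov.sep {x : V} (hx : x ∈ Orb Z o) {θ θ' : ℤ} (hθ : 199 * T ≤ θ)
    (hθθ : θ + Z.C * (2 * k + 1) ≤ θ') {m : ℕ} {e : Sym2 V} (he : e ∈ OmP blk Ein Tgt x m)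
    {v : V} (hv : v ∈ e)
    (h : v ∈ th hloc k {x} ∨ ∃ e' ∈ tub hloc Z o k L blk Ein Tgt x θ m, v ∈ e') :
    e ∈ tub hloc Z o k L blk Ein Tgt x θ' m := by
  have hvD : v ∈ Dn hloc Z o k L x θ := by
    rcases h with h | ⟨e', he', hve'⟩
    · exact hM.ball_Dn hθ h
    · exact tub_Dn he' hve'
  rw [mem_tub]
  refine ⟨he, fun w hw f hf hwf => ?_⟩
  have hvf : v ∈ th hloc (k + 1) {f} := by
    by_cases hvw : v = w
    · rw [hvw]; exact th_mono_n hloc (Nat.le_succ k) _ hwf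
    · exact Lo.th_adj hloc hwf (end_adj (hM.OmP_edge hx he) hv hw hvw).1.symm
  exact (hM.Dn_near hvD hvf).trans_le hθθ

open Classical in
/-- the annealed estimate at one screen, from the plan and the number of exit edges -/
theorem Mov.one_screen [Countable V] (hp0 : 0 < (p : ℝ)) (hp1 : (p : ℝ) < 1)
    {m₀ K Δ : ℕ} (hn : n = m₀ * K) (hK : 0 < K) (hm₀ : 0 < m₀)
    (hcard : ∀ x ∈ Orb Z o, (blk x).card ≤ Δ)
    (hover : ∀ x ∈ Orb Z o, ∀ F : Finset V, (∀ y ∈ F, y ∈ Orb Z o) →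
      (F.filter fun y => y = x ∨ ¬ Disjoint (blk x) (blk y)).card ≤ K)
    {β : ℝ} (hβ0 : 0 < β) (hβ1 : β ≤ 1) (hδ : δ ≤ Nm.del 382 β)
    (hq : 4 / ((p : ℝ) ^ Δ * m₀) ≤ Nm.del 382 β) (Mt : ℕ)
    {x : V} (hx : x ∈ Orb Z o) {m : ℕ} (hm : m ≤ 59) {θ : ℤ} (hθ : 199 * T ≤ θ)
    (hθ' : θ ≤ 201 * T) :
    (setBernoulli G.edgeSet p).real {ω | ((Ysc hloc Z o k L blk Ein Tgt x θ m).filter
        fun f => ∃ a ∈ th hloc k {x}, ∃ y ∈ th hloc (k + 1) {f},
        (openSubgraph G (ω ∩ (↑(tub hloc Z o k L blk Ein Tgt x θ m) : Set (Sym2 V)))).Reachable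
          a y).card < Mt} ≤ β + qs G p (OmP blk Ein Tgt x m)
            (tub hloc Z o k L blk Ein Tgt x θ m) (th hloc k {x}) (Mt * Δ) := by
  subst hn
  set Far : Set V := {v | ∃ f ∈ Orb Z o, v ∈ th hloc k {f} ∧ θ ≤ L (Z.Φ f - Z.Φ x)} with hFar
  obtain ⟨N, hN⟩ : ∃ N, N = Pl.len m := ⟨_, rfl⟩
  have hN382 : N ≤ 382 := hN.trans_le (len_le hm)
  have hΩ : OmP blk Ein Tgt x m = Om Ein Tgt blk (Pl.idx m) x N := by rw [hN]; rfl
  have hchain := chain G p hp0 hp1 (fun f => th hloc k {f}) (fun f => th hloc (k + 1) {f})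
    blk Ein Tgt (fun x e he => ((hM.mem_blk x e).1 he).1)
    (fun x y hy z hz => Lo.reach_blk hloc hy (th_mono_n hloc (Nat.le_succ k) _ hz) (by
      intro e he
      rw [Finset.mem_coe, hM.mem_blk]
      obtain ⟨h1, v, hv, hve⟩ := (Lo.mem_blk hloc).1 (Finset.mem_coe.1 he)
      exact ⟨h1, v, hve, hv⟩))
    hK hm₀ (Orb Z o) hcard hover hM.Ein_edge hM.Tgt_orb hM.disj
    (fun i x hx => by convert hM.fail i x hx)
    (Pl.idx m) N hβ0 (hδ.trans (Nm_del_anti hN382 hβ0 hβ1))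
    (hq.trans (Nm_del_anti hN382 hβ0 hβ1)) x hx Far (by
      intro c hc
      obtain ⟨h1, _, h3, _⟩ := hM.pos_geo hx m N c (by convert hc)
      refine ⟨c, Lo.th_self hloc _ _, c, h1, Lo.th_self hloc _ _, ?_⟩
      have h4 := Pl.pos_snd_len hM.y_le m
      rw [← hN] at h4
      have h5 : (N : ℝ) * κ ≤ 1 / 10 := by
        have h6 : (N : ℝ) ≤ 382 := by exact_mod_cast hN382
        have h7 := hM.κ_nonneg
        have h8 := hM.κ_le
        nlinarith
      have h9 := (abs_le.1 h3).1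
      have h10 : (0 : ℝ) ≤ m := by positivity
      have h11 : 201 ≤ Yr L T (Z.Φ c - Z.Φ x) := by linarith
      unfold Yr at h11
      rw [le_div_iff₀ hM.T_pos] at h11
      have h12 : (θ : ℝ) ≤ L (Z.Φ c - Z.Φ x) := hθ'.trans h11
      exact_mod_cast h12)
  have hfail := fail_inf G p (Ω := OmP blk Ein Tgt x m)
    (D := tub hloc Z o k L blk Ein Tgt x θ m) (th hloc k {x})
    (fun f => th hloc (k + 1) {f}) blk (Ysc hloc Z o k L blk Ein Tgt x θ m) (Δ := Δ) (M := Mt)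
    (fun f hf => hcard f (Ysc_orb hf)) Far
    (by
      rintro v hv ⟨f, hf, hvf, hle⟩
      exact absurd (hM.ball_Dn hθ hv f hf hvf) (not_lt.2 hle))
    (by
      rintro e he v hv ⟨f, hf, hvf, hle⟩
      exact absurd (tub_Dn he hv f hf hvf) (not_lt.2 hle))
    (by
      intro e he heD v hv hvA
      have hvD : v ∈ Dn hloc Z o k L x θ := by
        rcases hvA with h | ⟨e', he', hve'⟩
        · exact hM.ball_Dn hθ h
        · exact tub_Dn he' hve'
      have hw : ∃ w ∈ e, w ∉ Dn hloc Z o k L x θ := by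
        by_contra hcon
        push Not at hcon
        exact heD (mem_tub.2 ⟨he, hcon⟩)
      obtain ⟨w, hw, hwD⟩ := hw
      have hvw : v ≠ w := by
        rintro rfl; exact hwD hvD
      have hadj := end_adj (hM.OmP_edge hx he) hv hw hvw
      unfold Dn at hwD
      simp only [Set.mem_ofPred_eq, not_forall, not_lt] at hwD
      obtain ⟨f, hf, hwf, hle⟩ := hwD
      refine ⟨f, mem_Ysc.2 ⟨hf, hle, e, he, ⟨w, hw, hwf⟩, v, hv, hvD⟩,
        Lo.th_adj hloc hwf hadj.1.symm, ?_⟩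
      rw [hM.mem_blk]
      exact ⟨hM.OmP_edge hx he, w, hw, hwf⟩)
  rw [← hΩ] at hchain
  have hfin := hfail.trans (add_le_add hchain le_rfl)
  refine le_trans (le_of_eq ?_) hfin
  congr!

open Classical in
/-- **the annealed estimate (ANN)** at one common screen spacing -/
theorem ann [Countable V] (hp0 : 0 < (p : ℝ)) (hp1 : (p : ℝ) < 1)
    {m₀ K Δ : ℕ} (hn : n = m₀ * K) (hK : 0 < K) (hm₀ : 0 < m₀)
    (hcard : ∀ x ∈ Orb Z o, (blk x).card ≤ Δ)
    (hover : ∀ x ∈ Orb Z o, ∀ F : Finset V, (∀ y ∈ F, y ∈ Orb Z o) →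
      (F.filter fun y => y = x ∨ ¬ Disjoint (blk x) (blk y)).card ≤ K)
    {β : ℝ} (hβ0 : 0 < β) (hβ1 : β ≤ 1) (hδ : δ ≤ Nm.del 382 (β / 2))
    (hq : 4 / ((p : ℝ) ^ Δ * m₀) ≤ Nm.del 382 (β / 2))
    (Cr Mt Ns : ℕ) (h0 g : ℤ) (hg0 : 0 ≤ g) (hg : (Z.C : ℤ) * (2 * k + 1) ≤ g)
    (hNs : (((Cr : ℝ) + 1) * 60) * ((1 - (p : ℝ)) ^ (Mt * Δ))⁻¹ < β / 2 * Ns)
    (hlo : 199 * T + Cr ≤ h0) (hhi : (h0 : ℝ) + Ns * g ≤ 201 * T) :
    ∃ i < Ns, ∀ x ∈ Orb Z o, ∀ r ≤ Cr, ∀ m ≤ 59, ∀ θ : ℤ, θ = h0 + i * g - r →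
      (setBernoulli G.edgeSet p).real {ω | ((Ysc hloc Z o k L blk Ein Tgt x θ m).filter
        fun f => ∃ a ∈ th hloc k {x}, ∃ y ∈ th hloc (k + 1) {f},
        (openSubgraph G (ω ∩ (↑(tub hloc Z o k L blk Ein Tgt x θ m) : Set (Sym2 V)))).Reachable
          a y).card < Mt} ≤ β := by
  have hoO : o ∈ Orb Z o := mem_Orb_self Z o
  -- bounds for the heights
  have hθlo : ∀ i : ℕ, ∀ r ≤ Cr, 199 * T ≤ ((h0 + i * g - r : ℤ) : ℝ) := by
    intro i r hr
    push_cast
    have h1 : (r : ℝ) ≤ Cr := by exact_mod_cast hr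
    have h2 : (0 : ℝ) ≤ (i : ℝ) * g := by
      have : (0 : ℝ) ≤ g := by exact_mod_cast hg0
      positivity
    linarith
  have hθhi : ∀ i < Ns, ∀ r : ℕ, ((h0 + i * g - r : ℤ) : ℝ) ≤ 201 * T := by
    intro i hi r
    push_cast
    have h1 : (i : ℝ) ≤ Ns := by exact_mod_cast hi.le
    have h2 : (0 : ℝ) ≤ g := by exact_mod_cast hg0
    have h3 : (i : ℝ) * g ≤ Ns * g := mul_le_mul_of_nonneg_right h1 h2
    have h4 : (0 : ℝ) ≤ r := by positivity
    linarith
  obtain ⟨i, hi, hgood⟩ := exists_good_index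
    ((Finset.range (Cr + 1)) ×ˢ (Finset.range 60)) Ns
    (fun t i => qs G p (OmP blk Ein Tgt o t.2)
      (tub hloc Z o k L blk Ein Tgt o (h0 + i * g - t.1) t.2) (th hloc k {o}) (Mt * Δ))
    (fun t _ i _ => qs_nonneg _ _ _ _ _ _)
    (W := ((1 - (p : ℝ)) ^ (Mt * Δ))⁻¹) (β := β / 2)
    (by
      rintro ⟨r, m⟩ ht
      rw [Finset.mem_product, Finset.mem_range, Finset.mem_range] at ht
      simp only at ht
      refine screens_inf G p hp1 (Ω := OmP blk Ein Tgt o m) (A := th hloc k {o})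
        (fun e he => hM.OmP_edge hoO he) Ns
        (fun i => tub hloc Z o k L blk Ein Tgt o (h0 + i * g - r) m)
        (fun i _ => tub_subset o _ m) ?_ (Mt * Δ)
      intro i j hij hj e he v hv h
      refine hM.sep hoO (hθlo i r (by omega)) ?_ he hv h
      have h1 : (i : ℤ) + 1 ≤ j := by exact_mod_cast hij
      have h2 : ((i : ℤ) + 1) * g ≤ j * g := mul_le_mul_of_nonneg_right h1 hg0
      linarith)
    (by
      rw [Finset.card_product, Finset.card_range, Finset.card_range]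
      push_cast
      exact hNs)
  refine ⟨i, hi, fun x hx r hr m hm θ hθ => ?_⟩
  subst hθ
  have h1 := hM.one_screen hp0 hp1 hn hK hm₀ hcard hover (β := β / 2) (by linarith)
    (by linarith) hδ hq Mt hx hm (hθlo i r hr) (hθhi i hi r)
  have h2 := hgood (r, m) (by
    rw [Finset.mem_product, Finset.mem_range, Finset.mem_range]
    exact ⟨by show r < Cr + 1; omega, by show m < 60; omega⟩)
  simp only at h2
  obtain ⟨h, rfl⟩ := hx
  rw [qs_aut G p (h : G ≃g G) (tub_subset o _ m) (fun e => hM.OmP_act h hoO m e)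
    (fun e => hM.tub_act h hoO _ m e) (fun v => Lo.th_act hloc (h : G ≃g G)) (Mt * Δ)] at h1
  linarith

end

end Crest.Agent.R147.Mv
end

-- ▼ part R147/End490C

/-!
Row 147 (helper490), final assembly, part C: helper475's `ann` gives the statement `E4c`.
-/

set_option autoImplicit false

open Crest.ProbabilityR.Percolation MeasureTheory ProbabilityTheory unitInterval Filter
open Crest.Agent.R159 Crest.Agent.R159.Sharp Crest.Agent.R147.Cl

namespace Crest.Agent.R147.Fi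

universe u
variable {V : Type u} {G : SimpleGraph V}

/-- **E4c** -/
theorem e4c [Countable V] (hloc : ∀ v : V, (G.neighborSet v).Finite) (Z : St.Z2Data G) (o : V)
    (p : I) (hp0 : 0 < (p : ℝ)) (hp1 : (p : ℝ) < 1) : E4c hloc Z o p := by
  classical
  intro β hβ
  set β' : ℝ := min β 1 with hβ'
  have hβ'0 : 0 < β' := lt_min hβ one_pos
  have hβ'1 : β' ≤ 1 := min_le_right _ _
  have hβ'β : β' ≤ β := min_le_left _ _
  have hdel : 0 < Nm.del 382 (β' / 2) := Nm.del_pos 382 (by linarith)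
  refine ⟨Nm.del 382 (β' / 2), hdel, 8000, by norm_num, ?_⟩
  intro k hcov
  obtain ⟨Δ, hΔ⟩ := Lo.exists_card_blk hloc Z k
  obtain ⟨K, hK1, hK⟩ := exists_overlap' hloc Z k
  have hq : 0 < (p : ℝ) ^ Δ := pow_pos hp0 Δ
  obtain ⟨m₀, hm₀⟩ := exists_nat_gt (4 / ((p : ℝ) ^ Δ * Nm.del 382 (β' / 2)))
  have hm₀0 : (0 : ℝ) < m₀ := lt_trans (by positivity) hm₀
  have hm₀1 : 0 < m₀ := by exact_mod_cast hm₀0
  have h4 : 4 / ((p : ℝ) ^ Δ * m₀) ≤ Nm.del 382 (β' / 2) := by
    rw [div_le_iff₀ (by positivity)]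
    rw [div_lt_iff₀ (by positivity)] at hm₀
    linarith
  refine ⟨m₀ * K, ?_⟩
  intro N
  -- screens
  set w : ℤ := (Z.C : ℤ) * (2 * k + 1) + 1 with hw
  have hC0 : (0 : ℤ) ≤ (Z.C : ℤ) * (2 * k + 1) := by positivity
  have hw0 : 0 < w := by omega
  set Cr : ℕ := w.toNat with hCr
  have hCrw : (Cr : ℤ) = w := Int.toNat_of_nonneg hw0.le
  obtain ⟨Ns, hNs⟩ := exists_nat_gt
    (((Cr + 1) * 60 : ℝ) * ((1 - (p : ℝ)) ^ (N * Δ))⁻¹ * (2 / β'))
  have hNs' : ((Cr + 1) * 60 : ℝ) * ((1 - (p : ℝ)) ^ (N * Δ))⁻¹ < β' / 2 * Ns := by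
    have h5 : ((Cr + 1) * 60 : ℝ) * ((1 - (p : ℝ)) ^ (N * Δ))⁻¹ =
        ((Cr + 1) * 60 : ℝ) * ((1 - (p : ℝ)) ^ (N * Δ))⁻¹ * (2 / β') * (β' / 2) := by
      field_simp
    rw [h5, mul_comm (β' / 2)]
    exact mul_lt_mul_of_pos_right hNs (by linarith)
  set g : ℤ := (Z.C : ℤ) * (2 * k + 1) with hg
  refine ⟨((Z.C * (3 * k + 3) : ℕ) : ℝ), (Cr : ℝ) + Ns * g + 1 + 3 * w + 3 * (Z.C * (k + 1)), ?_⟩
  intro L M T b s y r Ein Tgt hT₀ hmov
  have hMv := mov_of_movOut hmov le_rfl le_rfl hcov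
  have hgR : (0 : ℝ) ≤ g := by exact_mod_cast hC0
  have hwR : (0 : ℝ) < w := by exact_mod_cast hw0
  have hCrR : (Cr : ℝ) = w := by exact_mod_cast hCrw
  have hCk : (0 : ℝ) ≤ (Z.C : ℝ) * (k + 1) := by positivity
  have hNg : (0 : ℝ) ≤ (Ns : ℝ) * g := by positivity
  have hbT := hmov.b_le
  have hTbig : (Cr : ℝ) + Ns * g + 1 + 3 * w + 3 * (Z.C * (k + 1)) ≤ T := hT₀.trans hbT
  have hT0 : 0 < T := by linarith
  set h0 : ℤ := ⌈199 * T + Cr⌉ with hh0
  have hlo : 199 * T + Cr ≤ h0 := Int.le_ceil _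
  have hup : (h0 : ℝ) < 199 * T + Cr + 1 := Int.ceil_lt_add_one _
  have hhi : (h0 : ℝ) + Ns * g ≤ 201 * T := by linarith
  obtain ⟨i, hi, hfail⟩ := Mv.ann hMv hp0 hp1 (Δ := Δ) rfl hK1 hm₀1 (fun x _ => hΔ x)
    (fun x _ F _ => by
      refine hK x _ ?_
      intro f' hf'
      rw [Finset.mem_filter] at hf'
      rcases hf'.2 with h5 | h5
      · exact Or.inl h5.symm
      · exact Or.inr h5)
    hβ'0 hβ'1 le_rfl h4 Cr N Ns h0 g hC0 le_rfl hNs' hlo hhi
  set h : ℤ := h0 + i * g with hh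
  have hiN : (i : ℝ) * g ≤ Ns * g := by
    apply mul_le_mul_of_nonneg_right _ hgR
    exact_mod_cast hi.le
  have hi0 : (0 : ℝ) ≤ (i : ℝ) * g := by positivity
  have hhR : (h : ℝ) = h0 + i * g := by rw [hh]; push_cast; ring
  -- the range of the relative heights
  have hθ : ∀ r : ℤ, 0 ≤ r → r < w → 199 * T ≤ ((h - r : ℤ) : ℝ) ∧
      ((h - r : ℤ) : ℝ) ≤ 201 * T := by
    intro r hr0 hrw
    have hr0' : (0 : ℝ) ≤ r := by exact_mod_cast hr0
    have hrw' : (r : ℝ) < w := by exact_mod_cast hrw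
    push_cast
    constructor <;> linarith
  have hh3 : (w : ℝ) + 2 * (Z.C * (k + 1)) < h := by linarith
  refine ⟨h, w, 400 * ((r + 1 + k) + k + 1),
    fun c x r => Mv.tub hloc Z o k L (Lo.blk hloc k) Ein Tgt x (h - r) c,
    fun c x r => Mv.Ysc hloc Z o k L (Lo.blk hloc k) Ein Tgt x (h - r) c, hw0, ?_, ?_, ?_⟩
  · have : ((w + 2 * (Z.C * ((k + 1 : ℕ) : ℤ)) : ℤ) : ℝ) < (h : ℤ) := by
      push_cast
      exact hh3
    exact_mod_cast this
  · push_cast
    linarith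
  · constructor
    · intro c hc1 hc2 x hx r hr0 hrw e he
      exact hMv.tub_edge hx he
    · intro c hc1 hc2 x hx r hr0 hrw e he v hv
      exact hMv.tub_th hx hc2 he hv
    · intro c hc1 hc2 x hx r hr0 hrw e he v hv f hf hvf
      exact Mv.tub_Dn he hv f hf hvf
    · intro c hc1 hc2 x hx r hr0 hrw e he v hv
      have h1 := hMv.tub_X hx hc2 he hv
      have h2 : (c : ℝ) ≤ 59 := by exact_mod_cast hc2
      have h3 : Pg.X L M s b (Z.Φ v - Z.Φ x) = Mv.Xr L M b s (Z.Φ v - Z.Φ x) := rfl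
      rw [h3, abs_le]
      constructor <;> linarith [h1.1, h1.2]
    · intro c hc1 hc2 x hx r hr0 hrw e he v hv
      have h1 := hMv.tub_Y hx hc2 he hv
      unfold Mv.Yr at h1
      rw [le_div_iff₀ hT0] at h1
      linarith
    · intro c hc1 hc2 x hx r hr0 hrw f hf
      obtain ⟨h1, h2⟩ := hθ r hr0 hrw
      exact ⟨Mv.Ysc_orb hf, hMv.Ysc_th hx hc2 hf⟩
    · intro c hc1 hc2 x hx r hr0 hrw f hf
      obtain ⟨h1, h2⟩ := hθ r hr0 hrw
      have h3 := Mv.Ysc_lo hf
      have h4 := hMv.Ysc_hi hx hf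
      refine ⟨h3, ?_⟩
      omega
    · intro c hc1 hc2 x hx r hr0 hrw f hf
      obtain ⟨h1, h2⟩ := hθ r hr0 hrw
      exact (hMv.Ysc_X hx hc2 h1 hf).trans (by norm_num)
    · intro c hc1 hc2 x hx r hr0 hrw
      have hr' : ((r.toNat : ℕ) : ℤ) = r := Int.toNat_of_nonneg hr0
      refine le_trans (hfail x hx r.toNat (by omega) c hc2 (h - r) (by rw [hr', hh])) hβ'β

/-- **S0207 for graphs with `Z2Data`** -/
theorem Z2_zero (hconn : G.Connected) (hloc : ∀ v : V, (G.neighborSet v).Finite)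
    (hlt : bondCriticalValue G < 1) (p : I) (hp : (p : ℝ) = bondCriticalValue G)
    (hna : ¬ IsVertexNonamenable G) (Z : St.Z2Data G) :
    setBernoulli G.edgeSet p {ω | HasInfiniteCluster G ω} = 0 := by
  have : Countable V := Inf.countable_of_connected G hconn hloc
  exact Z2_zero_of hconn hloc hlt p hp hna Z (fun o hp0 hp1 => e4c hloc Z o p hp0 hp1)

end Crest.Agent.R147.Fi
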